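import Mathlib

/-! Definitions shared by the proof files. -/

namespace Vale.Agent.P337

open Finset

section Trace
open MvPolynomial

/-- The exponent `m (k + 1) - 1`. -/
noncomputable def ex {n : ℕ} (m : ℕ) (k : Fin n → ℕ) : Fin n →₀ ℕ :=
  Finsupp.equivFunOnFinite.symm fun i => m * (k i + 1) - 1

/-- The truncated residue functional of the system `X i ^ m - h i`. -/
noncomputable def tau {K : Type} [CommRing K] {n : ℕ} (m B : ℕ)
    (h : Fin n → MvPolynomial (Fin n) K) (G : MvPolynomial (Fin n) K) : K :=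
  ∑ k ∈ Fintype.piFinset fun _ : Fin n => range B, coeff (ex m k) (G * ∏ i, h i ^ k i)

/-- The Jacobian determinant of the system. -/
noncomputable def jac {K : Type} [CommRing K] {n : ℕ} (m : ℕ)
    (h : Fin n → MvPolynomial (Fin n) K) : MvPolynomial (Fin n) K :=
  (Matrix.of fun i j => pderiv j (X i ^ m - h i)).det

/-- `Z` is the multiset of solutions of the system, with the trace formula. -/
def IsPts {n : ℕ} (m : ℕ) (h : Fin n → MvPolynomial (Fin n) ℂ) (Z : Multiset (Fin n → ℂ)) : Prop :=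
  Z.card = m ^ n ∧ (∀ z, z ∈ Z ↔ ∀ i, z i ^ m = eval z (h i)) ∧
    ∀ (g : MvPolynomial (Fin n) ℂ) (B : ℕ), g.totalDegree < B →
      (Z.map fun z => eval z g).sum = tau m B h (g * jac m h)

end Trace

/-- The product behind the rational approximation of the sign. -/
noncomputable def pw (E N : ℕ) (v : ℂ) : ℂ := ∏ j ∈ range (2 * E + 1), ((2 : ℂ) ^ j + v) ^ N

/-- Points where the approximation is accurate. -/
def Good (E Θ : ℕ) (v : ℂ) : Prop :=
  v = 0 ∨ (1 ≤ ‖v‖ ∧ ‖v‖ ≤ 2 ^ (2 * E) ∧ ‖v‖ ≤ Θ * |v.re|)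

/-- Numerator of the approximate rank. -/
noncomputable def rkA (E N : ℕ) (c u : ℂ) (Λ : Multiset ℂ) (α : ℂ) : ℂ :=
  c * (Λ.map fun β => 3 * pw E N (u * (α - β)) + pw E N (-(u * (α - β)))).prod

/-- Denominator of the approximate rank. -/
noncomputable def rkB (E N : ℕ) (c u : ℂ) (Λ : Multiset ℂ) (α : ℂ) : ℂ :=
  c * (Λ.map fun β => pw E N (u * (α - β)) + pw E N (-(u * (α - β)))).prod

/-- Numerator of the test function. -/
noncomputable def tstN (E N : ℕ) (c u u' : ℂ) (Λ : Multiset ℂ) (α γ : ℂ) : ℂ :=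
  (rkA E N c u Λ α * rkB E N c u' Λ α - rkA E N c u' Λ α * rkB E N c u Λ α) ^ 2 *
    (pw E N (u * γ) + pw E N (-(u * γ))) +
    2 * pw E N (-(u * γ)) * (rkB E N c u Λ α * rkB E N c u' Λ α) ^ 2

/-- Denominator of the test function. -/
noncomputable def tstD (E N : ℕ) (c u u' : ℂ) (Λ : Multiset ℂ) (α γ : ℂ) : ℂ :=
  (rkB E N c u Λ α * rkB E N c u' Λ α) ^ 2 * (pw E N (u * γ) + pw E N (-(u * γ)))

end Vale.Agent.P337
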