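import Mathlib

namespace Vale.Agent.P337

/-- A function on binary words is computed in polynomial time by a deterministic machine with
finite control and finitely many stacks over finite alphabets. -/
def PolyTime (f : List Bool → List Bool) : Prop :=
  ∃ M : Turing.TM2ComputableInPolyTime (id : List Bool → List Bool) (id : List Bool → List Bool) f,
    ∀ k : M.tm.K, Finite (M.tm.Γ k)

/-- A self-delimiting pairing of binary words. -/
def pair (x y : List Bool) : List Bool := x.flatMap (fun b => [true, b]) ++ false :: y

open Classical in
/-- The answers to the first `k` adaptive queries to the oracle `A`: each query is computed by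
`ask` from the word `w` and the earlier answers. -/
noncomputable def answers (A : Set (List Bool)) (ask : List Bool → List Bool) (w : List Bool) :
    ℕ → List Bool
  | 0 => []
  | k + 1 => answers A ask w k ++ [decide (ask (pair w (answers A ask w k)) ∈ A)]

/-- The class `PP` with oracle `A`. On input `x` the machine tosses polynomially many fair coins
`r`, asks polynomially many adaptive oracle queries and then decides, all in polynomial time; it
accepts with probability above one half exactly on the members of the language. -/
def PP (A : Set (List Bool)) : Set (Set (List Bool)) :=
  {L | ∃ (coins queries : Polynomial ℕ) (ask out : List Bool → List Bool),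
    PolyTime ask ∧ PolyTime out ∧ ∀ x : List Bool, x ∈ L ↔
      2 ^ coins.eval x.length < 2 * Set.ncard {r : List Bool | r.length = coins.eval x.length ∧
        out (pair (pair x r) (answers A ask (pair x r) (queries.eval x.length))) = [true]}}

/-- The levels of the counting hierarchy. -/
def Level : ℕ → Set (Set (List Bool))
  | 0 => {L | ∃ f : List Bool → List Bool, PolyTime f ∧ ∀ x, x ∈ L ↔ f x = [true]}
  | j + 1 => {L | ∃ A ∈ Level j, L ∈ PP A}

/-- An integer polynomial in `n` variables as a list of monomials: a coefficient and an exponent
vector. -/
abbrev Poly (n : ℕ) : Type := List (ℤ × (Fin n → ℕ))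

/-- The value of a polynomial at a real point. -/
noncomputable def value {n : ℕ} (p : Poly n) (x : Fin n → ℝ) : ℝ :=
  (p.map fun t => (t.1 : ℝ) * ∏ i, x i ^ t.2 i).sum

/-- Boolean formulas over the atoms `p = 0` and `p > 0`. -/
inductive Formula (n : ℕ) : Type
  | eq : Poly n → Formula n
  | pos : Poly n → Formula n
  | not : Formula n → Formula n
  | and : Formula n → Formula n → Formula n
  | or : Formula n → Formula n → Formula n

/-- Truth of a formula at a real point. -/
def Holds {n : ℕ} (x : Fin n → ℝ) : Formula n → Prop
  | .eq p => value p x = 0
  | .pos p => 0 < value p x
  | .not φ => ¬ Holds x φ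
  | .and φ ψ => Holds x φ ∧ Holds x ψ
  | .or φ ψ => Holds x φ ∨ Holds x ψ

/-- Unary code of a number. -/
def unary (k : ℕ) : List Bool := List.replicate k true ++ [false]

/-- Self-delimiting binary code of a number. -/
def binary (k : ℕ) : List Bool := k.bits.flatMap (fun b => [true, b]) ++ [false]

/-- Code of a polynomial: for each monomial a mark, the sign and the binary absolute value of the
coefficient, and the exponents in unary; then an end mark. -/
def polyCode {n : ℕ} (p : Poly n) : List Bool :=
  p.flatMap (fun t => true :: decide (t.1 < 0) :: binary t.1.natAbs ++
    (List.ofFn t.2).flatMap unary) ++ [false]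

/-- Code of a formula in Polish form. -/
def code {n : ℕ} : Formula n → List Bool
  | .eq p => false :: false :: polyCode p
  | .pos p => false :: true :: polyCode p
  | .not φ => true :: false :: code φ
  | .and φ ψ => true :: true :: false :: (code φ ++ code ψ)
  | .or φ ψ => true :: true :: true :: (code φ ++ code ψ)

/-- The language of true existential sentences over the reals. -/
def ETR : Set (List Bool) :=
  {w | ∃ (n : ℕ) (φ : Formula n), w = unary n ++ code φ ∧ ∃ x : Fin n → ℝ, Holds x φ}

end Vale.Agent.P337
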