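import Vale.Agent.Lib.CH.Lev
import Vale.Agent.P337.Defs

/-! Typed levels of the counting hierarchy give levels of languages. -/

namespace Vale.Agent.P337

open Vale.Agent.Lib.PolyTime Vale.Agent.Lib.Count

namespace BridgeAux

/-- One step of reading the left component of a pair. -/
def step (s : ℕ × List Bool) (b : Bool) : ℕ × List Bool :=
  if s.1 = 0 then (if b = true then 1 else 2, s.2) else if s.1 = 1 then (0, s.2 ++ [b]) else s

/-- Left component. -/
def left (w : List Bool) : List Bool := (w.foldl step (0, [])).2

/-- Right component. -/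
def right (w : List Bool) : List Bool := w.drop ((left w).length + (left w).length + 1)

theorem foldl_two (y l : List Bool) : y.foldl step (2, l) = (2, l) := by
  induction y with
  | nil => rfl
  | cons b y ih => simpa [step] using ih

theorem foldl_pair (x y l : List Bool) : (pair x y).foldl step (0, l) = (2, l ++ x) := by
  induction x generalizing l with
  | nil => simpa [pair, step] using foldl_two y l
  | cons b x ih => simpa [pair, step] using ih (l ++ [b])

theorem left_pair (x y : List Bool) : left (pair x y) = x := by rw [left, foldl_pair]; rfl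

theorem right_pair (x y : List Bool) : right (pair x y) = y := by
  rw [right, left_pair]
  induction x with
  | nil => rfl
  | cons b x ih =>
    rw [show (b :: x).length + (b :: x).length + 1 = x.length + x.length + 1 + 1 + 1 by
      simp; omega]
    exact ih

theorem last_pair (x : List Bool) (b : Bool) : (pair x [b]).reverse.headD false = b := by
  simp [pair]

theorem pt_left : PT left := by
  have h := PT.foldl_add (f := fun (_ : List Bool) => step) (l := fun w => w)
    (i := fun _ => (0, [])) (by unfold step; fun_prop) PT.id (by fun_prop) (PB.const 4)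
    fun _ s b _ => by
      have h0 : sz (0 : ℕ) = 0 := rfl
      have h1 : sz (1 : ℕ) = 1 := rfl
      have h2 : sz (2 : ℕ) = 2 := rfl
      rw [sz_prod s]
      unfold step
      split_ifs <;> simp [sz_append, sz_prod, h0, h1, h2] <;> omega
  exact h.snd

theorem pt_right : PT right := by
  have := pt_left
  unfold right
  fun_prop

theorem cnt_double (N : ℕ) (P : ℕ → Prop) :
    cnt (2 * N) P = cnt N (fun y => P (y + y + 0)) + cnt N fun y => P (y + y + 1) := by
  induction N with
  | zero => simp
  | succ N ih =>
    rw [show 2 * (N + 1) = 2 * N + 1 + 1 by ring, cnt_succ, cnt_succ, cnt_succ, cnt_succ, ih,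
      two_mul, add_zero]
    omega

theorem finite_len (c : ℕ) (P : List Bool → Prop) : {r : List Bool | r.length = c ∧ P r}.Finite :=
  (List.finite_length_eq Bool c).subset fun _ h => h.1

theorem ncard_words (c : ℕ) (P : ℕ → Prop) :
    Set.ncard {r : List Bool | r.length = c ∧ P (val r)} = cnt (2 ^ c) P := by
  induction c generalizing P with
  | zero =>
    rw [pow_zero, ← zero_add 1, cnt_succ, cnt_zero, zero_add]
    split_ifs with h
    · rw [Set.ncard_eq_one]
      exact ⟨[], Set.ext fun r => ⟨fun hr => List.length_eq_zero_iff.1 hr.1,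
        fun hr => by rw [hr]; exact ⟨rfl, h⟩⟩⟩
    · rw [Set.ncard_eq_zero (finite_len _ _), Set.eq_empty_iff_forall_notMem]
      rintro r ⟨h1, h2⟩
      rw [List.length_eq_zero_iff.1 h1] at h2
      exact h h2
  | succ c ih =>
    rw [pow_succ', cnt_double, ← ih, ← ih,
      ← Set.ncard_image_of_injective {r : List Bool | r.length = c ∧ P (val r + val r + 0)}
        (List.cons_injective (a := false)),
      ← Set.ncard_image_of_injective {r : List Bool | r.length = c ∧ P (val r + val r + 1)}
        (List.cons_injective (a := true)),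
      ← Set.ncard_union_eq _ ((finite_len _ _).image _) ((finite_len _ _).image _)]
    · congr 1
      ext r
      constructor
      · rintro ⟨h1, h2⟩
        rcases r with _ | ⟨_ | _, r⟩
        · simp at h1
        · exact Or.inl ⟨r, ⟨by simpa using h1, h2⟩, rfl⟩
        · exact Or.inr ⟨r, ⟨by simpa using h1, h2⟩, rfl⟩
      · rintro (⟨r, ⟨h1, h2⟩, rfl⟩ | ⟨r, ⟨h1, h2⟩, rfl⟩)
        exacts [⟨by simp [h1], h2⟩, ⟨by simp [h1], h2⟩]
    · rw [Set.disjoint_left]
      rintro _ ⟨r, -, rfl⟩ ⟨r', -, h⟩
      simp at h

theorem cnt_mod (k N : ℕ) (P : ℕ → Prop) : cnt (k * N) (fun y => P (y % N)) = k * cnt N P := by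
  induction k with
  | zero => simp
  | succ k ih =>
    rw [add_mul, one_mul, cnt_add, ih, add_mul, one_mul]
    congr 1
    exact cnt_congr fun y hy => by rw [mul_comm, Nat.mul_add_mod, Nat.mod_eq_of_lt hy]

theorem sz_word (x : List Bool) : sz x = 4 * x.length := by
  induction x with
  | nil => rfl
  | cons b x ih => simp [ih]; omega

end BridgeAux

open BridgeAux in
theorem bridge (raw : ∀ f : List Bool → List Bool, PT f → PolyTime f) :
    ∀ (j : ℕ) {α : Type} [Enc α] (P : α → Prop) (g : List Bool → α), Lev j P → PT g →
      {x | P (g x)} ∈ Level j := by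
  classical
  intro j
  induction j with
  | zero =>
    intro α _ P g hP hg
    have hP' : PT P := hP
    exact ⟨fun x => [decide (P (g x))], raw _ (by fun_prop), fun x => by simp⟩
  | succ j ih =>
    rintro α _ P g ⟨B, Q, h1, h2, h3, h4⟩ hg
    have hl := pt_left
    have hr := pt_right
    have h5 : PT fun a => 2 ^ B a := pt_two_pow h1 h2
    have hx : PT fun w => g (left (left w)) := by fun_prop
    have h6 : PT fun w => val (right (left w)) % 2 ^ B (g (left (left w))) :=
      PT.mod (by fun_prop) (h5.comp hx)
    obtain ⟨c, hc⟩ := h2.comp hg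
    refine ⟨_, ih Q _ h3 (hx.mk h6), c.comp (Polynomial.C 4 * Polynomial.X), 1, id,
      fun w => [w.reverse.headD false], raw _ PT.id, raw _ (by fun_prop), fun x => ?_⟩
    have hb : B (g x) ≤ (c.comp (Polynomial.C 4 * Polynomial.X)).eval x.length := by
      simpa [sz_word] using hc x
    generalize (c.comp (Polynomial.C 4 * Polynomial.X)).eval x.length = n at hb ⊢
    obtain ⟨k, rfl⟩ := Nat.exists_eq_add_of_le' hb
    have e := ncard_words (k + B (g x)) fun y => Q (g x, y % 2 ^ B (g x))
    rw [pow_add, cnt_mod _ _ fun y => Q (g x, y)] at e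
    rw [Set.mem_setOf_eq, h4, pow_add, ← Nat.mul_lt_mul_left (a := 2 ^ k) (by positivity),
      mul_left_comm, ← e]
    refine iff_of_eq (congrArg (fun S => _ < 2 * Set.ncard S) ?_)
    ext r
    simp [answers, left_pair, right_pair, last_pair, -List.headD_eq_head?_getD]

end Vale.Agent.P337
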