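import Mathlib

/-! Coefficients as sums over a prime field; determinants as sums over lists. -/

namespace Vale.Agent.P337

open Finset

/-- Lists of length `n` with entries in `t`. -/
def vecs (n : ℕ) (t : Finset ℕ) : Finset (List ℕ) :=
  (Fintype.piFinset fun _ : Fin n => t).map ⟨List.ofFn, List.ofFn_injective⟩

/-- Setting the variables from `n` on to zero. -/
noncomputable def kap {R : Type} [CommRing R] (n : ℕ) :
    MvPolynomial ℕ R →ₐ[R] MvPolynomial (Fin n) R :=
  MvPolynomial.killCompl Fin.val_injective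

/-- Extension by zero. -/
def ext {S : Type} [Zero S] {n : ℕ} (z : Fin n → S) (j : ℕ) : S := if h : j < n then z ⟨j, h⟩ else 0

theorem mem_vecs {n : ℕ} {t : Finset ℕ} {u : List ℕ} :
    u ∈ vecs n t ↔ u.length = n ∧ ∀ y ∈ u, y ∈ t := by
  simp only [vecs, mem_map, Fintype.mem_piFinset, Function.Embedding.coeFn_mk]
  constructor
  · rintro ⟨f, hf, rfl⟩
    exact ⟨List.length_ofFn, List.forall_mem_ofFn_iff.2 hf⟩
  · rintro ⟨rfl, h⟩
    exact ⟨fun i => u[i], fun i => h _ (List.getElem_mem _), List.ofFn_getElem⟩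

section Kap

open MvPolynomial

variable {R S : Type} [CommRing R] [CommRing S]

theorem ext_val {n : ℕ} (z : Fin n → S) (i : Fin n) : ext z i = z i := by
  simp [ext]

theorem kap_X {n : ℕ} (i : Fin n) : kap n (X (i : ℕ) : MvPolynomial ℕ R) = X i := by
  rw [← rename_X Fin.val i, kap, killCompl_rename_app]

theorem Dft.kap_X' {n j : ℕ} (h : ¬ j < n) : kap n (X j : MvPolynomial ℕ R) = 0 := by
  rw [kap, killCompl, aeval_X, dif_neg]
  rintro ⟨i, rfl⟩
  exact h i.2

theorem eval₂_kap {n : ℕ} (φ : R →+* S) (z : Fin n → S) (Q : MvPolynomial ℕ R) :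
    eval₂ φ z (kap n Q) = eval₂ φ (ext z) Q := by
  induction Q using MvPolynomial.induction_on with
  | C a => rw [algHom_C]; simp
  | add p q hp hq => rw [map_add, eval₂_add, eval₂_add, hp, hq]
  | mul_X p j hp =>
    rw [map_mul, eval₂_mul, eval₂_mul, hp, eval₂_X]
    by_cases h : j < n
    · rw [kap_X ⟨j, h⟩, eval₂_X, ext, dif_pos h]
    · rw [Dft.kap_X' h, ext, dif_neg h, eval₂_zero]

theorem map_kap {n : ℕ} (φ : R →+* S) (Q : MvPolynomial ℕ R) :
    map φ (kap n Q) = kap n (map φ Q) :=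
  (killCompl_map _ φ Q).symm

theorem pderiv_kap {n : ℕ} (i : Fin n) (Q : MvPolynomial ℕ R) :
    pderiv i (kap n Q) = kap n (pderiv (i : ℕ) Q) := by
  induction Q using MvPolynomial.induction_on with
  | C a => rw [algHom_C]; simp
  | add p q hp hq => simp only [map_add, hp, hq]
  | mul_X p j hp =>
    rw [map_mul, pderiv_mul, pderiv_mul, hp, map_add, map_mul, map_mul]
    congr 2
    by_cases h : j < n
    · rw [kap_X ⟨j, h⟩]
      by_cases h' : j = i
      · subst h'; simp
      · rw [pderiv_X_of_ne h', pderiv_X_of_ne fun e => h' (congrArg Fin.val e), map_zero]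
    · rw [Dft.kap_X' h, pderiv_X_of_ne fun e : j = i => h (e ▸ i.2), map_zero, map_zero]

theorem totalDegree_kap {n : ℕ} (Q : MvPolynomial ℕ R) :
    (kap n Q).totalDegree ≤ Q.totalDegree := by
  refine Finset.sup_le fun s hs => ?_
  rw [mem_support_iff, kap, coeff_killCompl, ← mem_support_iff] at hs
  have := le_totalDegree hs
  rwa [Finsupp.sum_mapDomain_index (fun _ => rfl) (fun _ _ _ => rfl)] at this

theorem totalDegree_pderiv_le (i : ℕ) (Q : MvPolynomial ℕ R) :
    (pderiv i Q).totalDegree ≤ Q.totalDegree := by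
  refine Finset.sup_le fun s hs => ?_
  rw [mem_support_iff, coeff_pderiv] at hs
  have := le_totalDegree (mem_support_iff.2 (left_ne_zero_of_mul hs))
  rw [Finsupp.sum_add_index' (fun _ => rfl) (fun _ _ _ => rfl)] at this
  omega

end Kap

theorem Dft.sum_pow {p : ℕ} [hp : Fact p.Prime] {j k : ℕ} (hj : j < p - 1) (hk : k < p - 1) :
    ∑ t ∈ Ico 1 p, (t : ZMod p) ^ (p - 1 - k) * (t : ZMod p) ^ j = if j = k then -1 else 0 := by
  classical
  have h1 := FiniteField.sum_pow_units (ZMod p) (p - 1 - k + j)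
  rw [ZMod.card] at h1
  have h2 : p - 1 ∣ p - 1 - k + j ↔ j = k := by
    constructor
    · rintro ⟨c, hc⟩
      rcases c with _ | _ | c
      · omega
      · omega
      · have : (p - 1) * (c + 1 + 1) = (p - 1) * c + 2 * (p - 1) := by ring
        omega
    · rintro rfl
      rw [Nat.sub_add_cancel hj.le]
  simp only [h2] at h1
  rw [← h1]
  symm
  refine sum_bij (fun (x : (ZMod p)ˣ) _ => (x : ZMod p).val) (fun x _ => ?_)
    (fun x _ y _ h => Units.ext (ZMod.val_injective p h)) (fun t ht => ?_) fun x _ => ?_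
  · exact mem_Ico.2 ⟨Nat.pos_of_ne_zero ((ZMod.val_ne_zero _).2 x.ne_zero), ZMod.val_lt _⟩
  · obtain ⟨h3, h4⟩ := mem_Ico.1 ht
    have h5 : (t : ZMod p) ≠ 0 := fun h => by
      have := Nat.le_of_dvd h3 ((ZMod.natCast_eq_zero_iff t p).1 h)
      omega
    exact ⟨Units.mk0 _ h5, mem_univ _, ZMod.val_cast_of_lt h4⟩
  · rw [ZMod.natCast_zmod_val, pow_add]

theorem dft_coeff {p : ℕ} [Fact p.Prime] (q : Polynomial (ZMod p)) (k : ℕ)
    (hq : q.natDegree < p - 1) (hk : k < p - 1) :
    q.coeff k = -∑ t ∈ Ico 1 p, (t : ZMod p) ^ (p - 1 - k) * q.eval (t : ZMod p) := by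
  simp_rw [Polynomial.eval_eq_sum_range' hq, mul_sum, mul_left_comm _ (q.coeff _)]
  rw [sum_comm]
  simp_rw [← mul_sum]
  rw [sum_congr rfl fun j hj => by rw [Dft.sum_pow (mem_range.1 hj) hk]]
  simp [hk]

theorem dft_pderiv {p : ℕ} [Fact p.Prime] (hp : 2 < p) (Q : MvPolynomial ℕ (ZMod p))
    (hQ : Q.totalDegree < p - 1) (i : ℕ) (x : ℕ → ZMod p) :
    MvPolynomial.eval x (MvPolynomial.pderiv i Q) = -∑ t ∈ Ico 1 p, (t : ZMod p) ^ (p - 2) *
      MvPolynomial.eval (fun j => (if i = j then (t : ZMod p) else 0) + x j) Q := by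
  let f : ℕ → Polynomial (ZMod p) := fun j => (if i = j then Polynomial.X else 0) + Polynomial.C (x j)
  have h1 : ∀ t : ZMod p, ∀ Q : MvPolynomial ℕ (ZMod p), (MvPolynomial.aeval f Q).eval t =
      MvPolynomial.eval (fun j => (if i = j then t else 0) + x j) Q := fun t Q => by
    induction Q using MvPolynomial.induction_on with
    | C a => simp
    | add p q hp hq => simp only [map_add, Polynomial.eval_add, hp, hq]
    | mul_X p j hp =>
      rw [map_mul, Polynomial.eval_mul, hp, map_mul]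
      by_cases h : i = j <;> simp [f, h]
  have h2 : ∀ Q : MvPolynomial ℕ (ZMod p), (Polynomial.derivative (MvPolynomial.aeval f Q)).eval 0 =
      MvPolynomial.eval x (MvPolynomial.pderiv i Q) := fun Q => by
    induction Q using MvPolynomial.induction_on with
    | C a => simp
    | add p q hp hq => simp only [map_add, Polynomial.eval_add, hp, hq]
    | mul_X p j hp =>
      have h3 := h1 0 p
      simp only [ite_self, zero_add] at h3
      rw [map_mul, Polynomial.derivative_mul, Polynomial.eval_add, Polynomial.eval_mul,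
        Polynomial.eval_mul, hp, h3, MvPolynomial.pderiv_mul]
      by_cases h : i = j
      · subst h; simp [f]
      · simp [f, h, MvPolynomial.pderiv_X_of_ne (Ne.symm h)]
  have h4 : (MvPolynomial.aeval f Q).natDegree ≤ Q.totalDegree * 1 :=
    MvPolynomial.aeval_natDegree_le Q le_rfl f fun j => by
      rw [Polynomial.natDegree_add_C]
      split_ifs <;> simp
  have h5 := dft_coeff (MvPolynomial.aeval f Q) 1 (by omega) (by
    have h6 : p ≠ 3 - 1 := by omega
    omega)
  simp only [h1] at h5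
  rw [← h2, ← Polynomial.coeff_zero_eq_eval_zero, Polynomial.coeff_derivative]
  simpa [Nat.sub_sub] using h5

theorem Dft.getD_ofFn {n : ℕ} (u : Fin n → ℕ) (i : Fin n) : (List.ofFn u).getD i 0 = u i := by
  simp

theorem dft_mv {p : ℕ} [Fact p.Prime] (n e : ℕ) (Q : MvPolynomial ℕ (ZMod p))
    (hQ : Q.totalDegree < p - 1) (he : e < p - 1) :
    MvPolynomial.coeff (Finsupp.equivFunOnFinite.symm fun _ : Fin n => e) (kap n Q) =
      (-1) ^ n * ∑ u ∈ vecs n (Ico 1 p), (∏ i ∈ range n, (u.getD i 0 : ZMod p) ^ (p - 1 - e)) *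
        MvPolynomial.eval (fun j => (u.getD j 0 : ZMod p)) Q := by
  classical
  have h1 : ∀ u : Fin n → ℕ, MvPolynomial.eval (fun j => ((List.ofFn u).getD j 0 : ZMod p)) Q =
      MvPolynomial.eval (fun i => (u i : ZMod p)) (kap n Q) := fun u => by
    rw [MvPolynomial.eval, MvPolynomial.eval, MvPolynomial.coe_eval₂Hom, MvPolynomial.coe_eval₂Hom,
      eval₂_kap]
    congr 1
    funext j
    by_cases h : j < n <;> simp [ext, h]
  have h2 := (totalDegree_kap (n := n) Q).trans_lt hQ
  rw [vecs, sum_map]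
  simp only [Function.Embedding.coeFn_mk, h1, ← Fin.prod_univ_eq_prod_range
    (fun i => (((List.ofFn _).getD i 0 : ℕ) : ZMod p) ^ (p - 1 - e)), Dft.getD_ofFn]
  generalize kap n Q = H at h2
  simp_rw [MvPolynomial.eval_eq', mul_sum, mul_left_comm _ (MvPolynomial.coeff _ H),
    ← prod_mul_distrib]
  rw [sum_comm]
  simp_rw [← mul_sum]
  have h3 : ∀ s ∈ H.support, MvPolynomial.coeff s H * ((-1) ^ n *
      ∑ u ∈ Fintype.piFinset fun _ : Fin n => Ico 1 p,
        ∏ i, (u i : ZMod p) ^ (p - 1 - e) * (u i : ZMod p) ^ s i) =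
      if s = Finsupp.equivFunOnFinite.symm fun _ : Fin n => e then MvPolynomial.coeff s H else 0 := by
    intro s hs
    rw [← prod_univ_sum (fun _ => Ico 1 p)
      fun i (t : ℕ) => (t : ZMod p) ^ (p - 1 - e) * (t : ZMod p) ^ s i,
      prod_congr rfl fun i _ => Dft.sum_pow (((MvPolynomial.monomial_le_degreeOf i hs).trans
        (MvPolynomial.degreeOf_le_totalDegree H i)).trans_lt h2) he]
    split_ifs with h
    · subst h; simp [← mul_pow]
    · obtain ⟨i, hi⟩ : ∃ i, s i ≠ e := by
        by_contra h4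
        exact h (Finsupp.ext fun i => by simpa using not_exists.1 h4 i)
      rw [prod_eq_zero (mem_univ i) (if_neg hi)]; simp
  rw [sum_congr rfl h3, sum_ite_eq']
  split_ifs with h
  · rfl
  · exact MvPolynomial.notMem_support_iff.1 h

theorem det_vecs {R : Type} [CommRing R] (n : ℕ) (M : ℕ → ℕ → R) :
    (Matrix.of fun i j : Fin n => M i j).det = ∑ u ∈ vecs n (range n),
      (∏ i ∈ range n, ∏ j ∈ range i, if u.getD j 0 < u.getD i 0 then 1 else
        if u.getD j 0 = u.getD i 0 then 0 else -1) * ∏ i ∈ range n, M (u.getD i 0) i := by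
  classical
  have h1 : ∀ (u : List ℕ) (i : Fin n), (∏ j ∈ range i, if u.getD j 0 < u.getD i 0 then (1 : R) else
      if u.getD j 0 = u.getD i 0 then 0 else -1) = ∏ j ∈ Iio i, if u.getD j 0 < u.getD i 0 then 1 else
        if u.getD j 0 = u.getD i 0 then 0 else -1 := fun u i => by
    rw [← Nat.Iio_eq_range, ← Fin.map_valEmbedding_Iio, prod_map]; rfl
  simp only [← Fin.prod_univ_eq_prod_range (n := n), h1]
  rw [Matrix.det_apply']
  refine sum_bij_ne_zero (fun (σ : Equiv.Perm (Fin n)) _ _ => List.ofFn fun i => (σ i : ℕ))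
    (fun σ _ _ => mem_vecs.2 ⟨by simp, by simp⟩)
    (fun σ _ _ τ _ _ h => Equiv.ext fun i => Fin.ext (congrFun (List.ofFn_injective h) i))
    (fun u hu h0 => ?_) fun σ _ _ => ?_
  rotate_left
  · simp only [Dft.getD_ofFn, Matrix.of_apply, Equiv.Perm.sign_eq_prod_prod_Iio, Units.coe_prod,
      Int.cast_prod]
    congr 1
    refine prod_congr rfl fun i _ => prod_congr rfl fun j hj => ?_
    have h2 : (σ j : ℕ) ≠ σ i := fun h => (mem_Iio.1 hj).ne (σ.injective (Fin.ext h))
    by_cases h : σ j < σ i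
    · rw [if_pos h, if_pos (Fin.lt_def.1 h)]; simp
    · rw [if_neg h, if_neg (mt Fin.lt_def.2 h), if_neg h2]; simp
  · obtain ⟨u, hu', rfl⟩ := mem_map.1 hu
    have h2 : ∀ i, u i < n := fun i => mem_range.1 (Fintype.mem_piFinset.1 hu' i)
    simp only [Function.Embedding.coeFn_mk, Dft.getD_ofFn] at h0
    have h3 : ∀ i j, j < i → u j ≠ u i := fun i j hj e => left_ne_zero_of_mul h0
      (prod_eq_zero (mem_univ i) (prod_eq_zero (mem_Iio.2 hj) (by simp [e])))
    have h4 : Function.Injective fun i => (⟨u i, h2 i⟩ : Fin n) := fun i j e => by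
      have e' : u i = u j := congrArg Fin.val e
      rcases lt_trichotomy i j with h | h | h
      exacts [absurd e' (h3 j i h), h, absurd e'.symm (h3 i j h)]
    let σ : Equiv.Perm (Fin n) := Equiv.ofBijective _ (Finite.injective_iff_bijective.1 h4)
    refine ⟨σ, mem_univ _, ?_, rfl⟩
    intro h5
    refine h0 ?_
    have h6 : (∏ i, M (u i) i) = 0 := by
      have h7 := congrArg (fun z => ((Equiv.Perm.sign σ : ℤ) : R) * z) h5
      simp only [← mul_assoc, ← Int.cast_mul, ← Units.val_mul, Int.units_mul_self, Units.val_one,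
        Int.cast_one, one_mul, mul_zero] at h7
      exact h7
    rw [h6, mul_zero]

end Vale.Agent.P337
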