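import Vale.Agent.P337.CH
import Vale.Agent.P337.Dft

/-! Closure properties of functions of the counting hierarchy. -/

namespace Vale.Agent.P337

open Vale.Agent.Lib.PolyTime Vale.Agent.P328 Finset

variable {α β γ : Type} [Enc α] [Enc β] [Enc γ] [Dec α] [Dec β] [Dec γ]

theorem CF.un {δ : Type} [Enc δ] [Dec δ] {op : β → δ} (h : PT op) {f : α → β} (hf : CF f) :
    CF fun a => op (f a) := (CF.pt h).comp hf

theorem CF.bin {δ : Type} [Enc δ] [Dec δ] {op : β → γ → δ} (h : PT fun x : β × γ => op x.1 x.2)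
    {f : α → β} {g : α → γ} (hf : CF f) (hg : CF g) : CF fun a => op (f a) (g a) :=
  CF.un h (hf.mk hg)

@[fun_prop] theorem CF.fst {f : α → β × γ} (hf : CF f) : CF fun a => (f a).1 :=
  CF.un (PT.fst PT.id) hf

@[fun_prop] theorem CF.snd {f : α → β × γ} (hf : CF f) : CF fun a => (f a).2 :=
  CF.un (PT.snd PT.id) hf

section Arith

variable {f g : α → ℕ} {p q : α → Prop}

@[fun_prop] theorem CF.add (hf : CF f) (hg : CF g) : CF fun a => f a + g a :=
  CF.bin (op := (· + ·)) (by fun_prop) hf hg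
@[fun_prop] theorem CF.sub (hf : CF f) (hg : CF g) : CF fun a => f a - g a :=
  CF.bin (op := (· - ·)) (by fun_prop) hf hg
@[fun_prop] theorem CF.mul (hf : CF f) (hg : CF g) : CF fun a => f a * g a :=
  CF.bin (op := (· * ·)) (by fun_prop) hf hg
@[fun_prop] theorem CF.div (hf : CF f) (hg : CF g) : CF fun a => f a / g a :=
  CF.bin (op := (· / ·)) (by fun_prop) hf hg
@[fun_prop] theorem CF.mod (hf : CF f) (hg : CF g) : CF fun a => f a % g a :=
  CF.bin (op := (· % ·)) (by fun_prop) hf hg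
@[fun_prop] theorem CF.le (hf : CF f) (hg : CF g) : CF fun a => f a ≤ g a :=
  CF.bin (op := (· ≤ ·)) (by fun_prop) hf hg
@[fun_prop] theorem CF.lt (hf : CF f) (hg : CF g) : CF fun a => f a < g a :=
  CF.bin (op := (· < ·)) (by fun_prop) hf hg
@[fun_prop] theorem CF.not (hp : CF p) : CF fun a => ¬ p a := CF.un (PT.not PT.id) hp
@[fun_prop] theorem CF.and (hp : CF p) (hq : CF q) : CF fun a => p a ∧ q a :=
  CF.bin (op := And) (by fun_prop) hp hq
@[fun_prop] theorem CF.or (hp : CF p) (hq : CF q) : CF fun a => p a ∨ q a :=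
  CF.bin (op := Or) (by fun_prop) hp hq

end Arith

@[fun_prop] theorem CF.eq {f g : α → β} (hf : CF f) (hg : CF g) : CF fun a => f a = g a :=
  CF.bin (op := Eq) (by fun_prop) hf hg

@[fun_prop] theorem CF.ite {c : α → Prop} [DecidablePred c] {f g : α → β} (hc : CF c) (hf : CF f)
    (hg : CF g) : CF fun a => if c a then f a else g a := by
  classical
  exact (CF.un (op := fun x : Prop × β × β => if x.1 then x.2.1 else x.2.2) (by fun_prop)
    (hc.mk (hf.mk hg))).congr fun a => by by_cases h : c a <;> simp [h]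

section Lists

variable [Inhabited β] {l : α → List β}

@[fun_prop] theorem CF.cons {f : α → β} (hf : CF f) (hl : CF l) : CF fun a => f a :: l a :=
  CF.bin (op := List.cons) (by fun_prop) hf hl
@[fun_prop] theorem CF.tail (hl : CF l) : CF fun a => (l a).tail := CF.un (PT.tail PT.id) hl
@[fun_prop] theorem CF.length (hl : CF l) : CF fun a => (l a).length := CF.un (PT.length PT.id) hl
@[fun_prop] theorem CF.headD {d : α → β} (hl : CF l) (hd : CF d) : CF fun a => (l a).headD (d a) :=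
  CF.bin (op := List.headD) (by fun_prop) hl hd
@[fun_prop] theorem CF.getD {n : α → ℕ} {d : α → β} (hl : CF l) (hn : CF n) (hd : CF d) :
    CF fun a => (l a).getD (n a) (d a) :=
  CF.un (op := fun x : List β × ℕ × β => x.1.getD x.2.1 x.2.2) (by fun_prop) (hl.mk (hn.mk hd))

end Lists

/-- Polynomially bounded numbers. -/
@[fun_prop]
def Sm (n : α → ℕ) : Prop := CF n ∧ PB n

omit [Dec α] in
@[fun_prop] theorem Sm.const (k : ℕ) : Sm fun _ : α => k := ⟨CF.const k, PB.const k⟩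

@[fun_prop] theorem Sm.comp {n : β → ℕ} {g : α → β} (hn : Sm n) (hg : CF g) :
    Sm fun a => n (g a) := ⟨hn.1.comp hg, hn.2.comp' hg.1⟩

@[fun_prop] theorem Sm.add {m n : α → ℕ} (hm : Sm m) (hn : Sm n) : Sm fun a => m a + n a :=
  ⟨hm.1.add hn.1, hm.2.add hn.2⟩

@[fun_prop] theorem Sm.mul {m n : α → ℕ} (hm : Sm m) (hn : Sm n) : Sm fun a => m a * n a :=
  ⟨hm.1.mul hn.1, hm.2.mul hn.2⟩

@[fun_prop] theorem Sm.length [Inhabited β] {l : α → List β} (hl : CF l) :
    Sm fun a => (l a).length := ⟨hl.length, hl.1.of_le fun _ => length_le_sz _⟩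

@[fun_prop] theorem Sm.size {f : α → ℕ} (hf : CF f) : Sm fun a => Nat.size (f a) :=
  ⟨CF.un (pt_size PT.id) hf, hf.1⟩

theorem PB.sm' {b : α → ℕ} (hb : PB b) : ∃ c : α → ℕ, Sm c ∧ ∀ a, b a ≤ c a :=
  let ⟨c, h1, h2, h3⟩ := PB.sm hb
  ⟨c, ⟨CF.pt h1, h2⟩, h3⟩

/-- A small number in unary. -/
@[fun_prop] theorem CF.range {n : α → ℕ} (hn : Sm n) : CF fun a => List.range (n a) := by
  obtain ⟨c, c1, c2, c3⟩ := PB.sm hn.2
  exact (CF.bin (op := fun (a : α) (m : ℕ) => List.range (min m (c a)))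
    (PT.range (by fun_prop) ((c2.comp (PT.fst PT.id)).of_le fun _ => min_le_right _ _))
    CF.id hn.1).congr fun a => by rw [min_eq_left (c3 a)]

@[fun_prop] theorem CF.pow {f n : α → ℕ} (hf : CF f) (hn : Sm n) : CF fun a => f a ^ n a := by
  have key : ∀ (x : ℕ) (l : List ℕ) (s : ℕ), l.foldl (fun s _ => s * x) s = s * x ^ l.length := by
    intro x l
    induction l with
    | nil => simp
    | cons y l ih => intro s; simp [ih, pow_succ', mul_assoc]
  have h := PT.foldl_add (f := fun (x : ℕ × List ℕ) (s : ℕ) (_ : ℕ) => s * x.1)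
    (l := fun x => x.2) (i := fun _ => 1) (by fun_prop) (by fun_prop) (by fun_prop)
    (PT.fst PT.id).1 fun x s _ _ => by
      simp only [sz_nat]
      rw [Nat.size_le, pow_add]
      exact Nat.mul_lt_mul'' (Nat.lt_size_self _) (Nat.lt_size_self _)
  exact (CF.un h (hf.mk (CF.range hn))).congr fun a => by simp [key]

/-- Families of finite sets. -/
@[fun_prop]
def FS (s : α → Finset β) : Prop :=
  CF (fun x : α × β => x.2 ∈ s x.1) ∧ ∃ b, PB b ∧ ∀ a, ∀ y ∈ s a, sz y ≤ b a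

@[fun_prop] theorem CF.mem {s : α → Finset β} {y : α → β} (hs : FS s) (hy : CF y) :
    CF fun a => y a ∈ s a := hs.1.comp (CF.id.mk hy)

@[fun_prop] theorem FS.comp {s : β → Finset γ} {g : α → β} (hs : FS s) (hg : CF g) :
    FS fun a => s (g a) :=
  let ⟨b, h1, h2⟩ := hs.2
  ⟨hs.1.comp (f := fun x : α × γ => (g x.1, x.2)) (by fun_prop), _, h1.comp' hg.1,
    fun a => h2 (g a)⟩

@[fun_prop] theorem FS.const (s : Finset β) : FS fun _ : α => s := by
  classical
  refine ⟨?_, _, PB.const (∑ y ∈ s, sz y), fun _ y hy =>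
    single_le_sum (f := fun y => sz y) (fun _ _ => Nat.zero_le _) hy⟩
  induction s using Finset.induction_on with
  | empty => simpa using CF.const False
  | insert y s _ ih => simp only [mem_insert]; fun_prop

omit [Dec α] in
theorem FS.of_le {s : α → Finset ℕ} {n : α → ℕ} (hs : CF fun x : α × ℕ => x.2 ∈ s x.1)
    (hn : CF n) (h : ∀ a, ∀ y ∈ s a, y ≤ n a) : FS s :=
  ⟨hs, _, hn.1, fun a y hy => sz_nat_mono (h a y hy)⟩

@[fun_prop] theorem FS.range {n : α → ℕ} (hn : CF n) : FS fun a => range (n a) :=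
  FS.of_le (by simp only [mem_range]; fun_prop) hn fun _ _ hy => (mem_range.1 hy).le

@[fun_prop] theorem FS.Ico {m n : α → ℕ} (hm : CF m) (hn : CF n) : FS fun a => Ico (m a) (n a) :=
  FS.of_le (by simp only [mem_Ico]; fun_prop) hn fun _ _ hy => (mem_Ico.1 hy).2.le

@[fun_prop] theorem FS.Ioc {m n : α → ℕ} (hm : CF m) (hn : CF n) : FS fun a => Ioc (m a) (n a) :=
  FS.of_le (by simp only [mem_Ioc]; fun_prop) hn fun _ _ hy => (mem_Ioc.1 hy).2

@[fun_prop] theorem FS.Icc {m n : α → ℕ} (hm : CF m) (hn : CF n) : FS fun a => Icc (m a) (n a) :=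
  FS.of_le (by simp only [mem_Icc]; fun_prop) hn fun _ _ hy => (mem_Icc.1 hy).2

@[fun_prop] theorem FS.filter {s : α → Finset β} {p : α → β → Prop} [∀ a, DecidablePred (p a)]
    (hs : FS s) (hp : CF fun x : α × β => p x.1 x.2) : FS fun a => (s a).filter (p a) :=
  let ⟨b, h1, h2⟩ := hs.2
  ⟨by simp only [mem_filter]; fun_prop, b, h1, fun a y hy => h2 a y (mem_filter.1 hy).1⟩

@[fun_prop] theorem FS.erase [DecidableEq β] {s : α → Finset β} {y : α → β} (hs : FS s)
    (hy : CF y) : FS fun a => (s a).erase (y a) :=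
  let ⟨b, h1, h2⟩ := hs.2
  ⟨by simp only [mem_erase, Ne]; fun_prop, b, h1, fun a y hy => h2 a y (mem_erase.1 hy).2⟩

@[fun_prop] theorem FS.product {s : α → Finset β} {t : α → Finset γ} (hs : FS s) (ht : FS t) :
    FS fun a => s a ×ˢ t a :=
  let ⟨b, h1, h2⟩ := hs.2
  let ⟨c, g1, g2⟩ := ht.2
  ⟨by simp only [mem_product]; fun_prop, _, (h1.lin 2 1).add g1, fun a y hy => by
    have e1 := h2 a _ (mem_product.1 hy).1
    have e2 := g2 a _ (mem_product.1 hy).2
    rw [sz_prod]; omega⟩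

@[fun_prop] theorem CF.bex {s : α → Finset β} {Q : α → β → Prop} (hs : FS s)
    (hQ : CF fun x : α × β => Q x.1 x.2) : CF fun a => ∃ y ∈ s a, Q a y :=
  let ⟨_, h1, h2⟩ := hs.2
  cf_iff.2 ((cf_iff.1 (hs.1.and hQ)).exs h1 fun a y hy => h2 a y hy.1)

@[fun_prop] theorem FS.vecs {n : α → ℕ} {t : α → Finset ℕ} (hn : Sm n) (ht : FS t) :
    FS fun a => vecs (n a) (t a) := by
  obtain ⟨b, h1, h2⟩ := ht.2
  have := hn.1
  refine ⟨CF.congr (f := fun x : α × List ℕ => x.2.length = n x.1 ∧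
    ¬ ∃ i ∈ Finset.range x.2.length, ¬ x.2.getD i 0 ∈ t x.1) (by fun_prop) fun x => ?_, _,
    hn.2.mul (h1.lin 2 2), fun a u hu => ?_⟩
  · simp only [mem_vecs, List.forall_mem_iff_getElem, mem_range, not_exists, not_and, not_not]
    exact propext (and_congr_right fun _ => ⟨fun h i hi => by simpa [hi] using h i hi,
      fun h i hi => by simpa [hi] using h i hi⟩)
  · rw [← (mem_vecs.1 hu).1]
    exact sz_le_of_forall fun y hy => h2 a y ((mem_vecs.1 hu).2 y hy)

omit [Dec α] [Dec β] in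
theorem card_le_of_sz {s : Finset β} {b : ℕ} (h : ∀ y ∈ s, sz y ≤ b) : s.card ≤ 2 ^ b := by
  rw [← card_range (2 ^ b)]
  exact card_le_card_of_injOn enc (fun y hy => mem_coe.2 (mem_range.2
    (Nat.size_le.1 ((Enc.size_le y).trans (h y hy))))) fun _ _ _ _ h => Enc.inj h

@[fun_prop] theorem CF.card {s : α → Finset β} (hs : FS s) : CF fun a => (s a).card := by
  classical
  obtain ⟨b, h1, h2⟩ := hs.2
  obtain ⟨c, c1, c2, c3⟩ := PB.sm h1
  obtain ⟨f, hf, ef⟩ := Dec.ex (α := β)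
  have hf' := CF.pt hf
  have he := CF.pt (PT.encN (PT.id (α := β)))
  have hw := (pt_two_pow c1 c2).comp (PT.fst (PT.id (α := α × ℕ)))
  have e : ∀ a, (s a).card = cnt (2 ^ c a) fun r => f r ∈ s a ∧ enc (f r) = r := fun a => by
    rw [cnt_eq]
    refine card_bij (fun y _ => enc y) (fun y hy => ?_) (fun _ _ _ _ h => Enc.inj h)
      fun r hr => ⟨f r, (mem_filter.1 hr).2.1, (mem_filter.1 hr).2.2⟩
    simp only [mem_filter, mem_range, ef, hy, and_true]
    exact Nat.size_le.1 ((Enc.size_le y).trans ((h2 a y hy).trans (c3 a)))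
  have hQ : CP fun x : (α × ℕ) × ℕ => f x.2 ∈ s x.1.1 ∧ enc (f x.2) = x.2 :=
    cf_iff.1 (by fun_prop)
  refine ⟨(h1.add (PB.const 1)).of_le fun a => ?_,
    ((hQ.cnt (n := fun x => 2 ^ c x.1) (t := fun x => x.2) hw (by fun_prop)).and
      (hQ.cnt (n := fun x => 2 ^ c x.1) (t := fun x => x.2 + 1) hw
        (by fun_prop)).not).congr fun x => by simp only [e]; omega⟩
  exact (sz_nat_mono (card_le_of_sz (h2 a))).trans (by rw [sz_nat, Nat.size_pow])

omit [Dec α] [Dec β] in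
theorem PB.alongF {g : α × β → ℕ} {s : α → Finset β} (hg : PB g) (hs : FS s) :
    ∃ D : α → ℕ, PB D ∧ ∀ a, ∀ y ∈ s a, g (a, y) ≤ D a := by
  obtain ⟨Q, hQ⟩ := hg
  obtain ⟨b, h1, h2⟩ := hs.2
  refine ⟨_, ((PB.sz.lin 2 1).add h1).eval Q, fun a y hy => (hQ _).trans (eval_mono Q ?_)⟩
  have := h2 a y hy
  simp only [sz_pair]; omega

@[fun_prop] theorem CF.sum {s : α → Finset β} {f : α → β → ℕ} (hs : FS s)
    (hf : CF fun x : α × β => f x.1 x.2) : CF fun a => ∑ y ∈ s a, f a y := by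
  obtain ⟨D, h1, h2⟩ := PB.alongF hf.1 hs
  obtain ⟨c, c1, c3⟩ := PB.sm' h1
  refine CF.congr (f := fun a => ((s a ×ˢ Finset.range (2 ^ c a)).filter
    fun x => x.2 < f a x.1).card) (by fun_prop) fun a => ?_
  rw [card_filter, sum_product]
  refine sum_congr rfl fun y hy => ?_
  have h3 : f a y < 2 ^ c a := Nat.size_le.1 ((h2 a y hy).trans (c3 a))
  rw [← card_filter, ← card_range (f a y)]
  congr 1
  ext r
  simp only [mem_filter, mem_range]; omega

/-- The least element. -/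
noncomputable def least (s : Finset ℕ) : ℕ := sInf (s : Set ℕ)

theorem least_mem {s : Finset ℕ} {y : ℕ} (h : y ∈ s) : least s ∈ s :=
  mem_coe.1 (Nat.sInf_mem ⟨y, mem_coe.2 h⟩)

@[fun_prop] theorem CF.least {s : α → Finset ℕ} (hs : FS s) : CF fun a => least (s a) := by
  classical
  refine CF.congr (f := fun a => ∑ y ∈ (s a).filter fun y => ¬ ∃ z ∈ s a, z < y, y)
    (by fun_prop) fun a => ?_
  rcases (s a).eq_empty_or_nonempty with h | ⟨y, hy⟩
  · simp [h, P337.least]
  · rw [show ((s a).filter fun y => ¬ ∃ z ∈ s a, z < y) = {P337.least (s a)} from ?_, sum_singleton]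
    ext x
    simp only [mem_filter, mem_singleton, not_exists, not_and, not_lt]
    exact ⟨fun h => le_antisymm (h.2 _ (least_mem hy)) (Nat.sInf_le (mem_coe.2 h.1)),
      fun h => h ▸ ⟨least_mem hy, fun z hz => Nat.sInf_le (mem_coe.2 hz)⟩⟩

@[fun_prop] theorem CF.prime {p : α → ℕ} (hp : CF p) : CF fun a => (p a).Prime :=
  CF.congr (f := fun a => 2 ≤ p a ∧ ¬ ∃ m ∈ Ico 2 (p a), p a % m = 0) (by fun_prop) fun a => by
    simp [Nat.prime_def_lt', Nat.dvd_iff_mod_eq_zero]

/-- Modular power. -/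
def pm (x e m : ℕ) : ℕ := x ^ e % m

@[fun_prop] theorem CF.pm {x e m : α → ℕ} (hx : CF x) (he : CF e) (hm : CF m) :
    CF fun a => pm (x a) (e a) (m a + 1) := by
  have h := PT.foldr_add (f := fun (a : ℕ × ℕ × ℕ) (b : Bool) (s : ℕ) =>
      s * s * (if b = true then a.1 else 1) % (a.2.2 + 1)) (l := fun a => a.2.1.bits)
    (i := fun a => 1 % (a.2.2 + 1)) (by fun_prop) (by fun_prop) (by fun_prop)
    (PT.szb (f := fun a : ℕ × ℕ × ℕ => a.2.2) (by fun_prop)) fun a s _ _ =>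
      (sz_nat_mono (Nat.lt_succ_iff.1 (Nat.mod_lt _ (Nat.succ_pos _)))).trans (Nat.le_add_left _ _)
  refine (CF.un h (hx.mk (he.mk hm))).congr fun a => ?_
  dsimp only [P337.pm]
  induction e a using Nat.binaryRec' with
  | zero => simp
  | bit b k hk ih =>
    rw [Nat.bits_append_bit k b hk, List.foldr_cons, ← ih, Nat.bit_val]
    cases b <;> simp [two_mul, pow_add, Nat.mul_mod]

theorem cast_pm {p : ℕ} (hp : p.Prime) (x e : ℕ) :
    (pm x e (p - 1 + 1) : ZMod p) = (x : ZMod p) ^ e := by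
  rw [Nat.sub_add_cancel hp.one_le, pm, ZMod.natCast_mod, Nat.cast_pow]

theorem CF.prodMod {s : α → Finset β} {f : α → β → ℕ} {p : α → ℕ} (hs : FS s)
    (hf : CF fun x : α × β => f x.1 x.2) (hp : CF p) : ∃ g : α → ℕ, CF g ∧
      ∀ a, (p a).Prime → (g a : ZMod (p a)) = ∏ y ∈ s a, (f a y : ZMod (p a)) := by
  classical
  let L : α → ℕ → ℕ → ℕ := fun a g x =>
    P337.least ((Finset.range (p a)).filter fun e => P337.pm g e (p a - 1 + 1) = x % p a)
  let G : α → Finset ℕ := fun a => (Finset.range (p a)).filter fun g =>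
    ¬ ∃ x ∈ Ico 1 (p a), ¬ P337.pm g (L a g x) (p a - 1 + 1) = x
  refine ⟨fun a => if ∃ y ∈ s a, f a y % p a = 0 then 0 else
    P337.pm (P337.least (G a)) (∑ y ∈ s a, L a (P337.least (G a)) (f a y)) (p a - 1 + 1),
    by simp only [G, L]; fun_prop, fun a ha => ?_⟩
  have := Fact.mk ha
  dsimp only
  split_ifs with h
  · obtain ⟨y, hy, h⟩ := h
    rw [Nat.cast_zero, prod_eq_zero hy
      ((ZMod.natCast_eq_zero_iff _ _).2 (Nat.dvd_of_mod_eq_zero h))]
  obtain ⟨u, hu⟩ := IsCyclic.exists_monoid_generator (α := (ZMod (p a))ˣ)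
  have hG : (u : ZMod (p a)).val ∈ G a := by
    simp only [G, mem_filter, mem_range, ZMod.val_lt, true_and, not_exists, not_and, not_not]
    intro x hx
    have hx0 : (x : ZMod (p a)) ≠ 0 := fun h =>
      absurd (Nat.le_of_dvd (mem_Ico.1 hx).1 ((ZMod.natCast_eq_zero_iff _ _).1 h))
        (not_le.2 (mem_Ico.1 hx).2)
    obtain ⟨e, he⟩ := hu (Units.mk0 _ hx0)
    have h1 : e % (p a - 1) ∈ (Finset.range (p a)).filter
        fun e => P337.pm (u : ZMod (p a)).val e (p a - 1 + 1) = x % p a := by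
      have h2 := ha.two_le
      refine mem_filter.2 ⟨mem_range.2 ((Nat.mod_lt _ (by omega)).trans (by omega)), ?_⟩
      rw [Nat.sub_add_cancel ha.one_le, P337.pm, ← ZMod.natCast_eq_natCast_iff', Nat.cast_pow,
        ZMod.natCast_zmod_val, ← Units.val_pow_eq_pow_val, ← ZMod.card_units (p a), ← Nat.card_eq_fintype_card,
        pow_mod_natCard]
      exact congrArg Units.val he
    exact (mem_filter.1 (least_mem h1)).2.trans (Nat.mod_eq_of_lt (mem_Ico.1 hx).2)
  have h3 := least_mem hG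
  generalize P337.least (G a) = g at h3 ⊢
  simp only [G, mem_filter] at h3
  replace h3 := h3.2
  rw [cast_pm ha, ← prod_pow_eq_pow_sum]
  refine prod_congr rfl fun y hy => ?_
  have h4 : f a y % p a ∈ Ico 1 (p a) :=
    mem_Ico.2 ⟨Nat.pos_of_ne_zero fun h0 => h ⟨y, hy, h0⟩, Nat.mod_lt _ ha.pos⟩
  have h5 : P337.pm g (L a g (f a y % p a)) (p a - 1 + 1) = f a y % p a :=
    by_contra fun h5 => h3 ⟨_, h4, h5⟩
  rw [← cast_pm ha, ← ZMod.natCast_mod (f a y), ← h5]
  simp only [L, Nat.mod_mod]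

end Vale.Agent.P337
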