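import Vale.Agent.P328.Algo

/-! Typed predicates and functions of the counting hierarchy. -/

namespace Vale.Agent.P337

open Vale.Agent.Lib.PolyTime Vale.Agent.P328 Finset

/-- Decodable types with computable size. -/
class Dec (α : Type) [Enc α] : Prop where
  ex : ∃ dec : ℕ → α, PT dec ∧ ∀ y, dec (enc y) = y
  ptsz : PT (fun a : α => sz a)

instance : Dec ℕ := ⟨⟨id, PT.id, fun _ => rfl⟩, pt_size PT.id⟩

instance : Dec Unit := ⟨⟨fun _ => (), PT.const _, fun _ => rfl⟩, PT.const 0⟩

instance : Dec Bool := ⟨⟨fun m => decide (m = 1), by fun_prop, fun y => by cases y <;> rfl⟩,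
  PT.const 1⟩

instance : Dec Prop := ⟨⟨fun m => m = 1, by fun_prop, fun y => by
  by_cases h : y <;> simp [Enc.enc, h]⟩, PT.const 1⟩

instance {α β : Type} [Enc α] [Enc β] [Dec α] [Dec β] : Dec (α × β) := by
  obtain ⟨f, hf, ef⟩ := Dec.ex (α := α)
  obtain ⟨g, hg, eg⟩ := Dec.ex (α := β)
  have h1 := Dec.ptsz (α := α)
  have h2 := Dec.ptsz (α := β)
  refine ⟨⟨fun m => (f (fstN m), g (sndN m)), (hf.comp PT.id.fstN).mk (hg.comp PT.id.sndN),
    fun y => ?_⟩, ?_⟩
  · obtain ⟨a, b⟩ := y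
    simp [ef, eg]
  · exact PT.congr (f := fun p : α × β => 2 * sz p.1 + sz p.2 + 1) (by fun_prop) sz_prod

theorem unA_snd_le (n : ℕ) : ∀ r, (unA n r).2 ≤ n := by
  induction n using Nat.strong_induction_on with
  | _ n ih =>
    intro r
    by_cases h : n % 2 = 0
    · rw [unA_even h]; exact Nat.div_le_self _ _
    · rw [unA_odd h]; exact (ih _ (by omega) _).trans (Nat.div_le_self _ _)

theorem le_prA (a : ℕ) : ∀ acc, acc ≤ prA a acc := by
  induction a using Nat.strong_induction_on with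
  | _ a ih =>
    intro acc
    by_cases h : a = 0
    · subst h; rw [prA_zero]
    · rw [prA_pos h]; exact le_trans (by omega) (ih _ (by omega) _)

theorem length_le_size {α : Type} [Enc α] (l : List α) : l.length ≤ Nat.size (enc l) := by
  induction l with
  | nil => simp
  | cons a l ih =>
    have h1 := le_prA (enc a) (2 * enc l)
    rw [enc_cons, size_half (Nat.succ_ne_zero _), List.length_cons]
    exact Nat.succ_le_succ (ih.trans (Nat.size_le_size (by unfold pr; omega)))

instance {α : Type} [Enc α] [Inhabited α] [Dec α] : Dec (List α) := by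
  obtain ⟨f, hf, ef⟩ := Dec.ex (α := α)
  have h1 := Dec.ptsz (α := α)
  refine ⟨?_, PT.congr (f := fun l : List α => (l.map fun b => 2 * sz b + 2).sum) (by fun_prop)
    sz_eq_sum⟩
  let F : ℕ × List ℕ → ℕ × List ℕ :=
    fun s => if s.1 = 0 then s else (sndN (s.1 - 1), s.2 ++ [fstN (s.1 - 1)])
  have hF : PT F := by
    have a1 : PT fun s : ℕ × List ℕ => sndN (s.1 - 1) := PT.sndN (by fun_prop)
    have a2 : PT fun s : ℕ × List ℕ => fstN (s.1 - 1) := PT.fstN (by fun_prop)
    fun_prop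
  obtain ⟨Q, hQ⟩ := (PT.fstN (PT.id (α := ℕ))).1
  have bd : ∀ m k, (F^[k] (m, [])).1 ≤ m ∧
      sz (F^[k] (m, [])).2 ≤ k * (2 * Q.eval (sz m) + 2) := by
    intro m k
    induction k with
    | zero => simp
    | succ k ih =>
      rw [Function.iterate_succ_apply']
      generalize F^[k] (m, []) = s at ih
      have a1 := unA_snd_le (s.1 - 1) 0
      have a2 : sz (fstN (s.1 - 1)) ≤ _ :=
        (hQ (s.1 - 1)).trans (eval_mono Q (sz_nat_mono (show s.1 - 1 ≤ m by omega)))
      simp only [F]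
      split_ifs
      · exact ⟨ih.1, ih.2.trans (Nat.mul_le_mul_right _ (by omega))⟩
      · refine ⟨by unfold sndN; omega, ?_⟩
        simp only [sz_append, sz_cons, sz_nil, add_mul]
        omega
  have hI := PT.iterate (f := fun _ : ℕ => F) (n := fun m => Nat.size m) (i := fun m => (m, []))
    (B := fun m => 2 * sz m + sz m * (2 * Q.eval (sz m) + 2) + 1) (by fun_prop) (by fun_prop)
    PB.sz (by fun_prop) ((((PB.const 2).mul PB.sz).add (PB.sz.mul ((PB.sz.eval Q).lin 2 2))).add
      (PB.const 1)) (fun m k hk => by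
      have a1 := sz_nat_mono (bd m k).1
      have a2 := (bd m k).2.trans (Nat.mul_le_mul_right _ hk)
      rw [sz_prod]
      simp only [sz_nat] at *
      omega)
  refine ⟨fun m => (F^[Nat.size m] (m, [])).2.map f, by fun_prop, fun l => ?_⟩
  have key : ∀ (l : List α) k acc, l.length ≤ k → F^[k] (enc l, acc) = (0, acc ++ l.map enc) := by
    intro l
    induction l with
    | nil => intro k acc _; simpa using Function.iterate_fixed (by simp [F]) k
    | cons a l ih =>
      rintro (_ | k) acc hk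
      · simp at hk
      · rw [Function.iterate_succ_apply]
        simp only [F, enc_cons, Nat.succ_ne_zero, if_false, Nat.add_sub_cancel, sndN_pr, fstN_pr]
        rw [ih k _ (by simpa using hk)]
        simp
  simp [key l _ _ (length_le_size l), Function.comp_def, ef]

variable {α β γ : Type} [Enc α] [Enc β] [Enc γ]

theorem PB.sm [Dec α] {b : α → ℕ} (hb : PB b) : ∃ c : α → ℕ, PT c ∧ PB c ∧ ∀ a, b a ≤ c a := by
  obtain ⟨Q, hQ⟩ := hb
  refine ⟨fun a => Q.eval (sz a), ?_, PB.sz.eval Q, hQ⟩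
  have h1 := Dec.ptsz (α := α)
  clear hQ
  induction Q using Polynomial.induction_on' with
  | add p q hp hq => simp only [Polynomial.eval_add]; fun_prop
  | monomial n c => simp only [Polynomial.eval_monomial]; fun_prop

open Classical in
/-- The number of `r < n` with `P r`. -/
noncomputable def cnt (n : ℕ) (P : ℕ → Prop) : ℕ := ((range n).filter P).card

theorem cnt_eq (n : ℕ) (P : ℕ → Prop) [DecidablePred P] :
    cnt n P = ((range n).filter P).card := by
  unfold cnt; congr

/-- One majority quantifier over a class of oracles. -/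
def Step (𝒜 : (ℕ → Prop) → Prop) (P : α → Prop) : Prop :=
  ∃ (A : ℕ → Prop) (q : α × ℕ → ℕ) (d : α × ℕ × Prop → Prop) (k : α → ℕ), 𝒜 A ∧ PT q ∧ PT d ∧
    PT k ∧ PB k ∧ ∀ a, P a ↔
      2 ^ k a < 2 * cnt (2 ^ k a) fun r => d (a, r, A (q (a, r)))

/-- Levels for sets of numbers. -/
def LvN : ℕ → (ℕ → Prop) → Prop
  | 0 => fun P => PT P
  | j + 1 => Step (LvN j)

/-- Levels for typed predicates. -/
def Lv : ℕ → (α → Prop) → Prop
  | 0 => fun P => PT P
  | j + 1 => Step (LvN j)

theorem lv_nat (j : ℕ) (P : ℕ → Prop) : Lv j P ↔ LvN j P := by cases j <;> rfl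

theorem Lv.comp {j : ℕ} {P : β → Prop} (h : Lv j P) {g : α → β} (hg : PT g) :
    Lv j (fun a => P (g a)) := by
  cases j with
  | zero => exact PT.comp h hg
  | succ j =>
    obtain ⟨A, q, d, k, h1, h2, h3, h4, h5, h6⟩ := h
    exact ⟨A, fun x => q (g x.1, x.2), fun x => d (g x.1, x.2), fun a => k (g a), h1,
      by fun_prop, by fun_prop, by fun_prop, h5.comp hg, fun a => h6 (g a)⟩

theorem Lv.succ {j : ℕ} : ∀ {α : Type} [Enc α] {P : α → Prop}, Lv j P → Lv (j + 1) P := by
  induction j with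
  | zero =>
    intro α _ P h
    have h : PT P := h
    refine ⟨fun _ => True, fun _ => 0, fun x => P x.1, fun _ => 0, PT.const True, by fun_prop,
      by fun_prop, by fun_prop, PB.const 0, fun a => ?_⟩
    classical
    by_cases hp : P a <;> simp [hp, cnt_eq]
  | succ j ih =>
    rintro α _ P ⟨A, q, d, k, h1, h2⟩
    exact ⟨A, q, d, k, (lv_nat _ _).1 (ih ((lv_nat _ _).2 h1)), h2⟩

theorem Lv.mono {j j' : ℕ} {P : α → Prop} (h : Lv j P) (hj : j ≤ j') : Lv j' P := by
  induction hj with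
  | refl => exact h
  | step _ ih => exact ih.succ

theorem Lv.ite {j : ℕ} : ∀ {α : Type} [Enc α] {c P Q : α → Prop} [DecidablePred c], PT c →
    Lv j P → Lv j Q → Lv j (fun a => if c a then P a else Q a) := by
  induction j with
  | zero => intro α _ c P Q _ hc h1 h2; exact PT.ite hc h1 h2
  | succ j ih =>
    rintro α _ c P Q _ hc ⟨A, q, d, k, h1, h2, h3, h4, h5, h6⟩ ⟨A', q', d', k', g1, g2, g3, g4, g5, g6⟩
    refine ⟨fun m => if m % 2 = 0 then A (m / 2) else A' (m / 2),
      fun x => if c x.1 then 2 * q x else 2 * q' x + 1, fun x => if c x.1 then d x else d' x,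
      fun a => if c a then k a else k' a, (lv_nat _ _).1 (ih (by fun_prop)
        (((lv_nat _ _).2 h1).comp (by fun_prop)) (((lv_nat _ _).2 g1).comp (by fun_prop))),
      by fun_prop, by fun_prop, by fun_prop,
      (h5.add g5).of_le fun a => by split_ifs <;> omega, fun a => ?_⟩
    have e2 : ∀ x, (2 * x + 1) / 2 = x := fun x => by omega
    by_cases h : c a <;> simp [h, h6, g6, e2]

/-- Predicates of the counting hierarchy. -/
def CP (P : α → Prop) : Prop := ∃ j, Lv j P

theorem CP.pt {P : α → Prop} (h : PT P) : CP P := ⟨0, h⟩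

theorem CP.comp {P : β → Prop} (h : CP P) {g : α → β} (hg : PT g) : CP (fun a => P (g a)) :=
  h.imp fun _ h => h.comp hg

theorem CP.congr {P Q : α → Prop} (h : CP P) (e : ∀ a, Q a ↔ P a) : CP Q := by
  have : Q = P := funext fun a => propext (e a)
  rwa [this]

theorem CP.ite {c P Q : α → Prop} [DecidablePred c] (hc : PT c) (h1 : CP P) (h2 : CP Q) :
    CP (fun a => if c a then P a else Q a) := by
  obtain ⟨j, h1⟩ := h1
  obtain ⟨j', h2⟩ := h2
  exact ⟨max j j', Lv.ite hc (h1.mono (le_max_left _ _)) (h2.mono (le_max_right _ _))⟩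

theorem CP.step [Dec β] {A : β → Prop} (hA : CP A) {q : α × ℕ → β} {d : α × ℕ × Prop → Prop}
    {k : α → ℕ} (hq : PT q) (hd : PT d) (hk : PT k) (hb : PB k) :
    CP fun a => 2 ^ k a < 2 * cnt (2 ^ k a) fun r => d (a, r, A (q (a, r))) := by
  obtain ⟨j, hA⟩ := hA
  obtain ⟨f, hf, ef⟩ := Dec.ex (α := β)
  exact ⟨j + 1, fun m => A (f m), fun x => enc (q x), d, k, (lv_nat _ _).1 (hA.comp hf), hq.encN,
    hd, hk, hb, fun a => by simp only [ef]⟩

theorem CP.not [Dec α] {P : α → Prop} (h : CP P) : CP (fun a => ¬ P a) := by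
  refine (h.step (q := fun x : α × ℕ => x.1) (d := fun x => ¬ x.2.2) (k := fun _ => 0)
    (by fun_prop) (by fun_prop) (by fun_prop) (PB.const 0)).congr fun a => ?_
  classical
  by_cases hp : P a <;> simp [hp, cnt_eq]

theorem CP.cnt [Dec α] {Q : α × ℕ → Prop} (h : CP Q) {n t : α → ℕ} (hn : PT n) (ht : PT t) :
    CP fun a => t a ≤ cnt (n a) fun r => Q (a, r) := by
  classical
  obtain ⟨V, hV, h2⟩ : ∃ V : α → ℕ, PT V ∧ ∀ a, 2 ^ Nat.size (n a) = V a :=
    ⟨_, pt_two_pow (pt_size hn) hn.1, fun _ => rfl⟩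
  refine (h.step (q := fun x : α × ℕ => x) (d := fun x => (x.2.1 < n x.1 ∧ x.2.2) ∨
    (V x.1 ≤ x.2.1 ∧ x.2.1 < 3 * V x.1 + 1 - t x.1))
    (k := fun a => Nat.size (n a) + 2) (by fun_prop) (by fun_prop) (by fun_prop)
    (hn.1.add (PB.const 2))).congr fun a => ?_
  have h3 := Nat.lt_size_self (n a)
  dsimp only
  rw [pow_add, h2] at *
  generalize V a = W at h3
  rw [cnt_eq, cnt_eq]
  have e : ((range (W * 2 ^ 2)).filter fun r => (r < n a ∧ Q (a, r)) ∨
      (W ≤ r ∧ r < 3 * W + 1 - t a)) =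
      ((range (n a)).filter fun r => Q (a, r)) ∪ Ico W (3 * W + 1 - t a) := by
    ext r
    simp only [mem_filter, mem_range, mem_union, mem_Ico]
    exact ⟨fun h => h.2, fun h => ⟨by omega, h⟩⟩
  have h4 := card_filter_le (range (n a)) fun r => Q (a, r)
  rw [e, card_union_of_disjoint (disjoint_left.2 fun r h1 h2 => by
    have := mem_range.1 (mem_filter.1 h1).1
    have := (mem_Ico.1 h2).1
    omega), Nat.card_Ico]
  rw [card_range] at h4
  omega

theorem CP.ex [Dec α] {Q : α × ℕ → Prop} (h : CP Q) {n : α → ℕ} (hn : PT n) :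
    CP fun a => ∃ r < n a, Q (a, r) :=
  (h.cnt hn (PT.const 1)).congr fun a => by
    simp [P337.cnt, Nat.succ_le_iff, card_pos, Finset.Nonempty]

theorem CP.or [Dec α] {P Q : α → Prop} (h : CP P) (h' : CP Q) : CP fun a => P a ∨ Q a := by
  refine ((CP.ite (c := fun x : α × ℕ => x.2 = 0) (by fun_prop) (h.comp (g := fun x => x.1)
    (by fun_prop)) (h'.comp (g := fun x => x.1) (by fun_prop))).ex (PT.const 2)).congr fun a => ?_
  refine ⟨fun h => h.elim (fun h => ⟨0, by omega, by simpa⟩) fun h => ⟨1, by omega, by simpa⟩,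
    fun ⟨r, _, h⟩ => ?_⟩
  dsimp only at h
  split_ifs at h
  exacts [Or.inl h, Or.inr h]

theorem CP.and [Dec α] {P Q : α → Prop} (h : CP P) (h' : CP Q) : CP fun a => P a ∧ Q a :=
  (h.not.or h'.not).not.congr fun a => by rw [not_or, not_not, not_not]

theorem CP.exs [Dec α] [Dec β] {Q : α × β → Prop} (h : CP Q) {b : α → ℕ} (hb : PB b)
    (hQ : ∀ a y, Q (a, y) → sz y ≤ b a) : CP fun a => ∃ y, Q (a, y) := by
  obtain ⟨c, c1, c2, c3⟩ := PB.sm hb
  obtain ⟨f, hf, ef⟩ := Dec.ex (α := β)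
  refine ((h.comp (g := fun x : α × ℕ => (x.1, f x.2)) (by fun_prop)).ex
    (pt_two_pow c1 c2)).congr fun a => ⟨fun ⟨y, hy⟩ => ⟨enc y, ?_, by simpa [ef] using hy⟩,
      fun ⟨r, _, hr⟩ => ⟨_, hr⟩⟩
  exact Nat.size_le.1 ((Enc.size_le y).trans ((hQ a y hy).trans (c3 a)))

/-- Functions of the counting hierarchy. -/
@[fun_prop]
def CF (f : α → β) : Prop := PB (fun a => sz (f a)) ∧ CP (fun p : α × β => f p.1 = p.2)

theorem CF.pt {f : α → β} (h : PT f) : CF f := ⟨h.1, CP.pt (by fun_prop)⟩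

theorem CF.congr {f g : α → β} (hf : CF f) (h : ∀ a, g a = f a) : CF g := by
  have : g = f := funext h
  rwa [this]

variable [Dec α] [Dec β] [Dec γ]

theorem CP.compF {P : β → Prop} (h : CP P) {g : α → β} (hg : CF g) : CP (fun a => P (g a)) :=
  ((hg.2.and (h.comp (g := fun x : α × β => x.2) (by fun_prop))).exs hg.1
    fun a y hy => hy.1 ▸ le_rfl).congr fun a => by simp

theorem cf_iff {P : α → Prop} : CF P ↔ CP P := by
  refine ⟨fun h => (h.2.comp (g := fun a => (a, True)) (by fun_prop)).congr fun a => by simp,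
    fun h => ⟨PB.const 1, ?_⟩⟩
  classical
  have h1 := h.comp (g := fun x : α × Prop => x.1) (by fun_prop)
  refine (CP.ite (c := fun x : α × Prop => x.2) (by fun_prop) h1 h1.not).congr fun a => ?_
  by_cases hp : a.2 <;> simp [hp]

omit [Dec α] in
@[fun_prop] theorem CF.id : CF (fun a : α => a) := CF.pt PT.id

omit [Dec α] [Dec β] in
@[fun_prop] theorem CF.const (b : β) : CF (fun _ : α => b) := CF.pt (PT.const b)

@[fun_prop] theorem CF.mk {f : α → β} {g : α → γ} (hf : CF f) (hg : CF g) :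
    CF (fun a => (f a, g a)) :=
  ⟨((hf.1.lin 2 1).add hg.1).of_le (fun a => by rw [sz_pair]; omega),
    ((hf.2.comp (g := fun x : α × β × γ => (x.1, x.2.1)) (by fun_prop)).and
      (hg.2.comp (g := fun x : α × β × γ => (x.1, x.2.2)) (by fun_prop))).congr
      fun _ => Prod.ext_iff⟩

@[fun_prop] theorem CF.comp {g : β → γ} {f : α → β} (hg : CF g) (hf : CF f) :
    CF (fun a => g (f a)) :=
  ⟨hg.1.comp' hf.1, hg.2.compF (g := fun x : α × γ => (f x.1, x.2))
    (CF.mk ⟨hf.1.comp (PT.fst PT.id), hf.2.comp (g := fun x : (α × γ) × β => (x.1.1, x.2))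
      (by fun_prop)⟩ (CF.pt (by fun_prop)))⟩

end Vale.Agent.P337
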