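import Mathlib

/-! Rational approximation of the sign and counting of real points. -/

namespace Vale.Agent.P337

open Finset Complex

/-- the product of Newman type -/
def Qp {R : Type} [CommRing R] (m N : ℕ) (z : R) : R := ∏ k ∈ range (m + 1), (2 ^ k + z) ^ N

/-- the step function -/
noncomputable def chi (x : ℝ) : ℝ := if 0 < x then 1 else if x = 0 then 1 / 2 else 0

namespace Count

lemma chi_nonneg (x : ℝ) : 0 ≤ chi x := by
  unfold chi; split_ifs <;> norm_num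

lemma chi_le_one (x : ℝ) : chi x ≤ 1 := by
  unfold chi; split_ifs <;> norm_num

lemma chi_pos {x : ℝ} (h : 0 < x) : chi x = 1 := by
  unfold chi; simp [h]

lemma chi_neg {x : ℝ} (h : x < 0) : chi x = 0 := by
  unfold chi; simp [h.ne, not_lt.mpr h.le]

lemma chi_zero : chi 0 = 1 / 2 := by
  unfold chi; simp

lemma chi_mono {x y : ℝ} (h : x ≤ y) : chi x ≤ chi y := by
  rcases lt_trichotomy y 0 with hy | hy | hy
  · rw [chi_neg (lt_of_le_of_lt h hy)]; exact chi_nonneg _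
  · subst hy
    rcases h.lt_or_eq with h | h
    · rw [chi_neg h]; exact chi_nonneg _
    · rw [h]
  · rw [chi_pos hy]; exact chi_le_one _

lemma chi_mul {a x : ℝ} (ha : 0 < a) : chi (a * x) = chi x := by
  rcases lt_trichotomy x 0 with hx | hx | hx
  · rw [chi_neg hx, chi_neg (mul_neg_of_pos_of_neg ha hx)]
  · subst hx; rw [mul_zero]
  · rw [chi_pos hx, chi_pos (mul_pos ha hx)]

lemma pow_one_sub_le (x : ℝ) (hx : 0 < x) (hx1 : x ≤ 1) (N : ℕ) :
    (1 - x) ^ N * (N * x) ≤ 1 := by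
  have h1 : 1 + (N : ℝ) * x ≤ (1 + x) ^ N := one_add_mul_le_pow (by linarith) N
  have h2 : (1 - x) ^ N * (1 + x) ^ N ≤ 1 := by
    rw [← mul_pow]
    apply pow_le_one₀
    · nlinarith
    · nlinarith
  have h3 : 0 ≤ (1 - x) ^ N := pow_nonneg (by linarith) N
  nlinarith

lemma norm_sq_add (r : ℝ) (z : ℂ) : ‖(r : ℂ) + z‖ ^ 2 = r ^ 2 + ‖z‖ ^ 2 + 2 * r * z.re := by
  rw [Complex.sq_norm, Complex.sq_norm, Complex.normSq_apply, Complex.normSq_apply]
  simp only [add_re, ofReal_re, add_im, ofReal_im]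
  ring

lemma factor_le (r : ℝ) (hr : 0 < r) (z : ℂ) (hz : 0 < z.re) :
    ‖(r : ℂ) + -z‖ ≤ ‖(r : ℂ) + z‖ := by
  rw [← sq_le_sq₀ (norm_nonneg _) (norm_nonneg _)]
  rw [norm_sq_add, norm_sq_add, norm_neg, neg_re]
  nlinarith [mul_pos hr hz]

lemma factor_key (r η : ℝ) (hr : 0 < r) (hη : 0 < η) (z : ℂ) (hz : 0 < z.re)
    (h1 : r ≤ ‖z‖) (h2 : ‖z‖ ≤ 2 * r) (h3 : η * ‖z‖ ≤ z.re) :
    ‖(r : ℂ) + -z‖ ^ 2 ≤ (1 - 4 * η / 5) * ‖(r : ℂ) + z‖ ^ 2 := by
  rw [norm_sq_add, norm_sq_add, norm_neg, neg_re]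
  set t := ‖z‖ with ht
  set x := z.re with hx
  have hxt : x ≤ t := Complex.re_le_norm z
  have hη1 : η ≤ 1 := by
    by_contra hc
    push Not at hc
    nlinarith
  have ha : 2 * (r ^ 2 + t ^ 2) ≤ 5 * r * t := by nlinarith
  have hb : 4 * η / 5 * (r ^ 2 + t ^ 2) ≤ 2 * r * x := by
    have : η * (2 * (r ^ 2 + t ^ 2)) ≤ η * (5 * r * t) := mul_le_mul_of_nonneg_left ha hη.le
    have h4 : r * (η * t) ≤ r * x := mul_le_mul_of_nonneg_left h3 hr.le
    nlinarith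
  have hc : 0 ≤ (1 - 4 * η / 5) * (2 * r * x) := by
    apply mul_nonneg (by linarith)
    positivity
  nlinarith

lemma newman_pos (m N : ℕ) (η ε : ℝ) (hη : 0 < η) (hε : 0 < ε)
    (hN : 5 ≤ N * η * ε ^ 2) (z : ℂ) (hz : 0 < z.re)
    (h1 : 1 ≤ ‖z‖) (h2 : ‖z‖ ≤ 2 ^ m) (h3 : η * ‖z‖ ≤ z.re) :
    Qp m N z ≠ 0 ∧ ‖Qp m N (-z)‖ ≤ ε / 2 * ‖Qp m N z‖ := by
  have hcast : ∀ k : ℕ, ((2 : ℂ) ^ k) = (((2 : ℝ) ^ k : ℝ) : ℂ) := fun k => by push_cast; rfl
  have hne : Qp m N z ≠ 0 := by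
    unfold Qp
    refine Finset.prod_ne_zero_iff.mpr fun k _ => pow_ne_zero _ fun h => ?_
    have := congrArg Complex.re h
    rw [hcast, add_re, ofReal_re, zero_re] at this
    have h5 : (0 : ℝ) < 2 ^ k := by positivity
    linarith
  refine ⟨hne, ?_⟩
  obtain ⟨k, hk1, hk2⟩ := exists_nat_pow_near h1 (one_lt_two : (1 : ℝ) < 2)
  have hkm : k ∈ range (m + 1) := by
    rw [mem_range, Nat.lt_succ_iff]
    exact (pow_le_pow_iff_right₀ (one_lt_two : (1 : ℝ) < 2)).mp (hk1.trans h2)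
  have hη1 : η ≤ 1 := by
    have hxt : z.re ≤ ‖z‖ := Complex.re_le_norm z
    by_contra hc
    push Not at hc
    nlinarith
  have hx : (1 - 4 * η / 5) ^ N ≤ (ε / 2) ^ 2 := by
    have h4 := pow_one_sub_le (4 * η / 5) (by positivity) (by linarith) N
    have h5 : 0 ≤ (1 - 4 * η / 5) ^ N := pow_nonneg (by linarith) N
    have h6 : 1 ≤ (N * (4 * η / 5)) * (ε / 2) ^ 2 := by nlinarith
    have h7 : 0 < (ε / 2) ^ 2 := by positivity
    calc (1 - 4 * η / 5) ^ N = (1 - 4 * η / 5) ^ N * 1 := (mul_one _).symm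
      _ ≤ (1 - 4 * η / 5) ^ N * ((N * (4 * η / 5)) * (ε / 2) ^ 2) :=
          mul_le_mul_of_nonneg_left h6 h5
      _ = ((1 - 4 * η / 5) ^ N * (N * (4 * η / 5))) * (ε / 2) ^ 2 := by ring
      _ ≤ 1 * (ε / 2) ^ 2 := mul_le_mul_of_nonneg_right h4 h7.le
      _ = (ε / 2) ^ 2 := one_mul _
  have hk : ‖((2 : ℂ) ^ k + -z) ^ N‖ ≤ ε / 2 * ‖((2 : ℂ) ^ k + z) ^ N‖ := by
    rw [← sq_le_sq₀ (norm_nonneg _) (by positivity)]
    rw [norm_pow, norm_pow, hcast, mul_pow, ← pow_mul, ← pow_mul, mul_comm N 2, pow_mul, pow_mul]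
    have h4 := factor_key (2 ^ k) η (by positivity) hη z hz hk1
      (by rw [pow_succ] at hk2; linarith) h3
    calc (‖(((2 : ℝ) ^ k : ℝ) : ℂ) + -z‖ ^ 2) ^ N
        ≤ ((1 - 4 * η / 5) * ‖(((2 : ℝ) ^ k : ℝ) : ℂ) + z‖ ^ 2) ^ N :=
          pow_le_pow_left₀ (by positivity) h4 N
      _ = (1 - 4 * η / 5) ^ N * (‖(((2 : ℝ) ^ k : ℝ) : ℂ) + z‖ ^ 2) ^ N := mul_pow _ _ _
      _ ≤ (ε / 2) ^ 2 * (‖(((2 : ℝ) ^ k : ℝ) : ℂ) + z‖ ^ 2) ^ N :=
          mul_le_mul_of_nonneg_right hx (by positivity)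
  unfold Qp
  rw [norm_prod, norm_prod, ← Finset.mul_prod_erase _ _ hkm, ← Finset.mul_prod_erase _ _ hkm,
    ← mul_assoc]
  refine mul_le_mul hk ?_ (Finset.prod_nonneg fun _ _ => norm_nonneg _) (by positivity)
  refine Finset.prod_le_prod (fun _ _ => norm_nonneg _) fun j _ => ?_
  rw [norm_pow, norm_pow, hcast]
  exact pow_le_pow_left₀ (norm_nonneg _) (factor_le _ (by positivity) z hz) N

lemma quot_bound (a b : ℂ) (ε : ℝ) (hε : 0 < ε) (hε1 : ε ≤ 1) (ha : a ≠ 0)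
    (hb : ‖b‖ ≤ ε / 2 * ‖a‖) : a + b ≠ 0 ∧ ‖b / (a + b)‖ ≤ ε := by
  have ha' : 0 < ‖a‖ := norm_pos_iff.mpr ha
  have h1 : ‖a‖ ≤ ‖a + b‖ + ‖b‖ := by
    calc ‖a‖ = ‖(a + b) - b‖ := by rw [add_sub_cancel_right]
      _ ≤ ‖a + b‖ + ‖b‖ := norm_sub_le _ _
  have h2 : ‖a‖ / 2 ≤ ‖a + b‖ := by nlinarith
  have h3 : 0 < ‖a + b‖ := by linarith
  refine ⟨norm_pos_iff.mp h3, ?_⟩
  rw [norm_div, div_le_iff₀ h3]
  nlinarith

end Count

theorem newman (m N : ℕ) (η ε : ℝ) (hη : 0 < η) (hε : 0 < ε) (hε1 : ε ≤ 1)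
    (hN : 5 ≤ N * η * ε ^ 2) (z : ℂ)
    (hz : z = 0 ∨ (1 ≤ ‖z‖ ∧ ‖z‖ ≤ 2 ^ m ∧ η * ‖z‖ ≤ |z.re|)) :
    Qp m N z + Qp m N (-z) ≠ 0 ∧
      ‖Qp m N z / (Qp m N z + Qp m N (-z)) - (chi z.re : ℂ)‖ ≤ ε := by
  rcases hz with rfl | ⟨h1, h2, h3⟩
  · have hne : Qp m N (0 : ℂ) ≠ 0 := by
      unfold Qp
      exact Finset.prod_ne_zero_iff.mpr fun k _ => pow_ne_zero _ (by simp)
    rw [neg_zero, zero_re, Count.chi_zero]
    have h2 : Qp m N (0 : ℂ) + Qp m N (0 : ℂ) ≠ 0 := by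
      rw [← two_mul]; exact mul_ne_zero two_ne_zero hne
    refine ⟨h2, ?_⟩
    have : Qp m N (0 : ℂ) / (Qp m N (0 : ℂ) + Qp m N (0 : ℂ)) - (((1 : ℝ) / 2 : ℝ) : ℂ) = 0 := by
      push_cast
      field_simp
      ring
    rw [this, norm_zero]
    exact hε.le
  · have hpos : 0 < |z.re| := lt_of_lt_of_le (by nlinarith) h3
    rcases lt_or_gt_of_ne (abs_pos.mp hpos) with hz | hz
    · rw [abs_of_neg hz] at h3
      obtain ⟨ha, hb⟩ := Count.newman_pos m N η ε hη hε hN (-z) (by simpa using hz)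
        (by rwa [norm_neg]) (by rwa [norm_neg]) (by rwa [norm_neg, neg_re])
      rw [neg_neg] at hb
      obtain ⟨hc, hd⟩ := Count.quot_bound _ _ ε hε hε1 ha hb
      rw [add_comm] at hc hd
      refine ⟨hc, ?_⟩
      rw [Count.chi_neg hz]
      simpa using hd
    · rw [abs_of_pos hz] at h3
      obtain ⟨ha, hb⟩ := Count.newman_pos m N η ε hη hε hN z hz h1 h2 h3
      obtain ⟨hc, hd⟩ := Count.quot_bound _ _ ε hε hε1 ha hb
      refine ⟨hc, ?_⟩
      rw [Count.chi_pos hz]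
      have : Qp m N z / (Qp m N z + Qp m N (-z)) - ((1 : ℝ) : ℂ) =
          -(Qp m N (-z) / (Qp m N z + Qp m N (-z))) := by
        push_cast
        field_simp
        ring
      rw [this, norm_neg]
      exact hd

namespace Count

lemma angle_aux (K : ℕ) (a b t : ℝ) (ht : t ≤ |a| + |b|) (k k' : ℕ) (hk : k < K)
    (h1 : |(k + 1) * a - K * b| < t / 8) (h2 : |(k' + 1) * a - K * b| < t / 8) : k = k' := by
  by_contra hne
  have hd : (1 : ℝ) ≤ |(k : ℝ) - k'| := by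
    have h : (1 : ℤ) ≤ |(k : ℤ) - k'| := Int.one_le_abs (sub_ne_zero.mpr (by exact_mod_cast hne))
    exact_mod_cast h
  have h3 : |((k : ℝ) - k') * a| < t / 4 := by
    have : ((k : ℝ) - k') * a = ((k + 1) * a - K * b) - ((k' + 1) * a - K * b) := by ring
    rw [this]
    have := abs_sub ((k + 1) * a - K * b) ((k' + 1) * a - K * b)
    linarith
  rw [abs_mul] at h3
  have ha : |a| < t / 4 := by nlinarith [abs_nonneg a]
  have hK : (k : ℝ) + 1 ≤ K := by exact_mod_cast hk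
  have hk0 : (0 : ℝ) ≤ k := Nat.cast_nonneg k
  have h4 : |(K : ℝ) * b| ≤ |((k : ℝ) + 1) * a| + |(k + 1) * a - K * b| := by
    have : (K : ℝ) * b = ((k : ℝ) + 1) * a - ((k + 1) * a - K * b) := by ring
    calc |(K : ℝ) * b| = |((k : ℝ) + 1) * a - ((k + 1) * a - K * b)| := by rw [← this]
      _ ≤ _ := abs_sub _ _
  rw [abs_mul, abs_mul, abs_of_nonneg (by linarith : (0 : ℝ) ≤ K),
    abs_of_nonneg (by linarith : (0 : ℝ) ≤ (k : ℝ) + 1)] at h4
  have h5 : ((k : ℝ) + 1) * |a| ≤ K * |a| := mul_le_mul_of_nonneg_right hK (abs_nonneg a)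
  have ht0 : 0 < t := by linarith [abs_nonneg a]
  have h6 : t / 2 ≤ |b| - |a| := by linarith
  have h7 : (K : ℝ) * (t / 2) ≤ K * (|b| - |a|) := mul_le_mul_of_nonneg_left h6 (by linarith)
  nlinarith

end Count

open Classical in
theorem angle {ι : Type} (K : ℕ) (s : Finset ι) (w : ι → ℂ) :
    ((range K).filter fun k : ℕ => ∃ i ∈ s,
      |(((k + 1 : ℂ) + K * I) * w i).re| < ‖w i‖ / 8 ∨
      |(((k + 1 : ℂ) - K * I) * w i).re| < ‖w i‖ / 8).card ≤ 2 * s.card := by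
  have hsub : ((range K).filter fun k : ℕ => ∃ i ∈ s,
      |(((k + 1 : ℂ) + K * I) * w i).re| < ‖w i‖ / 8 ∨
      |(((k + 1 : ℂ) - K * I) * w i).re| < ‖w i‖ / 8) ⊆
      s.biUnion fun i => ((range K).filter fun k : ℕ =>
        |(((k + 1 : ℂ) + K * I) * w i).re| < ‖w i‖ / 8) ∪
        ((range K).filter fun k : ℕ => |(((k + 1 : ℂ) - K * I) * w i).re| < ‖w i‖ / 8) := by
    intro k hk
    rw [mem_filter] at hk
    obtain ⟨hk, i, hi, h⟩ := hk
    refine mem_biUnion.mpr ⟨i, hi, ?_⟩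
    rcases h with h | h
    · exact mem_union_left _ (mem_filter.mpr ⟨hk, h⟩)
    · exact mem_union_right _ (mem_filter.mpr ⟨hk, h⟩)
  refine (card_le_card hsub).trans ?_
  rw [mul_comm 2 s.card]
  refine card_biUnion_le_card_mul _ _ _ fun i _ => ?_
  have e1 : ∀ k : ℕ, (((k + 1 : ℂ) + K * I) * w i).re = (k + 1) * (w i).re - K * (w i).im := by
    intro k; simp
  have e2 : ∀ k : ℕ, (((k + 1 : ℂ) - K * I) * w i).re = (k + 1) * (w i).re - K * (-(w i).im) := by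
    intro k; simp
  have hn := Complex.norm_le_abs_re_add_abs_im (w i)
  have c1 : ((range K).filter fun k : ℕ =>
      |(((k + 1 : ℂ) + K * I) * w i).re| < ‖w i‖ / 8).card ≤ 1 := by
    refine card_le_one.mpr fun k hk k' hk' => ?_
    rw [mem_filter, mem_range, e1] at hk hk'
    exact Count.angle_aux K _ _ _ hn k k' hk.1 hk.2 hk'.2
  have c2 : ((range K).filter fun k : ℕ =>
      |(((k + 1 : ℂ) - K * I) * w i).re| < ‖w i‖ / 8).card ≤ 1 := by
    refine card_le_one.mpr fun k hk k' hk' => ?_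
    rw [mem_filter, mem_range, e2] at hk hk'
    exact Count.angle_aux K _ _ _ (by rwa [abs_neg]) k k' hk.1 hk.2 hk'.2
  exact (card_union_le _ _).trans (add_le_add c1 c2)

namespace Count

lemma prod_near_one {ι : Type} (s : Finset ι) (f : ι → ℂ) (δ : ℝ) (hδ : 0 ≤ δ)
    (hf : ∀ i ∈ s, ‖f i - 1‖ ≤ δ) : ‖∏ i ∈ s, f i - 1‖ ≤ (1 + δ) ^ s.card - 1 := by
  classical
  induction s using Finset.induction_on with
  | empty => simp
  | insert a s ha ih =>
    rw [prod_insert ha, card_insert_of_notMem ha, pow_succ]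
    have h1 := hf a (mem_insert_self a s)
    have h2 := ih fun i hi => hf i (mem_insert_of_mem hi)
    have e : f a * ∏ i ∈ s, f i - 1 =
        (f a - 1) * (∏ i ∈ s, f i - 1) + (f a - 1) + (∏ i ∈ s, f i - 1) := by ring
    rw [e]
    have h3 : ‖(f a - 1) * (∏ i ∈ s, f i - 1)‖ ≤ δ * ((1 + δ) ^ s.card - 1) := by
      rw [norm_mul]
      exact mul_le_mul h1 h2 (norm_nonneg _) hδ
    have h4 := norm_add₃_le (a := (f a - 1) * (∏ i ∈ s, f i - 1)) (b := f a - 1)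
      (c := ∏ i ∈ s, f i - 1)
    nlinarith

lemma pow_small (δ : ℝ) (hδ : 0 ≤ δ) (N : ℕ) (h : N * δ ≤ 1) : (1 + δ) ^ N ≤ 1 + 2 * (N * δ) := by
  have h1 : (1 + δ) ^ N ≤ Real.exp δ ^ N :=
    pow_le_pow_left₀ (by linarith) (by linarith [Real.add_one_le_exp δ]) N
  rw [← Real.exp_nat_mul] at h1
  have h0 : 0 ≤ (N : ℝ) * δ := by positivity
  have h2 := Real.abs_exp_sub_one_le (x := N * δ) (by rwa [abs_of_nonneg h0])
  rw [abs_of_nonneg h0] at h2
  linarith [le_abs_self (Real.exp (N * δ) - 1)]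

/-- the exact count -/
noncomputable def At {D n : ℕ} (y : Fin D → Fin n → ℂ) (l : ℂ) (k : Fin D) (i : Fin n) : ℝ :=
  ∑ k', (chi (l * (y k' i - y k i)).re - chi (starRingEnd ℂ l * (y k' i - y k i)).re)

lemma At_abs {D n : ℕ} (y : Fin D → Fin n → ℂ) (l : ℂ) (k : Fin D) (i : Fin n) :
    |At y l k i| ≤ D := by
  unfold At
  refine (Finset.abs_sum_le_sum_abs _ _).trans ?_
  calc _ ≤ ∑ _k' : Fin D, (1 : ℝ) := by
        refine sum_le_sum fun k' _ => abs_le.mpr ⟨?_, ?_⟩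
        · linarith [chi_nonneg (l * (y k' i - y k i)).re,
            chi_le_one (starRingEnd ℂ l * (y k' i - y k i)).re]
        · linarith [chi_le_one (l * (y k' i - y k i)).re,
            chi_nonneg (starRingEnd ℂ l * (y k' i - y k i)).re]
    _ = D := by simp

lemma At_eq {D n : ℕ} (y : Fin D → Fin n → ℂ)
    (hy : ∀ F : (Fin n → ℂ) → ℝ, ∑ k, F (fun i => starRingEnd ℂ (y k i)) = ∑ k, F (y k))
    (l : ℂ) (k : Fin D) (i : Fin n) :
    At y l k i = ∑ k', (chi (l * (y k' i - y k i)).re -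
      chi ((l * (y k' i - y k i)).re - 2 * l.im * (y k i).im)) := by
  unfold At
  rw [sum_sub_distrib, sum_sub_distrib]
  congr 1
  have := hy fun z => chi ((l * (z i - y k i)).re - 2 * l.im * (y k i).im)
  rw [← this]
  refine sum_congr rfl fun k' _ => ?_
  congr 1
  simp only [mul_re, sub_re, sub_im, conj_re, conj_im]
  ring

lemma At_real {D n : ℕ} (y : Fin D → Fin n → ℂ)
    (hy : ∀ F : (Fin n → ℂ) → ℝ, ∑ k, F (fun i => starRingEnd ℂ (y k i)) = ∑ k, F (y k))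
    (l : ℂ) (k : Fin D) (i : Fin n) (h : (y k i).im = 0) : At y l k i = 0 := by
  rw [At_eq y hy, h]
  simp

lemma At_nonreal {D n : ℕ} (y : Fin D → Fin n → ℂ)
    (hy : ∀ F : (Fin n → ℂ) → ℝ, ∑ k, F (fun i => starRingEnd ℂ (y k i)) = ∑ k, F (y k))
    (l : ℂ) (hl : l.im ≠ 0) (k : Fin D) (i : Fin n) (h : (y k i).im ≠ 0) :
    1 / 4 ≤ At y l k i ^ 2 := by
  rw [At_eq y hy]
  set δ := 2 * l.im * (y k i).im with hδ
  have hδ0 : δ ≠ 0 := mul_ne_zero (mul_ne_zero two_ne_zero hl) h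
  rcases lt_or_gt_of_ne hδ0 with hd | hd
  · have h1 : 1 / 2 ≤ ∑ k', (chi ((l * (y k' i - y k i)).re - δ) -
        chi (l * (y k' i - y k i)).re) := by
      have := Finset.single_le_sum (s := univ)
        (f := fun k' => chi ((l * (y k' i - y k i)).re - δ) - chi (l * (y k' i - y k i)).re)
        (fun k' _ => sub_nonneg.mpr (chi_mono (by linarith))) (mem_univ k)
      simp only [sub_self, mul_zero, zero_re] at this
      rw [chi_zero, chi_pos (by linarith)] at this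
      linarith
    have h2 : ∑ k', (chi (l * (y k' i - y k i)).re - chi ((l * (y k' i - y k i)).re - δ)) =
        -∑ k', (chi ((l * (y k' i - y k i)).re - δ) - chi (l * (y k' i - y k i)).re) := by
      rw [← sum_neg_distrib]
      exact sum_congr rfl fun _ _ => by ring
    rw [h2]
    nlinarith
  · have h1 : 1 / 2 ≤ ∑ k', (chi (l * (y k' i - y k i)).re -
        chi ((l * (y k' i - y k i)).re - δ)) := by
      have := Finset.single_le_sum (s := univ)
        (f := fun k' => chi (l * (y k' i - y k i)).re - chi ((l * (y k' i - y k i)).re - δ))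
        (fun k' _ => sub_nonneg.mpr (chi_mono (by linarith))) (mem_univ k)
      simp only [sub_self, mul_zero, zero_re] at this
      rw [chi_zero, chi_neg (by linarith)] at this
      linarith
    nlinarith

lemma factor_close (D : ℕ) (hD : 1 ≤ D) (A : ℂ) (a ε : ℝ) (hε : 0 ≤ ε) (hε1 : ε ≤ 1 / 2)
    (ha : |a| ≤ D) (hA : ‖A - a‖ ≤ 2 * D * ε) :
    ‖(1 - A ^ 2 / (D : ℂ) ^ 2) - ((1 - a ^ 2 / (D : ℝ) ^ 2 : ℝ) : ℂ)‖ ≤ 6 * ε := by
  have hD' : (1 : ℝ) ≤ D := by exact_mod_cast hD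
  have hDc : (D : ℂ) ≠ 0 := by exact_mod_cast (by omega : D ≠ 0)
  have e : (1 - A ^ 2 / (D : ℂ) ^ 2) - ((1 - a ^ 2 / (D : ℝ) ^ 2 : ℝ) : ℂ) =
      -((A - a) * ((A - a) + 2 * a)) / (D : ℂ) ^ 2 := by
    push_cast
    field_simp
    ring
  rw [e, norm_div, norm_neg, norm_mul, norm_pow, Complex.norm_natCast,
    div_le_iff₀ (by positivity)]
  have h1 : ‖(A - a) + 2 * a‖ ≤ 2 * D * ε + 2 * D := by
    refine (norm_add_le _ _).trans (add_le_add hA ?_)
    rw [norm_mul, Complex.norm_real, Real.norm_eq_abs]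
    simp only [Complex.norm_ofNat]
    linarith
  have h2 := mul_le_mul hA h1 (norm_nonneg _) (by positivity)
  have h3 : 2 * D * ε * (2 * D * ε + 2 * D) = 4 * ε * (D : ℝ) ^ 2 * (1 + ε) := by ring
  have h4 : 0 ≤ ε * (D : ℝ) ^ 2 := by positivity
  nlinarith

end Count

theorem count_main {D n : ℕ} (hD : 1 ≤ D) (y : Fin D → Fin n → ℂ)
    (hy : ∀ F : (Fin n → ℂ) → ℝ, ∑ k, F (fun i => starRingEnd ℂ (y k i)) = ∑ k, F (y k))
    (v : Fin D → ℂ) (hv : ∀ k, (∀ i, (y k i).im = 0) → (v k).im = 0)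
    (l : ℂ) (hl : 0 < l.re) (hl' : l.im ≠ 0) (h : ℂ → ℂ) (ε : ℝ) (M : ℕ)
    (hM : 128 * D ^ 3 ≤ M) (hε : 100 * (n + 1) * M * D * ε ≤ 1)
    (h1 : ∀ k k' i, ‖h (l * (y k' i - y k i)) - (chi (l * (y k' i - y k i)).re : ℂ)‖ ≤ ε)
    (h2 : ∀ k k' i, ‖h (starRingEnd ℂ l * (y k' i - y k i)) -
      (chi (starRingEnd ℂ l * (y k' i - y k i)).re : ℂ)‖ ≤ ε)
    (h3 : ∀ k, ‖h (l * v k) - (chi (l * v k).re : ℂ)‖ ≤ ε) (c : ℂ)
    (hc : c = ∑ k, h (l * v k) * ∏ i, (1 - (∑ k', (h (l * (y k' i - y k i)) -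
      h (starRingEnd ℂ l * (y k' i - y k i)))) ^ 2 / (D : ℂ) ^ 2) ^ M) :
    ((∃ k, (∀ i, (y k i).im = 0) ∧ 0 < (v k).re) → 1 / 2 < c.re) ∧
      ((∀ k, (∀ i, (y k i).im = 0) → (v k).re < 0) → c.re < 1 / 2) := by
  classical
  have hD' : (1 : ℝ) ≤ D := by exact_mod_cast hD
  have hM' : 128 * (D : ℝ) ^ 3 ≤ M := by exact_mod_cast hM
  have hε0 : 0 ≤ ε := (norm_nonneg _).trans (h3 ⟨0, hD⟩)
  have hn0 : (0 : ℝ) ≤ n := Nat.cast_nonneg n
  have hD3 : (D : ℝ) ≤ (D : ℝ) ^ 3 := le_self_pow₀ hD' (by norm_num)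
  have hD23 : (D : ℝ) ^ 2 ≤ (D : ℝ) ^ 3 := pow_le_pow_right₀ hD' (by norm_num)
  have hM1 : (1 : ℝ) ≤ M := by linarith
  have hMε : 0 ≤ M * ε := by positivity
  have hnMε : 0 ≤ n * M * ε := by positivity
  have hA1 : 100 * (n * M * ε * D) ≤ 1 := by
    have : 0 ≤ M * ε * D := by positivity
    nlinarith
  have hA2 : 100 * (M * ε * D) ≤ 1 := by
    have : 0 ≤ n * M * ε * D := by positivity
    nlinarith
  have hA3 : 100 * (n * M * ε) ≤ 1 := by nlinarith
  have hA4 : 100 * (ε * D) ≤ 1 := by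
    have : 0 ≤ ε * D := by positivity
    nlinarith
  have hA5 : 100 * ε ≤ 1 := by nlinarith
  have hA6 : 100 * (ε * (D : ℝ) ^ 2) ≤ 1 := by
    have h5 : ε * (D : ℝ) ^ 2 ≤ ε * M := mul_le_mul_of_nonneg_left (by nlinarith) hε0
    nlinarith
  set A : Fin D → Fin n → ℂ := fun k i => ∑ k', (h (l * (y k' i - y k i)) -
      h (starRingEnd ℂ l * (y k' i - y k i))) with hAdef
  have hA : ∀ k i, ‖A k i - (Count.At y l k i : ℂ)‖ ≤ 2 * D * ε := by
    intro k i
    unfold Count.At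
    rw [hAdef]
    push_cast
    rw [← sum_sub_distrib]
    refine (norm_sum_le _ _).trans ?_
    calc _ ≤ ∑ _k' : Fin D, 2 * ε := by
          refine sum_le_sum fun k' _ => ?_
          rw [sub_sub_sub_comm]
          exact (norm_sub_le _ _).trans (by linarith [h1 k k' i, h2 k k' i])
      _ = 2 * D * ε := by simp; ring
  have hF : ∀ k i, ‖(1 - A k i ^ 2 / (D : ℂ) ^ 2) -
      ((1 - Count.At y l k i ^ 2 / (D : ℝ) ^ 2 : ℝ) : ℂ)‖ ≤ 6 * ε := fun k i =>
    Count.factor_close D hD _ _ ε hε0 (by linarith) (Count.At_abs y l k i) (hA k i)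
  have hF2 : ∀ k i, ‖1 - A k i ^ 2 / (D : ℂ) ^ 2‖ ≤
      1 - Count.At y l k i ^ 2 / (D : ℝ) ^ 2 + 6 * ε := by
    intro k i
    have h4 : Count.At y l k i ^ 2 / (D : ℝ) ^ 2 ≤ 1 := by
      rw [div_le_one (by positivity), ← sq_abs]
      exact pow_le_pow_left₀ (abs_nonneg _) (Count.At_abs y l k i) 2
    have h5 := norm_le_norm_add_norm_sub' (1 - A k i ^ 2 / (D : ℂ) ^ 2)
      ((1 - Count.At y l k i ^ 2 / (D : ℝ) ^ 2 : ℝ) : ℂ)
    rw [Complex.norm_real, Real.norm_eq_abs, abs_of_nonneg (by linarith)] at h5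
    linarith [hF k i]
  have hh : ∀ k, ‖h (l * v k)‖ ≤ 1 + ε := by
    intro k
    have h5 := norm_le_norm_add_norm_sub' (h (l * v k)) (chi (l * v k).re : ℂ)
    rw [Complex.norm_real, Real.norm_eq_abs, abs_of_nonneg (Count.chi_nonneg _)] at h5
    linarith [h3 k, Count.chi_le_one (l * v k).re]
  have hP : (1 + 6 * ε) ^ (n * M) ≤ 1 + 12 * (n * M * ε) := by
    have := Count.pow_small (6 * ε) (by positivity) (n * M) (by push_cast; nlinarith)
    push_cast at this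
    linarith
  set T : Fin D → ℝ := fun k => if ∀ i, (y k i).im = 0 then chi (v k).re else 0 with hT
  have hterm : ∀ k, ‖h (l * v k) * ∏ i, (1 - A k i ^ 2 / (D : ℂ) ^ 2) ^ M - (T k : ℂ)‖ * D
      ≤ 1 / 4 := by
    intro k
    by_cases hk : ∀ i, (y k i).im = 0
    · have hTk : T k = chi (l * v k).re := by
        rw [hT]
        simp only [if_pos hk]
        rw [mul_re, hv k hk, mul_zero, sub_zero, Count.chi_mul hl]
      have hq : ‖∏ i, (1 - A k i ^ 2 / (D : ℂ) ^ 2) ^ M - 1‖ ≤ 12 * (n * M * ε) := by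
        have e : ∏ i, (1 - A k i ^ 2 / (D : ℂ) ^ 2) ^ M =
            ∏ p : Fin n × Fin M, (1 - A k p.1 ^ 2 / (D : ℂ) ^ 2) := by
          rw [Fintype.prod_prod_type]
          simp
        rw [e]
        have := Count.prod_near_one (univ : Finset (Fin n × Fin M))
          (fun p => 1 - A k p.1 ^ 2 / (D : ℂ) ^ 2) (6 * ε) (by positivity) fun p _ => by
            have h4 := hF k p.1
            rw [Count.At_real y hy l k p.1 (hk p.1)] at h4
            simpa using h4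
        rw [card_univ, Fintype.card_prod, Fintype.card_fin, Fintype.card_fin] at this
        linarith
      have e : h (l * v k) * ∏ i, (1 - A k i ^ 2 / (D : ℂ) ^ 2) ^ M - (T k : ℂ) =
          h (l * v k) * (∏ i, (1 - A k i ^ 2 / (D : ℂ) ^ 2) ^ M - 1) +
            (h (l * v k) - (chi (l * v k).re : ℂ)) := by
        rw [hTk]; ring
      have h4 : ‖h (l * v k) * (∏ i, (1 - A k i ^ 2 / (D : ℂ) ^ 2) ^ M - 1)‖ ≤
          (3 / 2) * (12 * (n * M * ε)) := by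
        rw [norm_mul]
        exact mul_le_mul ((hh k).trans (by linarith)) hq (norm_nonneg _) (by norm_num)
      have h5 : ‖h (l * v k) * ∏ i, (1 - A k i ^ 2 / (D : ℂ) ^ 2) ^ M - (T k : ℂ)‖ ≤
          (3 / 2) * (12 * (n * M * ε)) + ε := by
        rw [e]
        exact (norm_add_le _ _).trans (add_le_add h4 (h3 k))
      have h6 := mul_le_mul_of_nonneg_right h5 (by positivity : (0 : ℝ) ≤ D)
      nlinarith
    · have hTk : T k = 0 := by
        rw [hT]
        simp only [if_neg hk]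
      push Not at hk
      obtain ⟨i, hi⟩ := hk
      have hx : (0 : ℝ) < 1 / (8 * (D : ℝ) ^ 2) := by positivity
      have hx1 : 1 / (8 * (D : ℝ) ^ 2) ≤ 1 := by
        rw [div_le_one (by positivity)]; nlinarith
      have hi1 : ‖1 - A k i ^ 2 / (D : ℂ) ^ 2‖ ≤ 1 - 1 / (8 * (D : ℝ) ^ 2) := by
        have h4 := Count.At_nonreal y hy l hl' k i hi
        have h5 : 2 * (1 / (8 * (D : ℝ) ^ 2)) ≤ Count.At y l k i ^ 2 / (D : ℝ) ^ 2 := by
          rw [le_div_iff₀ (by positivity)]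
          field_simp
          linarith
        have h6 : 6 * ε ≤ 1 / (8 * (D : ℝ) ^ 2) := by
          rw [le_div_iff₀ (by positivity)]
          nlinarith
        linarith [hF2 k i]
      have hi2 : ‖(1 - A k i ^ 2 / (D : ℂ) ^ 2) ^ M‖ * D ≤ 1 / 16 := by
        have h4 := Count.pow_one_sub_le _ hx hx1 M
        have h5 : ‖(1 - A k i ^ 2 / (D : ℂ) ^ 2) ^ M‖ ≤ (1 - 1 / (8 * (D : ℝ) ^ 2)) ^ M := by
          rw [norm_pow]
          exact pow_le_pow_left₀ (norm_nonneg _) hi1 M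
        have h6 : 16 * (D : ℝ) ≤ M * (1 / (8 * (D : ℝ) ^ 2)) := by
          rw [mul_one_div, le_div_iff₀ (by positivity)]
          nlinarith
        have h7 : 0 ≤ (1 - 1 / (8 * (D : ℝ) ^ 2)) ^ M := pow_nonneg (by linarith) M
        have h8 := mul_le_mul_of_nonneg_left h6 h7
        have h9 := mul_le_mul_of_nonneg_right h5 (by positivity : (0 : ℝ) ≤ D)
        nlinarith
      have hrest : ‖∏ j ∈ univ.erase i, (1 - A k j ^ 2 / (D : ℂ) ^ 2) ^ M‖ ≤ 2 := by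
        rw [norm_prod]
        have h4 : ∏ j ∈ univ.erase i, ‖(1 - A k j ^ 2 / (D : ℂ) ^ 2) ^ M‖ ≤
            ∏ _j ∈ univ.erase i, (1 + 6 * ε) ^ M := by
          refine prod_le_prod (fun _ _ => norm_nonneg _) fun j _ => ?_
          rw [norm_pow]
          refine pow_le_pow_left₀ (norm_nonneg _) ?_ M
          have : 0 ≤ Count.At y l k j ^ 2 / (D : ℝ) ^ 2 := by positivity
          linarith [hF2 k j]
        rw [prod_const, ← pow_mul] at h4
        have h5 : (1 + 6 * ε) ^ (M * (univ.erase i).card) ≤ (1 + 6 * ε) ^ (n * M) := by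
          refine pow_le_pow_right₀ (by linarith) ?_
          rw [mul_comm]
          refine Nat.mul_le_mul_right _ (card_erase_le.trans ?_)
          simp
        linarith
      rw [hTk, ofReal_zero, sub_zero, ← Finset.mul_prod_erase _ _ (mem_univ i), norm_mul, norm_mul]
      have h4 : ‖h (l * v k)‖ ≤ 2 := (hh k).trans (by linarith)
      have h5 := mul_le_mul h4 hrest (norm_nonneg _) (by norm_num)
      have h6 := mul_le_mul h5 hi2 (by positivity) (by norm_num)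
      nlinarith
  have hsum : ‖c - ((∑ k, T k : ℝ) : ℂ)‖ ≤ 1 / 4 := by
    rw [hc]
    push_cast
    rw [← sum_sub_distrib]
    refine (norm_sum_le _ _).trans ?_
    calc _ ≤ ∑ _k : Fin D, 1 / 4 / (D : ℝ) := by
          refine sum_le_sum fun k _ => ?_
          rw [le_div_iff₀ (by positivity)]
          exact hterm k
      _ = 1 / 4 := by
          rw [sum_const, card_univ, Fintype.card_fin, nsmul_eq_mul]
          field_simp
  have hre : |c.re - ∑ k, T k| ≤ 1 / 4 := by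
    have := (Complex.abs_re_le_norm (c - ((∑ k, T k : ℝ) : ℂ))).trans hsum
    rwa [sub_re, ofReal_re] at this
  rw [abs_le] at hre
  constructor
  · rintro ⟨k, hk, hvk⟩
    have h4 := Finset.single_le_sum (s := univ) (f := T) (fun k' _ => by
      rw [hT]
      simp only
      split_ifs
      · exact Count.chi_nonneg _
      · exact le_rfl) (mem_univ k)
    have h5 : T k = 1 := by
      rw [hT]
      simp only [if_pos hk]
      exact Count.chi_pos hvk
    linarith [hre.1]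
  · intro hall
    have h4 : ∑ k, T k = 0 := by
      refine sum_eq_zero fun k _ => ?_
      rw [hT]
      simp only
      split_ifs with hk
      · exact Count.chi_neg (hall k hk)
      · rfl
    linarith [hre.2]

end Vale.Agent.P337
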