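import Mathlib

/-! The critical point method. -/

namespace Vale.Agent.P337

open MvPolynomial Finset

variable {n : ℕ}

/-- the perturbed function -/
noncomputable def Gv (d : ℕ) (F : MvPolynomial (Fin n) ℝ) (E : ℝ) (x : Fin n → ℝ) : ℝ :=
  (d + 1) * E * eval x F + ∑ i, x i ^ (d + 1)

/-- critical points -/
def Crit (d : ℕ) (F : MvPolynomial (Fin n) ℝ) (E : ℝ) (x : Fin n → ℝ) : Prop :=
  ∀ i, x i ^ d + E * eval x (pderiv i F) = 0

namespace CritAux

theorem deriv_eval (F : MvPolynomial (Fin n) ℝ) (x : Fin n → ℝ) (i : Fin n) :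
    HasDerivAt (fun t => eval (Function.update x i t) F) (eval x (pderiv i F)) (x i) := by
  induction F using MvPolynomial.induction_on with
  | C a => simpa using hasDerivAt_const (x i) a
  | add p q hp hq => simpa using hp.fun_add hq
  | mul_X p j hp =>
    by_cases hj : j = i
    · subst hj
      have h := hp.fun_mul (hasDerivAt_id' (x j))
      simp only [Function.update_eq_self, mul_one] at h
      simpa [add_comm, mul_comm] using h
    · have h := hp.mul_const (x j)
      simpa [hj, Function.update_of_ne hj, mul_comm] using h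

theorem deriv_pow (d : ℕ) (x : Fin n → ℝ) (i : Fin n) :
    HasDerivAt (fun t => ∑ j, Function.update x i t j ^ (d + 1)) ((d + 1) * x i ^ d) (x i) := by
  have e : (fun t => ∑ j, Function.update x i t j ^ (d + 1))
      = fun t => t ^ (d + 1) + ∑ j ∈ univ.erase i, x j ^ (d + 1) := by
    funext t
    rw [← Finset.add_sum_erase _ _ (mem_univ i), Function.update_self]
    congr 1
    exact Finset.sum_congr rfl (fun j hj => by rw [Function.update_of_ne (ne_of_mem_erase hj)])
  rw [e]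
  simpa using (hasDerivAt_pow (d + 1) (x i)).add_const (∑ j ∈ univ.erase i, x j ^ (d + 1))

theorem crit_of_min (d : ℕ) (F : MvPolynomial (Fin n) ℝ) (E : ℝ) (x : Fin n → ℝ)
    (h : ∀ y, Gv d F E x ≤ Gv d F E y) : Crit d F E x := by
  intro i
  have h1 : HasDerivAt (fun t => Gv d F E (Function.update x i t))
      ((d + 1) * E * eval x (pderiv i F) + (d + 1) * x i ^ d) (x i) :=
    ((deriv_eval F x i).const_mul ((d + 1) * E)).fun_add (deriv_pow d x i)
  have h2 : IsLocalMin (fun t => Gv d F E (Function.update x i t)) (x i) :=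
    Filter.Eventually.of_forall (fun t => by
      show Gv d F E (Function.update x i (x i)) ≤ _
      rw [Function.update_eq_self]; exact h _)
  have h3 := h2.hasDerivAt_eq_zero h1
  have h4 : ((d : ℝ) + 1) * (x i ^ d + E * eval x (pderiv i F)) = 0 := by linarith
  exact (mul_eq_zero.1 h4).resolve_left (by positivity)

theorem cont_g (d : ℕ) : Continuous (fun x : Fin n → ℝ => ∑ i, x i ^ (d + 1)) := by fun_prop

theorem cont_Gv (d : ℕ) (F : MvPolynomial (Fin n) ℝ) (E : ℝ) : Continuous (Gv d F E) :=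
  (continuous_const.mul (MvPolynomial.continuous_eval F)).add (cont_g d)

theorem compact_g (d : ℕ) (hd : Odd d) (c : ℝ) :
    IsCompact {x : Fin n → ℝ | ∑ i, x i ^ (d + 1) ≤ c} := by
  have he : Even (d + 1) := hd.add_one
  refine (isCompact_closedBall (0 : Fin n → ℝ) (max 1 c)).of_isClosed_subset
    (isClosed_le (cont_g d) continuous_const) (fun x hx => ?_)
  rw [mem_closedBall_zero_iff, pi_norm_le_iff_of_nonneg (le_trans zero_le_one (le_max_left _ _))]
  intro i
  have h1 : x i ^ (d + 1) ≤ c :=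
    le_trans (Finset.single_le_sum (f := fun i => x i ^ (d + 1))
      (fun j _ => he.pow_nonneg (x j)) (mem_univ i)) hx
  rw [← he.pow_abs] at h1
  rw [Real.norm_eq_abs]
  rcases le_total |x i| 1 with h2 | h2
  · exact le_trans h2 (le_max_left _ _)
  · exact le_trans (le_trans (le_self_pow₀ h2 (by omega)) h1) (le_max_right _ _)

theorem g_le_Gv (d : ℕ) (F : MvPolynomial (Fin n) ℝ) (hF : ∀ x, 0 ≤ eval x F) {E : ℝ}
    (hE : 0 ≤ E) (x : Fin n → ℝ) : ∑ i, x i ^ (d + 1) ≤ Gv d F E x := by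
  have := hF x
  exact le_add_of_nonneg_left (by positivity)

theorem exists_min (d : ℕ) (hd : Odd d) (F : MvPolynomial (Fin n) ℝ) (hF : ∀ x, 0 ≤ eval x F)
    {E : ℝ} (hE : 0 ≤ E) : ∃ x, ∀ y, Gv d F E x ≤ Gv d F E y := by
  obtain ⟨x, -, hx⟩ := (compact_g (n := n) d hd (Gv d F E 0)).exists_isMinOn
    ⟨0, g_le_Gv d F hF hE 0⟩ (cont_Gv d F E).continuousOn
  refine ⟨x, fun y => ?_⟩
  by_cases hy : ∑ i, y i ^ (d + 1) ≤ Gv d F E 0
  · exact hx hy
  · exact le_trans (hx (g_le_Gv d F hF hE 0)) (le_trans (not_le.1 hy).le (g_le_Gv d F hF hE y))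

end CritAux

open CritAux in
theorem crit_main (d : ℕ) (hd : Odd d) (F : MvPolynomial (Fin n) ℝ) (hF : ∀ x, 0 ≤ eval x F)
    (c E0 : ℝ) (hE : 0 < E0)
    (h1 : ∀ E, E0 ≤ E → ∀ x, Crit d F E x → Gv d F E x ≠ c)
    (h2 : ∀ C : ℝ, ∃ E, E0 ≤ E ∧ ∀ x, Crit d F E x → ¬ (c ≤ Gv d F E x ∧ Gv d F E x ≤ C)) :
    ((∃ x, eval x F = 0) → ∃ x, Crit d F E0 x ∧ Gv d F E0 x < c) ∧
      ((¬ ∃ x, eval x F = 0) → ∀ x, c < Gv d F E0 x) := by
  constructor
  · rintro ⟨x0, hx0⟩
    obtain ⟨E, hE1, hE2⟩ := h2 (∑ i, x0 i ^ (d + 1))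
    obtain ⟨x, hx⟩ := exists_min d hd F hF (le_trans hE.le hE1)
    obtain ⟨y, hy⟩ := exists_min d hd F hF hE.le
    have h3 : Gv d F E x ≤ ∑ i, x0 i ^ (d + 1) := by
      have := hx x0
      simpa [Gv, hx0] using this
    have h4 : Gv d F E x < c := by
      by_contra hc
      exact hE2 x (crit_of_min d F E x hx) ⟨not_lt.1 hc, h3⟩
    have h5 : Gv d F E0 x ≤ Gv d F E x := by
      unfold Gv
      have := hF x
      gcongr
    exact ⟨y, crit_of_min d F E0 y hy, lt_of_le_of_lt (le_trans (hy x) h5) h4⟩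
  · intro hne x
    by_contra hc
    have hc' : Gv d F E0 x ≤ c := not_lt.1 hc
    have hpos : ∀ y, 0 < ((d : ℝ) + 1) * eval y F := fun y =>
      mul_pos (by positivity) (lt_of_le_of_ne (hF y) (fun h => hne ⟨y, h.symm⟩))
    have hcont : Continuous (fun y : Fin n → ℝ =>
        (c - ∑ i, y i ^ (d + 1)) / (((d : ℝ) + 1) * eval y F)) :=
      (continuous_const.sub (cont_g d)).div
        (continuous_const.mul (MvPolynomial.continuous_eval F)) (fun y => (hpos y).ne')
    have hxS : ∑ i, x i ^ (d + 1) ≤ c := le_trans (g_le_Gv d F hF hE.le x) hc'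
    obtain ⟨z, -, hz⟩ := (compact_g (n := n) d hd c).exists_isMaxOn ⟨x, hxS⟩ hcont.continuousOn
    set E1 : ℝ := (c - ∑ i, z i ^ (d + 1)) / (((d : ℝ) + 1) * eval z F) with hE1
    have h3 : E0 ≤ E1 := by
      refine le_trans ?_ (hz hxS)
      show E0 ≤ (c - ∑ i, x i ^ (d + 1)) / (((d : ℝ) + 1) * eval x F)
      rw [le_div_iff₀ (hpos x)]
      unfold Gv at hc'
      linarith
    have h4 : Gv d F E1 z = c := by
      have := div_mul_cancel₀ (c - ∑ i, z i ^ (d + 1)) (hpos z).ne'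
      rw [← hE1] at this
      unfold Gv
      linarith
    refine h1 E1 h3 z (crit_of_min d F E1 z (fun y => ?_)) h4
    rw [h4]
    by_cases hy : ∑ i, y i ^ (d + 1) ≤ c
    · have h5 : (c - ∑ i, y i ^ (d + 1)) / (((d : ℝ) + 1) * eval y F) ≤ E1 := hz hy
      rw [div_le_iff₀ (hpos y)] at h5
      unfold Gv
      linarith
    · exact le_trans (not_le.1 hy).le (g_le_Gv d F hF (le_trans hE.le h3) y)

end Vale.Agent.P337
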