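import Mathlib

namespace Vale.Agent.P337

open Finset

namespace Crt

theorem exists_v (S : Finset ℕ) (hS : ∀ p ∈ S, p.Prime) (θ : ℤ) (D : ℕ) (a : ℕ → ℕ)
    (ha : ∀ p ∈ S, ((a p : ZMod p) * ∏ q ∈ S.erase p, (q : ZMod p)) = (θ : ZMod p)) :
    ∃ v : ℤ, (((∑ p ∈ S, D * a p / p) % D : ℕ) : ℤ) = v % D ∧
      (∏ p ∈ S, (p : ℤ)) * v ≤ D * θ ∧
      D * θ ≤ (∏ p ∈ S, (p : ℤ)) * v + S.card * ∏ p ∈ S, (p : ℤ) := by
  have hdvd : (∏ p ∈ S, (p : ℤ)) ∣ (∑ p ∈ S, (a p : ℤ) * ∏ q ∈ S.erase p, (q : ℤ)) - θ := by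
    apply Finset.prod_dvd_of_coprime
    · intro p hp q hq hpq
      exact Nat.isCoprime_iff_coprime.2 ((Nat.coprime_primes (hS p hp) (hS q hq)).2 hpq)
    · intro p hp
      rw [← ZMod.intCast_zmod_eq_zero_iff_dvd]
      push_cast
      rw [sum_eq_single p, ha p hp, sub_self]
      · intro q _ hqp
        rw [prod_eq_zero (mem_erase.2 ⟨hqp.symm, hp⟩) (ZMod.natCast_self p), mul_zero]
      · intro h; exact absurd hp h
  obtain ⟨t, ht⟩ := hdvd
  have hb : ∀ p ∈ S, (∏ p ∈ S, (p : ℤ)) * ((D * a p / p : ℕ) : ℤ) ≤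
        D * ((a p : ℤ) * ∏ q ∈ S.erase p, (q : ℤ)) ∧
      D * ((a p : ℤ) * ∏ q ∈ S.erase p, (q : ℤ)) ≤
        (∏ p ∈ S, (p : ℤ)) * ((D * a p / p : ℕ) : ℤ) + ∏ p ∈ S, (p : ℤ) := by
    intro p hp
    rw [← mul_prod_erase S (fun q : ℕ => (q : ℤ)) hp]
    have h0 : (0 : ℤ) ≤ ∏ q ∈ S.erase p, (q : ℤ) := prod_nonneg fun _ _ => by positivity
    have h1 : p * (D * a p / p) ≤ D * a p := Nat.mul_div_le _ _
    have h2 : D * a p ≤ p * (D * a p / p) + p := by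
      have := Nat.div_add_mod (D * a p) p
      have := Nat.mod_lt (D * a p) (hS p hp).pos
      omega
    have h1' : (p : ℤ) * ((D * a p / p : ℕ) : ℤ) ≤ D * a p := by exact_mod_cast h1
    have h2' : (D : ℤ) * a p ≤ p * ((D * a p / p : ℕ) : ℤ) + p := by exact_mod_cast h2
    constructor
    · nlinarith [mul_le_mul_of_nonneg_right h1' h0]
    · nlinarith [mul_le_mul_of_nonneg_right h2' h0]
  have s1 := sum_le_sum fun p hp => (hb p hp).1
  have s2 := sum_le_sum fun p hp => (hb p hp).2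
  rw [← mul_sum, ← mul_sum] at s1
  rw [sum_add_distrib, ← mul_sum, ← mul_sum, sum_const, nsmul_eq_mul] at s2
  refine ⟨∑ p ∈ S, ((D * a p / p : ℕ) : ℤ) - D * t, ?_, ?_, ?_⟩
  · rw [Int.sub_mul_emod_self_left, Int.natCast_mod, Nat.cast_sum]
  · have : θ = ∑ p ∈ S, (a p : ℤ) * ∏ q ∈ S.erase p, (q : ℤ) - (∏ p ∈ S, (p : ℤ)) * t := by
      linarith
    rw [this]; linarith
  · have : θ = ∑ p ∈ S, (a p : ℤ) * ∏ q ∈ S.erase p, (q : ℤ) - (∏ p ∈ S, (p : ℤ)) * t := by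
      linarith
    rw [this]; linarith

theorem cases_v {M D c θ v y : ℤ} (hM : 0 < M) (hD : 0 < D) (hc : 64 * c ≤ D) (hy : y = v % D)
    (h1 : M * v ≤ D * θ) (h2 : D * θ ≤ M * v + c * M) (hθ : 4 * |θ| ≤ M) :
    ((0 ≤ v ∧ y = v) ∨ (v < 0 ∧ y = v + D)) ∧ 4 * v ≤ D ∧ -17 * D ≤ 64 * v ∧
      (0 ≤ θ → -D ≤ 64 * v) ∧ (θ ≤ 0 → v ≤ 0) ∧ (θ < 0 → v < 0) ∧
      (M ≤ 8 * θ → 7 * D ≤ 64 * v) ∧ (8 * θ ≤ -M → 8 * v ≤ -D) := by
  have a1 : 4 * θ ≤ M := by have := le_abs_self θ; linarith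
  have a2 : -M ≤ 4 * θ := by have := neg_abs_le θ; linarith
  have a3 : 64 * c * M ≤ D * M := mul_le_mul_of_nonneg_right hc hM.le
  have b1 : 4 * v ≤ D := by
    apply le_of_mul_le_mul_left _ hM
    nlinarith [mul_le_mul_of_nonneg_left a1 hD.le]
  have b2 : -17 * D ≤ 64 * v := by
    apply le_of_mul_le_mul_left _ hM
    nlinarith [mul_le_mul_of_nonneg_left a2 hD.le]
  refine ⟨?_, b1, b2, fun h => ?_, fun h => ?_, fun h => ?_, fun h => ?_, fun h => ?_⟩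
  · rcases le_or_gt 0 v with h | h
    · exact Or.inl ⟨h, by rw [hy, Int.emod_eq_of_lt h (by linarith)]⟩
    · refine Or.inr ⟨h, ?_⟩
      rw [hy, ← Int.add_emod_right, Int.emod_eq_of_lt (by linarith) (by linarith)]
  · apply le_of_mul_le_mul_left _ hM
    nlinarith [mul_nonneg hD.le h]
  · apply le_of_mul_le_mul_left _ hM
    nlinarith [mul_le_mul_of_nonneg_left h hD.le]
  · apply lt_of_mul_lt_mul_left _ hM.le
    nlinarith [mul_lt_mul_of_pos_left h hD]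
  · apply le_of_mul_le_mul_left _ hM
    nlinarith [mul_le_mul_of_nonneg_left h hD.le]
  · apply le_of_mul_le_mul_left _ hM
    nlinarith [mul_le_mul_of_nonneg_left h hD.le]

end Crt

theorem crt_sign (S : Finset ℕ) (hS : ∀ p ∈ S, p.Prime) (W : ℤ) (hW : 4 * |W| < ∏ p ∈ S, (p : ℤ))
    (b J : ℕ) (hb : 64 * S.card ≤ 2 ^ b) (hJ : ∏ p ∈ S, p ≤ 2 ^ J) (a : ℕ → ℕ → ℕ)
    (ha : ∀ j, ∀ p ∈ S, ((a j p : ZMod p) * ∏ q ∈ S.erase p, (q : ZMod p)) = 2 ^ j * (W : ZMod p))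
    (Y : ℕ → ℕ) (hY : ∀ j, Y j = (∑ p ∈ S, 2 ^ b * a j p / p) % 2 ^ b) :
    0 < W ↔ ∃ j < J, (2 ^ b ≤ 16 * Y j ∧ 2 * Y j < 2 ^ b) ∧
      ∀ i < j, ¬ (2 ^ b ≤ 16 * Y i ∧ 16 * Y i ≤ 15 * 2 ^ b) := by
  classical
  set M : ℤ := ∏ p ∈ S, (p : ℤ) with hMdef
  have hM : 0 < M := lt_of_le_of_lt (by positivity) hW
  obtain ⟨D, hDdef⟩ : ∃ D : ℕ, D = 2 ^ b := ⟨_, rfl⟩
  rw [← hDdef] at hb hY ⊢
  have hD : (0 : ℤ) < D := by rw [hDdef]; positivity
  have hb' : 64 * (S.card : ℤ) ≤ D := by exact_mod_cast hb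
  have key : ∀ j, 4 * |2 ^ j * W| ≤ M → ∃ v : ℤ,
      ((0 ≤ v ∧ (Y j : ℤ) = v) ∨ (v < 0 ∧ (Y j : ℤ) = v + D)) ∧ 4 * v ≤ D ∧ -17 * D ≤ 64 * v ∧
      (0 ≤ 2 ^ j * W → -D ≤ 64 * v) ∧ (2 ^ j * W ≤ 0 → v ≤ 0) ∧ (2 ^ j * W < 0 → v < 0) ∧
      (M ≤ 8 * (2 ^ j * W) → 7 * D ≤ 64 * v) ∧ (8 * (2 ^ j * W) ≤ -M → 8 * v ≤ -D) := by
    intro j hj
    obtain ⟨v, h1, h2, h3⟩ := Crt.exists_v S hS (2 ^ j * W) D (a j)
      (fun p hp => by rw [ha j p hp]; push_cast; rfl)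
    exact ⟨v, Crt.cases_v hM hD hb' (by rw [hY j]; exact h1) h2 h3 hj⟩
  rcases eq_or_ne W 0 with h0 | h0
  · refine ⟨fun h => absurd h (by omega), ?_⟩
    rintro ⟨j, _, ⟨h1, h2⟩, _⟩
    obtain ⟨v, h3, _, _, h4, h5, _⟩ := key j (by simp [h0, hM.le])
    have h6 := h4 (by simp [h0])
    have h7 := h5 (by simp [h0])
    omega
  have hW1 : 1 ≤ |W| := Int.one_le_abs h0
  have hMJ : M ≤ 2 ^ J := by
    have h1 : ((∏ p ∈ S, p : ℕ) : ℤ) ≤ ((2 ^ J : ℕ) : ℤ) := Int.ofNat_le.2 hJ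
    rw [Nat.cast_prod, Nat.cast_pow] at h1
    exact h1
  have hJ0 : J ≠ 0 := by
    rintro rfl
    simp at hMJ
    omega
  have habs : ∀ j : ℕ, |2 ^ j * W| = 2 ^ j * |W| := fun j => by
    rw [abs_mul, abs_of_pos (by positivity)]
  have hex : M ≤ 8 * |2 ^ (J - 1) * W| := by
    obtain ⟨k, rfl⟩ := Nat.exists_eq_succ_of_ne_zero hJ0
    rw [habs, Nat.succ_sub_one]
    rw [pow_succ] at hMJ
    have : (0 : ℤ) < 2 ^ k := by positivity
    nlinarith
  have hex' : ∃ j, M ≤ 8 * |2 ^ j * W| := ⟨_, hex⟩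
  set j0 := Nat.find hex' with hj0
  have hj0J : j0 < J := lt_of_le_of_lt (Nat.find_min' hex' hex) (by omega)
  have hsp : M ≤ 8 * |2 ^ j0 * W| := Nat.find_spec hex'
  have hsm : ∀ j ≤ j0, 4 * |2 ^ j * W| ≤ M := by
    intro j hj
    rcases j with _ | k
    · simpa using hW.le
    · have := Nat.find_min hex' (m := k) (by omega)
      rw [habs] at this ⊢
      rw [pow_succ]
      linarith
  have hpw : ∀ j : ℕ, (0 : ℤ) < 2 ^ j := fun j => by positivity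
  constructor
  · intro hpos
    have htr : ∃ i, D ≤ 16 * Y i ∧ 16 * Y i ≤ 15 * D := by
      obtain ⟨v, h3, h4, _, _, _, _, h5, _⟩ := key j0 (hsm j0 le_rfl)
      rw [abs_of_pos (mul_pos (hpw j0) hpos)] at hsp
      have := h5 hsp
      exact ⟨j0, by omega, by omega⟩
    have hle : Nat.find htr ≤ j0 := by
      apply Nat.find_min'
      obtain ⟨v, h3, h4, _, _, _, _, h5, _⟩ := key j0 (hsm j0 le_rfl)
      rw [abs_of_pos (mul_pos (hpw j0) hpos)] at hsp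
      have := h5 hsp
      exact ⟨by omega, by omega⟩
    refine ⟨Nat.find htr, by omega, ⟨(Nat.find_spec htr).1, ?_⟩, fun i hi => Nat.find_min htr hi⟩
    obtain ⟨v, h3, h4, _, h5, _⟩ := key _ (hsm _ hle)
    have h6 := h5 (mul_pos (hpw _) hpos).le
    have h7 := (Nat.find_spec htr).2
    omega
  · rintro ⟨j, _, ⟨_, h2⟩, h3⟩
    by_contra hneg
    have hneg' : W < 0 := by omega
    have hle : j ≤ j0 := by
      by_contra hc
      apply h3 j0 (by omega)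
      obtain ⟨v, h4, _, h5, _, _, _, _, h6⟩ := key j0 (hsm j0 le_rfl)
      rw [abs_of_neg (mul_neg_of_pos_of_neg (hpw j0) hneg')] at hsp
      have := h6 (by linarith)
      exact ⟨by omega, by omega⟩
    obtain ⟨v, h4, _, h5, _, _, h6, _⟩ := key j (hsm j hle)
    have := h6 (mul_neg_of_pos_of_neg (hpw j) hneg')
    omega

theorem many_primes (B : ℕ) :
    2 ^ B + 3 ≤ ((range (2 ^ (2 * B + 10))).filter fun p => p.Prime ∧ 2 ^ B ≤ p).card := by
  set n := 2 ^ (2 * B + 9) with hn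
  have hN : 2 ^ (2 * B + 10) = 2 * n := by rw [hn, pow_succ]; ring
  have hn4 : 4 ≤ n := le_trans (by norm_num) (Nat.pow_le_pow_right (by norm_num) (by omega : 2 ≤ 2 * B + 9))
  set k := ((range (2 * n)).filter Nat.Prime).card with hk
  have h1 : n.centralBinom ≤ (2 * n) ^ k := by
    rw [← Nat.prod_pow_factorization_centralBinom n]
    have e : ∏ p ∈ range (2 * n + 1), p ^ n.centralBinom.factorization p =
        ∏ p ∈ (range (2 * n)).filter Nat.Prime, p ^ n.centralBinom.factorization p := by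
      symm
      apply prod_subset
      · intro p hp
        exact mem_range.2 (by have := mem_range.1 (mem_filter.1 hp).1; omega)
      · intro p hp hp'
        have hnp : ¬ p.Prime := by
          intro hpr
          apply hp'
          refine mem_filter.2 ⟨mem_range.2 ?_, hpr⟩
          have h2 := mem_range.1 hp
          rcases Nat.lt_or_ge p (2 * n) with h | h
          · exact h
          · have h3 : p = 2 * n := by omega
            rw [h3] at hpr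
            exact absurd hpr (Nat.not_prime_mul (by norm_num) (by omega))
        rw [Nat.factorization_eq_zero_of_not_prime _ hnp, pow_zero]
    rw [e]
    exact prod_le_pow_card _ _ _ fun p _ => Nat.pow_factorization_choose_le (by omega)
  have h2 := lt_of_lt_of_le (Nat.four_pow_lt_mul_centralBinom n hn4) (Nat.mul_le_mul_left n h1)
  have h3 : 2 * n < (2 * B + 9) + (2 * B + 10) * k := by
    rw [← hN, ← pow_mul, show (4 : ℕ) = 2 ^ 2 by norm_num, ← pow_mul] at h2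
    nth_rewrite 2 [hn] at h2
    rw [← pow_add] at h2
    exact (Nat.pow_lt_pow_iff_right (by norm_num)).1 h2
  have h4 : 2 * 2 ^ B + 3 ≤ k := by
    by_contra hc
    have h5 : k ≤ 2 * 2 ^ B + 2 := by omega
    have h6 : B < 2 ^ B := Nat.lt_two_pow_self
    have h7 : 2 * n = 1024 * (2 ^ B * 2 ^ B) := by rw [← hN]; ring
    have h8 := Nat.mul_le_mul_left (2 * B + 10) h5
    nlinarith
  have h5 : k ≤ ((range (2 * n)).filter fun p => p.Prime ∧ 2 ^ B ≤ p).card + 2 ^ B := by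
    have : (range (2 * n)).filter Nat.Prime ⊆
        ((range (2 * n)).filter fun p => p.Prime ∧ 2 ^ B ≤ p) ∪ range (2 ^ B) := by
      intro p hp
      rcases Nat.lt_or_ge p (2 ^ B) with h | h
      · exact mem_union_right _ (mem_range.2 h)
      · exact mem_union_left _ (mem_filter.2 ⟨(mem_filter.1 hp).1, (mem_filter.1 hp).2, h⟩)
    have := (card_le_card this).trans (card_union_le _ _)
    rwa [card_range] at this
  rw [hN]
  omega

end Vale.Agent.P337
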