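import Vale.Agent.P337.Base

/-! Feasibility of a nonnegative integer polynomial through one critical value. -/

namespace Vale.Agent.P337

open Finset

open MvPolynomial

namespace Feas

theorem cauchy (q : Polynomial ℂ) (B : ℝ) (h : ∀ w : ℂ, ‖w‖ = 1 → ‖q.eval w‖ ≤ B) (k : ℕ) :
    ‖q.coeff k‖ ≤ B := by
  have hB : 0 ≤ B := (norm_nonneg _).trans (h 1 norm_one)
  by_cases hk : k ∈ q.support
  · have h1 := q.sum_sq_norm_coeff_eq_circleAverage
    have h2 : Real.circleAverage (fun θ => ‖q.eval θ‖ ^ 2) 0 1 ≤ B ^ 2 := by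
      apply Real.circleAverage_mono_on_of_le_circle
      · apply ContinuousOn.circleIntegrable zero_le_one
        exact (q.continuous.norm.pow 2).continuousOn
      · intro x hx
        have hx' : ‖x‖ = 1 := by simpa using hx
        exact pow_le_pow_left₀ (norm_nonneg _) (h x hx') 2
    have h3 : ‖q.coeff k‖ ^ 2 ≤ ∑ i ∈ q.support, ‖q.coeff i‖ ^ 2 :=
      single_le_sum (f := fun i => ‖q.coeff i‖ ^ 2) (fun i _ => sq_nonneg _) hk
    have h4 : ‖q.coeff k‖ ^ 2 ≤ B ^ 2 := h3.trans (h1.le.trans h2)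
    exact (pow_le_pow_iff_left₀ (norm_nonneg _) hB two_ne_zero).1 h4
  · rw [Polynomial.notMem_support_iff.1 hk, norm_zero]
    exact hB

theorem root_lt (q : Polynomial ℂ) (B δ : ℝ) (hδ : 0 < δ) (hl : δ ≤ ‖q.leadingCoeff‖)
    (h : ∀ k, ‖q.coeff k‖ ≤ B) (w : ℂ) (hw : q.eval w = 0) : ‖w‖ < B / δ + 1 := by
  have hq : q ≠ 0 := by
    rintro rfl
    simp at hl
    linarith
  have hB : 0 ≤ B := (norm_nonneg _).trans (h 0)
  have h1 : ‖w‖₊ < q.cauchyBound := Polynomial.IsRoot.norm_lt_cauchyBound hq hw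
  have h2 : (range q.natDegree).sup (fun k => ‖q.coeff k‖₊) ≤ ⟨B, hB⟩ :=
    Finset.sup_le fun k _ => h k
  have h3 : ((range q.natDegree).sup (fun k => ‖q.coeff k‖₊) : NNReal) ≤ B := h2
  have h4 : ‖w‖ < (q.cauchyBound : ℝ) := h1
  refine h4.trans_le ?_
  rw [Polynomial.cauchyBound]
  push_cast
  gcongr

theorem one_le_lead (q : Polynomial ℂ) (hq : q ≠ 0) (h : ∀ k, ∃ a : ℤ, q.coeff k = a) :
    1 ≤ ‖q.leadingCoeff‖ := by
  obtain ⟨a, ha⟩ := h q.natDegree
  have h0 : q.leadingCoeff = a := ha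
  have h1 : a ≠ 0 := by
    rintro rfl
    exact hq (Polynomial.leadingCoeff_eq_zero.1 (by simpa using h0))
  rw [h0, Complex.norm_intCast]
  exact_mod_cast Int.one_le_abs h1

theorem deriv_aeval {n : ℕ} (F : MvPolynomial (Fin n) ℤ) (x : Fin n → ℝ) (i : Fin n) :
    HasDerivAt (fun t => aeval (Function.update x i t) F) (aeval x (pderiv i F)) (x i) := by
  induction F using MvPolynomial.induction_on with
  | C a => simpa using hasDerivAt_const (x i) ((a : ℝ))
  | add p q hp hq =>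
    simp only [map_add]
    exact hp.add hq
  | mul_X p j hp =>
    have h1 : HasDerivAt (fun t => Function.update x i t j)
        (aeval x (pderiv i (X j : MvPolynomial (Fin n) ℤ))) (x i) := by
      by_cases hj : j = i
      · subst hj
        simp only [Function.update_self, pderiv_X_self, map_one]
        exact hasDerivAt_id (x j)
      · simp only [Function.update_of_ne hj, pderiv_X_of_ne hj, map_zero]
        exact hasDerivAt_const _ _
    have h2 := hp.mul h1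
    simp only [Function.update_eq_self] at h2
    simp only [map_mul, aeval_X, pderiv_mul, map_add]
    exact h2

theorem cont_aeval {n : ℕ} (F : MvPolynomial (Fin n) ℤ) :
    Continuous fun x : Fin n → ℝ => aeval x F := by
  induction F using MvPolynomial.induction_on with
  | C a => simpa using continuous_const
  | add p q hp hq =>
    simp only [map_add]
    exact hp.add hq
  | mul_X p j hp =>
    simp only [map_mul, aeval_X]
    exact hp.mul (continuous_apply j)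

theorem coe_aeval {n : ℕ} (F : MvPolynomial (Fin n) ℤ) (x : Fin n → ℝ) :
    aeval (fun i => (x i : ℂ)) F = ((aeval x F : ℝ) : ℂ) := by
  induction F using MvPolynomial.induction_on with
  | C a => simp
  | add p q hp hq => simp [hp, hq]
  | mul_X p j hp => simp [hp]

/-- The perturbed function. -/
noncomputable def Phi {n : ℕ} (m : ℕ) (F : MvPolynomial (Fin n) ℤ) (s : ℝ) (x : Fin n → ℝ) : ℝ :=
  ∑ i, x i ^ (m + 1) + (m + 1) * s * aeval x F

theorem cont_Phi {n : ℕ} (m : ℕ) (F : MvPolynomial (Fin n) ℤ) (s : ℝ) : Continuous (Phi m F s) := by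
  unfold Phi
  exact (continuous_finsetSum _ fun i _ => (continuous_apply i).pow _).add
    (continuous_const.mul (cont_aeval F))

theorem bdd_sum {n m : ℕ} (hm : Odd m) (C : ℝ) :
    Bornology.IsBounded {x : Fin n → ℝ | ∑ i, x i ^ (m + 1) ≤ C} := by
  have he : Even (m + 1) := hm.add_one
  refine (Metric.isBounded_closedBall (x := (0 : Fin n → ℝ)) (r := max 1 C)).subset ?_
  intro x hx
  rw [mem_closedBall_zero_iff, pi_norm_le_iff_of_nonneg (zero_le_one.trans (le_max_left _ _))]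
  intro i
  have h1 : x i ^ (m + 1) ≤ C :=
    (single_le_sum (f := fun i => x i ^ (m + 1)) (fun j _ => he.pow_nonneg _) (mem_univ i)).trans hx
  rw [Real.norm_eq_abs]
  by_cases h2 : |x i| ≤ 1
  · exact h2.trans (le_max_left _ _)
  · have h3 : |x i| ≤ |x i| ^ (m + 1) := le_self_pow₀ (not_le.1 h2).le (Nat.succ_ne_zero m)
    rw [he.pow_abs] at h3
    exact (h3.trans h1).trans (le_max_right _ _)

theorem sum_le_Phi {n m : ℕ} (F : MvPolynomial (Fin n) ℤ)
    (hF : ∀ x : Fin n → ℝ, 0 ≤ aeval x F) (s : ℝ) (hs : 0 ≤ s) (x : Fin n → ℝ) :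
    ∑ i, x i ^ (m + 1) ≤ Phi m F s x := by
  have := hF x
  unfold Phi
  have h2 : 0 ≤ ((m : ℝ) + 1) * s * aeval x F := by positivity
  linarith

theorem exists_min {n m : ℕ} (hm : Odd m) (F : MvPolynomial (Fin n) ℤ)
    (hF : ∀ x : Fin n → ℝ, 0 ≤ aeval x F) (s : ℝ) :
    ∃ x : Fin n → ℝ, 0 ≤ s → ∀ y, Phi m F s x ≤ Phi m F s y := by
  by_cases hs : 0 ≤ s
  · obtain ⟨x, hx⟩ := (cont_Phi m F s).exists_forall_le_of_isBounded 0
      ((bdd_sum hm (Phi m F s 0)).subset fun x hx => (sum_le_Phi F hF s hs x).trans hx)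
    exact ⟨x, fun _ => hx⟩
  · exact ⟨0, fun h => absurd h hs⟩

theorem crit_of_min {n m : ℕ} (F : MvPolynomial (Fin n) ℤ) (s : ℝ) (x : Fin n → ℝ)
    (hx : ∀ y, Phi m F s x ≤ Phi m F s y) (i : Fin n) :
    x i ^ m = -s * aeval x (pderiv i F) := by
  have h1 : HasDerivAt (fun t => ∑ j, Function.update x i t j ^ (m + 1))
      (((m : ℝ) + 1) * x i ^ m) (x i) := by
    have e : (fun t => ∑ j, Function.update x i t j ^ (m + 1)) =
        fun t => t ^ (m + 1) + ∑ j ∈ univ.erase i, x j ^ (m + 1) := by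
      funext t
      rw [← add_sum_erase _ _ (mem_univ i), Function.update_self]
      refine congrArg _ (sum_congr rfl fun j hj => ?_)
      rw [Function.update_of_ne (ne_of_mem_erase hj)]
    rw [e]
    have := (hasDerivAt_pow (m + 1) (x i)).add_const (∑ j ∈ univ.erase i, x j ^ (m + 1))
    simpa using this
  have h2 : HasDerivAt (fun t => Phi m F s (Function.update x i t))
      (((m : ℝ) + 1) * x i ^ m + ((m : ℝ) + 1) * s * aeval x (pderiv i F)) (x i) :=
    h1.add ((deriv_aeval F x i).const_mul (((m : ℝ) + 1) * s))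
  have h3 : IsLocalMin (fun t => Phi m F s (Function.update x i t)) (x i) := by
    refine Filter.Eventually.of_forall fun t => ?_
    simp only [Function.update_eq_self]
    exact hx _
  have h4 := h3.hasDerivAt_eq_zero h2
  have h5 : ((m : ℝ) + 1) * (x i ^ m + s * aeval x (pderiv i F)) = 0 := by linarith
  have h6 : ((m : ℝ) + 1) ≠ 0 := by positivity
  have h7 := (mul_eq_zero.1 h5).resolve_left h6
  linarith

theorem norm_prod_le {α : Type} (Z : Multiset α) (f : α → ℂ) (B : ℝ) (hB : 0 ≤ B)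
    (h : ∀ z ∈ Z, ‖f z‖ ≤ B) : ‖(Z.map f).prod‖ ≤ B ^ Z.card := by
  induction Z using Multiset.induction_on with
  | empty => simp
  | cons a Z ih =>
    rw [Multiset.map_cons, Multiset.prod_cons, Multiset.card_cons, norm_mul, pow_succ']
    exact mul_le_mul (h a (Multiset.mem_cons_self _ _))
      (ih fun z hz => h z (Multiset.mem_cons_of_mem hz)) (norm_nonneg _) hB

end Feas

theorem root_bound {n m : ℕ} (hm : 1 ≤ m) (F : MvPolynomial (Fin n) ℤ) (H : ℕ) (hH : 1 ≤ H)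
    (hb : ∀ (z : Fin n → ℂ) (R : ℝ), 1 ≤ R → (∀ i, ‖z i‖ ≤ R) →
      ‖aeval z F‖ ≤ H * R ^ m ∧ ∀ i, ‖aeval z (pderiv i F)‖ ≤ H * R ^ (m - 1))
    (s : ℂ) (σ : ℝ) (h1 : 1 ≤ σ) (hs : ‖s‖ ≤ σ) (z : Fin n → ℂ)
    (hz : ∀ i, z i ^ m = -s * aeval z (pderiv i F)) :
    (∀ i, ‖z i‖ ≤ σ * H) ∧
      ‖∑ i, z i ^ (m + 1) + (m + 1) * s * aeval z F‖ ≤ (n + m + 1) * (σ * H) ^ (m + 1) := by
  have hH' : (1 : ℝ) ≤ H := by exact_mod_cast hH
  have hσ : 1 ≤ σ * H := one_le_mul_of_one_le_of_one_le h1 hH'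
  have hA : ∀ i, ‖z i‖ ≤ σ * H := by
    by_contra hcon
    push Not at hcon
    obtain ⟨i0, hi0⟩ := hcon
    obtain ⟨i, -, hi⟩ := exists_max_image univ (fun i => ‖z i‖) ⟨i0, mem_univ _⟩
    have hr : σ * H < ‖z i‖ := hi0.trans_le (hi i0 (mem_univ _))
    have hr1 : 1 ≤ ‖z i‖ := hσ.trans hr.le
    have h2 := (hb z ‖z i‖ hr1 fun j => hi j (mem_univ _)).2 i
    have h3 : ‖z i‖ ^ m ≤ σ * (H * ‖z i‖ ^ (m - 1)) := by
      rw [← norm_pow, hz i, norm_mul, norm_neg]
      exact mul_le_mul hs h2 (norm_nonneg _) (zero_le_one.trans h1)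
    obtain ⟨k, rfl⟩ : ∃ k, m = k + 1 := ⟨m - 1, by omega⟩
    rw [Nat.add_sub_cancel, pow_succ] at h3
    have h4 : 0 < ‖z i‖ ^ k := pow_pos (zero_lt_one.trans_le hr1) k
    nlinarith
  refine ⟨hA, ?_⟩
  have h2 := (hb z (σ * H) hσ hA).1
  have h3 : ‖∑ i, z i ^ (m + 1)‖ ≤ n * (σ * H) ^ (m + 1) := by
    refine (norm_sum_le _ _).trans ?_
    have : ∀ i ∈ (univ : Finset (Fin n)), ‖z i ^ (m + 1)‖ ≤ (σ * H) ^ (m + 1) := fun i _ => by
      rw [norm_pow]
      exact pow_le_pow_left₀ (norm_nonneg _) (hA i) _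
    simpa using sum_le_card_nsmul _ _ _ this
  have h4 : ‖((m : ℂ) + 1) * s * aeval z F‖ ≤ (m + 1) * (σ * H) ^ (m + 1) := by
    have e : ‖((m : ℂ) + 1)‖ = (m : ℝ) + 1 := by
      have : ((m : ℂ) + 1) = ((m + 1 : ℕ) : ℂ) := by push_cast; rfl
      rw [this, Complex.norm_natCast]
      push_cast
      rfl
    rw [norm_mul, norm_mul, e, mul_assoc]
    refine mul_le_mul_of_nonneg_left ?_ (by positivity)
    calc ‖s‖ * ‖aeval z F‖ ≤ σ * (H * (σ * H) ^ m) :=
          mul_le_mul hs h2 (norm_nonneg _) (zero_le_one.trans h1)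
      _ = (σ * H) ^ (m + 1) := by ring
  calc _ ≤ _ := norm_add_le _ _
    _ ≤ n * (σ * H) ^ (m + 1) + (m + 1) * (σ * H) ^ (m + 1) := add_le_add h3 h4
    _ = _ := by ring

theorem feas {n m : ℕ} (hm : Odd m) (F : MvPolynomial (Fin n) ℤ)
    (hF : ∀ x : Fin n → ℝ, 0 ≤ aeval x F) (D c H : ℕ) (hc : 1 ≤ c) (hH : 1 ≤ H)
    (hb : ∀ (z : Fin n → ℂ) (R : ℝ), 1 ≤ R → (∀ i, ‖z i‖ ≤ R) →
      ‖aeval z F‖ ≤ H * R ^ m ∧ ∀ i, ‖aeval z (pderiv i F)‖ ≤ H * R ^ (m - 1))
    (P : Polynomial (Polynomial ℤ))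
    (hP : ∀ s : ℂ, ∃ Z : Multiset (Fin n → ℂ), Z.card = D ∧
      (∀ z, z ∈ Z ↔ ∀ i, z i ^ m = -s * aeval z (pderiv i F)) ∧
      ∀ U : ℂ, P.eval₂ (Polynomial.eval₂RingHom (Int.castRingHom ℂ) U) s =
        c * (Z.map fun z => U - (∑ i, z i ^ (m + 1) + (m + 1) * s * aeval z F)).prod)
    (K S : ℕ) (hK : 2 + c * (1 + (n + m + 1) * H ^ (m + 1)) ^ D ≤ K)
    (hS : 2 + c * (K + (n + m + 1) * H ^ (m + 1)) ^ D ≤ S) :
    (∃ x : Fin n → ℝ, aeval x F = 0) ↔
      ∃ x : Fin n → ℝ, (∀ i, x i ^ m = -(S : ℝ) * aeval x (pderiv i F)) ∧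
        ∑ i, x i ^ (m + 1) + (m + 1) * S * aeval x F < K := by
  have hm1 : 1 ≤ m := hm.pos
  obtain ⟨M, hM⟩ : ∃ M : ℝ, M = (n + m + 1) * (H : ℝ) ^ (m + 1) := ⟨_, rfl⟩
  have hM0 : 0 ≤ M := by rw [hM]; positivity
  have hK' : 2 + c * (1 + M) ^ D ≤ (K : ℝ) := by rw [hM]; exact_mod_cast hK
  have hS' : 2 + c * (K + M) ^ D ≤ (S : ℝ) := by rw [hM]; exact_mod_cast hS
  have hc' : (c : ℂ) ≠ 0 := by exact_mod_cast (by omega : c ≠ 0)
  have hK0 : (0 : ℝ) < K := lt_of_lt_of_le (by positivity) hK'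
  have hS0 : (0 : ℝ) < S := lt_of_lt_of_le (by positivity) hS'
  obtain ⟨ev, hev⟩ : ∃ ev : ℂ → Polynomial ℤ →+* ℂ,
      ev = fun U => Polynomial.eval₂RingHom (Int.castRingHom ℂ) U := ⟨_, rfl⟩
  have hev1 : ∀ U, Polynomial.eval₂RingHom (Int.castRingHom ℂ) U = ev U := fun U => by rw [hev]
  have hev2 : ∀ U q, ev U q = (q.map (Int.castRingHom ℂ)).eval U := fun U q => by
    rw [← hev1, Polynomial.eval_map]
    rfl
  simp only [hev1] at hP
  have hB : ∀ U k, ‖(P.map (ev U)).coeff k‖ ≤ c * (‖U‖ + M) ^ D := by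
    intro U k
    refine Feas.cauchy _ _ (fun w hw => ?_) k
    obtain ⟨Z, hZ, hZ1, hZ2⟩ := hP w
    rw [Polynomial.eval_map, hZ2, norm_mul, Complex.norm_natCast, ← hZ]
    refine mul_le_mul_of_nonneg_left (Feas.norm_prod_le _ _ _ (by positivity) fun z hz => ?_)
      (by positivity)
    have h1 := (root_bound hm1 F H hH hb w 1 le_rfl hw.le z ((hZ1 z).1 hz)).2
    rw [one_mul, ← hM] at h1
    exact (norm_sub_le _ _).trans (by gcongr)
  have h0 : ∀ U : ℂ, U ≠ 0 → P.map (ev U) ≠ 0 := by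
    intro U hU h
    obtain ⟨Z, hZ, hZ1, hZ2⟩ := hP 0
    have h1 := hZ2 U
    rw [← Polynomial.eval_map, h, Polynomial.eval_zero] at h1
    have h2 := (mul_eq_zero.1 h1.symm).resolve_left hc'
    obtain ⟨z, hz, h3⟩ := Multiset.mem_map.1 (Multiset.prod_eq_zero_iff.1 h2)
    have h4 : ∀ i, z i = 0 := fun i => by
      have := (hZ1 z).1 hz i
      rw [neg_zero, zero_mul] at this
      exact pow_eq_zero_iff (by omega) |>.1 this
    simp [h4, hU] at h3
  choose xm hxm using Feas.exists_min hm F hF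
  obtain ⟨u, hu⟩ : ∃ u : ℝ → ℝ, u = fun s => Feas.Phi m F s (xm s) := ⟨_, rfl⟩
  have hu1 : ∀ s, 0 ≤ s → ∀ y, u s ≤ Feas.Phi m F s y := fun s hs y => by
    rw [hu]
    exact hxm s hs y
  have hu2 : ∀ s, u s = Feas.Phi m F s (xm s) := fun s => by rw [hu]
  have hroot : ∀ s : ℝ, 0 ≤ s → (P.map (ev (u s))).eval (s : ℂ) = 0 := by
    intro s hs
    obtain ⟨Z, hZ, hZ1, hZ2⟩ := hP s
    rw [Polynomial.eval_map, hZ2]
    refine mul_eq_zero_of_right _ (Multiset.prod_eq_zero_iff.2 (Multiset.mem_map.2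
      ⟨fun i => (xm s i : ℂ), (hZ1 _).2 fun i => ?_, ?_⟩))
    · rw [Feas.coe_aeval]
      exact_mod_cast Feas.crit_of_min F s (xm s) (hxm s hs) i
    · rw [Feas.coe_aeval, hu2, Feas.Phi]
      push_cast
      ring
  have hmono : ∀ s t : ℝ, 0 ≤ s → s ≤ t → u s ≤ u t := by
    intro s t hs hst
    refine (hu1 s hs (xm t)).trans ?_
    rw [hu2, Feas.Phi, Feas.Phi]
    have := hF (xm t)
    gcongr
  constructor
  · rintro ⟨x0, hx0⟩
    refine ⟨xm S, Feas.crit_of_min F S (xm S) (hxm S hS0.le), ?_⟩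
    change Feas.Phi m F S (xm S) < K
    rw [← hu2]
    by_contra hcon
    push Not at hcon
    obtain ⟨C, hC⟩ : ∃ C : ℝ, C = ∑ i, x0 i ^ (m + 1) := ⟨_, rfl⟩
    have hbd : ∀ s, 0 ≤ s → u s ≤ C := fun s hs => by
      refine (hu1 s hs x0).trans ?_
      rw [Feas.Phi, hx0, hC]
      simp
    have hP0 : P ≠ 0 := by
      rintro rfl
      exact h0 1 one_ne_zero (Polynomial.map_zero _)
    obtain ⟨L, hL⟩ : ∃ L : Polynomial ℂ, L = P.leadingCoeff.map (Int.castRingHom ℂ) := ⟨_, rfl⟩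
    have hL0 : L ≠ 0 := by
      rw [hL]
      exact (Polynomial.map_ne_zero_iff (Int.castRingHom ℂ).injective_int).2
        (Polynomial.leadingCoeff_ne_zero.2 hP0)
    have hL1 : 1 ≤ ‖L.leadingCoeff‖ := Feas.one_le_lead L hL0 fun k =>
      ⟨P.leadingCoeff.coeff k, by rw [hL, Polynomial.coeff_map]; rfl⟩
    have hL2 : ∀ k, ‖L.coeff k‖ ≤ c * (1 + M) ^ D := by
      refine Feas.cauchy _ _ fun w hw => ?_
      have := hB w P.natDegree
      rw [Polynomial.coeff_map, hev2, hw] at this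
      rw [hL]
      exact this
    have hL3 : ∀ U : ℝ, K ≤ U → L.eval (U : ℂ) ≠ 0 := by
      intro U hU h
      have := Feas.root_lt L _ 1 one_pos hL1 hL2 U h
      rw [Complex.norm_real, Real.norm_eq_abs, div_one] at this
      linarith [le_abs_self U]
    have hKC : (K : ℝ) ≤ C := hcon.trans (hbd S hS0.le)
    obtain ⟨U0, hU0, hU1⟩ := (isCompact_Icc (a := (K : ℝ)) (b := C)).exists_isMinOn
      ⟨K, le_rfl, hKC⟩ (f := fun U : ℝ => ‖L.eval (U : ℂ)‖)
      (L.continuous.comp Complex.continuous_ofReal).norm.continuousOn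
    have hδ : 0 < ‖L.eval (U0 : ℂ)‖ := norm_pos_iff.2 (hL3 U0 hU0.1)
    obtain ⟨s, hs1, hs2⟩ : ∃ s : ℝ, S ≤ s ∧ c * (C + M) ^ D / ‖L.eval (U0 : ℂ)‖ + 1 ≤ s :=
      ⟨max _ _, le_max_left _ _, le_max_right _ _⟩
    have hs0 : 0 ≤ s := hS0.le.trans hs1
    have hus : u s ∈ Set.Icc (K : ℝ) C := ⟨hcon.trans (hmono S s hS0.le hs1), hbd s hs0⟩
    have hl : ev (u s) P.leadingCoeff = L.eval (u s : ℂ) := by rw [hev2, hL]
    have hl2 : (P.map (ev (u s))).leadingCoeff = L.eval (u s : ℂ) := by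
      rw [Polynomial.leadingCoeff_map_of_leadingCoeff_ne_zero, hl]
      rw [hl]
      exact hL3 _ hus.1
    have hfin := Feas.root_lt (P.map (ev (u s))) (c * (C + M) ^ D) _ hδ
      (by rw [hl2]; exact hU1 hus) (fun k => (hB _ k).trans (by
        rw [Complex.norm_real, Real.norm_eq_abs, abs_of_nonneg (hK0.le.trans hus.1)]
        have := hus.2
        have := hK0.le.trans hus.1
        gcongr)) s (hroot s hs0)
    rw [Complex.norm_real, Real.norm_eq_abs, abs_of_nonneg hs0] at hfin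
    linarith
  · rintro ⟨x, -, hx⟩
    by_contra hcon
    push Not at hcon
    have hx' : u S < K := (hu1 S hS0.le x).trans_lt hx
    have hT : IsCompact {y : Fin n → ℝ | ∑ i, y i ^ (m + 1) ≤ K} :=
      Metric.isCompact_of_isClosed_isBounded
        (isClosed_le (continuous_finsetSum _ fun i _ => (continuous_apply i).pow _)
          continuous_const) (Feas.bdd_sum hm K)
    obtain ⟨y0, -, hy0⟩ := hT.exists_isMinOn ⟨0, by simp⟩ (Feas.cont_aeval F).continuousOn
    have hδ : 0 < aeval y0 F := lt_of_le_of_ne (hF y0) (hcon y0).symm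
    obtain ⟨s, hs1, hs2⟩ : ∃ s : ℝ, S ≤ s ∧ K / aeval y0 F ≤ s :=
      ⟨max _ _, le_max_left _ _, le_max_right _ _⟩
    have hs0 : 0 ≤ s := hS0.le.trans hs1
    have hus : (K : ℝ) ≤ u s := by
      rw [hu2]
      by_cases hy : ∑ i, xm s i ^ (m + 1) ≤ K
      · have h1 : aeval y0 F ≤ aeval (xm s) F := hy0 hy
        have h2 : (K : ℝ) ≤ s * aeval y0 F := (div_le_iff₀ hδ).1 hs2
        have h3 : 0 ≤ ∑ i, xm s i ^ (m + 1) :=
          sum_nonneg fun i _ => hm.add_one.pow_nonneg _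
        have h4 : s * aeval y0 F ≤ s * aeval (xm s) F := mul_le_mul_of_nonneg_left h1 hs0
        have h5 : 0 ≤ (m : ℝ) * (s * aeval (xm s) F) := by
          have := hF (xm s)
          positivity
        rw [Feas.Phi]
        nlinarith
      · exact (not_le.1 hy).le.trans (Feas.sum_le_Phi F hF s hs0 _)
    have hcc : ConcaveOn ℝ (Set.Ioi 0) u := by
      refine ⟨convex_Ioi 0, fun a ha b hb p q hp hq hpq => ?_⟩
      have h1 := hu1 a (le_of_lt ha) (xm (p • a + q • b))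
      have h2 := hu1 b (le_of_lt hb) (xm (p • a + q • b))
      rw [hu2 (p • a + q • b)]
      simp only [Feas.Phi, smul_eq_mul] at h1 h2 ⊢
      have h3 := mul_le_mul_of_nonneg_left h1 hp
      have h4 := mul_le_mul_of_nonneg_left h2 hq
      have h5 : q = 1 - p := by linarith
      subst h5
      nlinarith
    have hcont : ContinuousOn u (Set.Icc S s) :=
      (hcc.continuousOn isOpen_Ioi).mono fun t ht => hS0.trans_le ht.1
    obtain ⟨t, ht, htK⟩ := intermediate_value_Icc hs1 hcont ⟨hx'.le, hus⟩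
    have ht0 : 0 ≤ t := hS0.le.trans ht.1
    have hr := hroot t ht0
    rw [htK, Complex.ofReal_natCast] at hr
    have hKc : (K : ℂ) ≠ 0 := by exact_mod_cast hK0.ne'
    have hl : 1 ≤ ‖(P.map (ev K)).leadingCoeff‖ := Feas.one_le_lead _ (h0 K hKc) fun k =>
      ⟨(P.coeff k).eval (K : ℤ), by
        rw [Polynomial.coeff_map, ← hev1, Polynomial.coe_eval₂RingHom]
        simp⟩
    have hfin := Feas.root_lt _ _ 1 one_pos hl (hB K) t hr
    rw [Complex.norm_real, Real.norm_eq_abs, abs_of_nonneg ht0, Complex.norm_natCast,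
      div_one] at hfin
    linarith [ht.1]

end Vale.Agent.P337
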