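import Vale.Agent.P337.Inst
import Vale.Agent.P337.Defs

/-! Parsing and guessing signs: from formulas to systems of equations. -/

namespace Vale.Agent.P337

open Vale.Agent.Lib.PolyTime MvPolynomial

namespace Front

/-- Monomials with exponents given as lengths. -/
abbrev M0 : Type := Bool × ℕ × List (List ℕ)
/-- Tokens. -/
abbrev Tok : Type := ℕ × ℕ × List M0

/-- Unary code of a length. -/
def unL (u : List ℕ) : List Bool := u.map (fun _ => true) ++ [false]
/-- Code of a monomial. -/
def m0Code (t : M0) : List Bool := true :: t.1 :: (binary t.2.1 ++ t.2.2.flatMap unL)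
/-- Code of a token. -/
def tokCode (t : Tok) : List Bool :=
  if t.1 = 0 then false :: false :: (t.2.2.flatMap m0Code ++ [false])
  else if t.1 = 1 then false :: true :: (t.2.2.flatMap m0Code ++ [false])
  else if t.1 = 2 then [true, false] else if t.1 = 3 then [true, true, false] else [true, true, true]
/-- One step of the stack evaluation. -/
def step (t : Tok) (s : Bool × List Bool) : Bool × List Bool :=
  if t.1 = 0 then (s.1, decide (t.2.1 = 0) :: s.2)
  else if t.1 = 1 then (s.1, decide (t.2.1 = 1) :: s.2)
  else if t.1 = 2 then (s.1 && decide (1 ≤ s.2.length), (!s.2.headD false) :: s.2.tail)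
  else if t.1 = 3 then (s.1 && decide (2 ≤ s.2.length),
    (s.2.headD false && s.2.tail.headD false) :: s.2.tail.tail)
  else (s.1 && decide (2 ≤ s.2.length), (s.2.headD false || s.2.tail.headD false) :: s.2.tail.tail)
/-- The stack evaluation. -/
def run (l : List Tok) : Bool × List Bool := l.foldr step (true, [])
/-- Well-formed monomials. -/
def wfM (n : ℕ) (t : M0) : Bool := decide (t.2.2.length = n) && (!t.1 || decide (t.2.1 ≠ 0))
/-- The check. -/
def ok (p : List Bool × Wit) : Prop :=
  p.1 = unL p.2.1 ++ p.2.2.flatMap tokCode ∧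
    p.2.2.all (fun t => t.2.2.all (wfM p.2.1.length)) = true ∧ run p.2.2 = (true, [true])
/-- The variables of a monomial. -/
def vars (t : M0) : List ℕ := (idx t.2.2).flatMap fun i => (t.2.2.getD i []).map fun _ => i
/-- The equation of a token. -/
def eqn (v : ℕ) (t : Tok) : List Mon :=
  if 2 ≤ t.1 then [] else if t.2.1 = 0 then t.2.2.map fun m => (m.1, m.2.1, vars m)
  else (true, 1, []) ::
    t.2.2.map fun m => (if t.2.1 = 1 then m.1 else !m.1, m.2.1, v :: v :: vars m)
/-- The system. -/
def inst (y : Wit) : Inst :=
  (y.1 ++ idx y.2, (idx y.2).map fun l => eqn (y.1.length + l) (y.2.getD l default))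

section
variable {α : Type} [Enc α]

@[fun_prop] theorem pt_unL {f : α → List ℕ} (hf : PT f) : PT fun a => unL (f a) := by
  unfold unL; fun_prop
@[fun_prop] theorem pt_binary {f : α → ℕ} (hf : PT f) : PT fun a => binary (f a) := by
  unfold binary; fun_prop
@[fun_prop] theorem pt_m0Code {f : α → M0} (hf : PT f) : PT fun a => m0Code (f a) := by
  unfold m0Code; fun_prop
@[fun_prop] theorem pt_tokCode {f : α → Tok} (hf : PT f) : PT fun a => tokCode (f a) := by
  unfold tokCode; fun_prop
@[fun_prop] theorem pt_step {f : α → Tok} {s : α → Bool × List Bool} (hf : PT f) (hs : PT s) :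
    PT fun a => step (f a) (s a) := by
  unfold step; fun_prop
@[fun_prop] theorem pt_run {f : α → List Tok} (hf : PT f) : PT fun a => run (f a) :=
  PT.foldr_add (f := fun _ t s => step t s) (by fun_prop) hf (by fun_prop) (PB.const 4)
    fun a s t _ => by
      have h1 := sz_tail s.2
      have h2 := sz_tail s.2.tail
      rw [sz_prod s]
      unfold step
      split_ifs <;> simp only [sz_pair, sz_cons, sz_bool] <;> omega
@[fun_prop] theorem pt_wfM {n : α → ℕ} {f : α → M0} (hn : PT n) (hf : PT f) :
    PT fun a => wfM (n a) (f a) := by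
  unfold wfM; fun_prop
@[fun_prop] theorem pt_vars {f : α → M0} (hf : PT f) : PT fun a => vars (f a) := by
  unfold vars; fun_prop
@[fun_prop] theorem pt_eqn {n : α → ℕ} {f : α → Tok} (hn : PT n) (hf : PT f) :
    PT fun a => eqn (n a) (f a) := by
  unfold eqn; fun_prop
theorem pt_ok : PT ok := by unfold ok; fun_prop
theorem pt_inst : PT inst := by unfold inst; fun_prop
end

theorem unL_eq (u : List ℕ) : unL u = unary u.length := by simp [unL, unary]

/-- The polynomial of a list of monomials. -/
def toPoly (n : ℕ) (l : List M0) : Poly n :=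
  l.map fun t => (if t.1 = true then -(t.2.1 : ℤ) else t.2.1, fun i => (t.2.2.getD i []).length)

theorem polyCode_toPoly {n : ℕ} {l : List M0} (h : l.all (wfM n) = true) :
    polyCode (toPoly n l) = l.flatMap m0Code ++ [false] := by
  unfold polyCode toPoly
  rw [List.flatMap_map]
  congr 1
  refine List.flatMap_congr fun t ht => ?_
  obtain ⟨b, c, es⟩ := t
  have h1 := List.all_eq_true.1 h _ ht
  simp only [wfM, Bool.and_eq_true, decide_eq_true_eq] at h1
  obtain ⟨rfl, h2⟩ := h1
  have e : (List.ofFn fun i : Fin es.length => (es.getD i []).length).flatMap unary =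
      es.flatMap unL := by
    have : (List.ofFn fun i : Fin es.length => (es.getD i []).length) = es.map List.length := by
      apply List.ext_getElem <;> simp
    rw [this, List.flatMap_map]
    exact List.flatMap_congr fun u _ => (unL_eq u).symm
  dsimp only
  rw [e]
  cases b
  · simp [m0Code]
  · simp [m0Code] at h2 ⊢; omega

/-- The guessed sign is right. -/
def Sgn {n : ℕ} (x : Fin n → ℝ) (t : Tok) : Prop :=
  t.1 ≤ 1 → (t.2.1 = 0 → value (toPoly n t.2.2) x = 0) ∧
    (t.2.1 = 1 → 0 < value (toPoly n t.2.2) x) ∧ (2 ≤ t.2.1 → value (toPoly n t.2.2) x < 0)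

open Classical in
theorem parse {n : ℕ} (l : List Tok) (h : ∀ t ∈ l, t.2.2.all (wfM n) = true)
    (hr : (run l).1 = true) : ∃ φs : List (Formula n),
      φs.flatMap code = l.flatMap tokCode ∧ φs.length = (run l).2.length ∧
      ∀ x : Fin n → ℝ, (∀ t ∈ l, Sgn x t) → φs.map (fun φ => decide (Holds x φ)) = (run l).2 := by
  induction l with
  | nil => exact ⟨[], rfl, rfl, fun _ _ => rfl⟩
  | cons t l ih =>
    have e : run (t :: l) = step t (run l) := rfl
    have hp := polyCode_toPoly (h t (by simp))
    have h1 : (run l).1 = true := by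
      rw [e, step] at hr
      split_ifs at hr <;> simp_all
    obtain ⟨φs, h2, h3, h4⟩ := ih (fun t ht => h t (by simp [ht])) h1
    rw [e] at hr ⊢
    generalize run l = s at *
    obtain ⟨b, st⟩ := s
    unfold step at hr ⊢
    rw [List.flatMap_cons, ← h2, tokCode]
    split_ifs at hr ⊢ with a0 a1 a2 a3
    · refine ⟨.eq (toPoly n t.2.2) :: φs, by simp [code, hp], by simpa using h3, fun x hx => ?_⟩
      have h5 := hx t (by simp) (by omega)
      rw [List.map_cons, h4 x fun t ht => hx t (by simp [ht])]
      congr 1
      refine decide_eq_decide.2 ⟨fun h6 => ?_, h5.1⟩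
      by_contra h7
      have h6 : value (toPoly n t.2.2) x = 0 := h6
      rcases (by omega : t.2.1 = 1 ∨ 2 ≤ t.2.1) with h8 | h8
      · linarith [h5.2.1 h8]
      · linarith [h5.2.2 h8]
    · refine ⟨.pos (toPoly n t.2.2) :: φs, by simp [code, hp], by simpa using h3, fun x hx => ?_⟩
      have h5 := hx t (by simp) (by omega)
      rw [List.map_cons, h4 x fun t ht => hx t (by simp [ht])]
      congr 1
      refine decide_eq_decide.2 ⟨fun h6 => ?_, h5.2.1⟩
      by_contra h7
      have h6 : 0 < value (toPoly n t.2.2) x := h6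
      rcases (by omega : t.2.1 = 0 ∨ 2 ≤ t.2.1) with h8 | h8
      · linarith [h5.1 h8]
      · linarith [h5.2.2 h8]
    · rcases φs with _ | ⟨φ, φs⟩
      · simp [← h3] at hr
      refine ⟨.not φ :: φs, by simp [code], by simp [← h3], fun x hx => ?_⟩
      have h5 := h4 x fun t ht => hx t (by simp [ht])
      dsimp only at h5
      by_cases a : Holds x φ <;> simp [← h5, Holds, a]
    · rcases φs with _ | ⟨φ, _ | ⟨ψ, φs⟩⟩
      · simp [← h3] at hr
      · simp [← h3] at hr
      refine ⟨.and φ ψ :: φs, by simp [code], by simp [← h3], fun x hx => ?_⟩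
      have h5 := h4 x fun t ht => hx t (by simp [ht])
      dsimp only at h5
      by_cases a : Holds x φ <;> by_cases a' : Holds x ψ <;> simp [← h5, Holds, a, a']
    · rcases φs with _ | ⟨φ, _ | ⟨ψ, φs⟩⟩
      · simp [← h3] at hr
      · simp [← h3] at hr
      refine ⟨.or φ ψ :: φs, by simp [code], by simp [← h3], fun x hx => ?_⟩
      have h5 := h4 x fun t ht => hx t (by simp [ht])
      dsimp only at h5
      by_cases a : Holds x φ <;> by_cases a' : Holds x ψ <;> simp [← h5, Holds, a, a']

theorem aeval_vars {n : ℕ} (x : ℕ → ℝ) (t : M0) (h : t.2.2.length = n) :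
    aeval x (((vars t).map X).prod : RR) = ∏ i : Fin n, x i ^ (t.2.2.getD i []).length := by
  unfold vars idx
  rw [h, Fin.prod_univ_eq_prod_range fun i => x i ^ (t.2.2.getD i []).length]
  generalize n = k
  induction k with
  | zero => simp
  | succ k ih =>
    rw [List.range_succ, List.flatMap_append, List.map_append, List.prod_append, map_mul, ih,
      Finset.prod_range_succ]
    simp

theorem aeval_eqn {n : ℕ} (x : ℕ → ℝ) (v : ℕ) (t : Tok) (h : t.2.2.all (wfM n) = true)
    (ht : t.1 ≤ 1) : aeval x (toP (eqn v t)) =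
      if t.2.1 = 0 then value (toPoly n t.2.2) fun i => x i
      else if t.2.1 = 1 then value (toPoly n t.2.2) (fun i => x i) * x v ^ 2 - 1
      else -value (toPoly n t.2.2) (fun i => x i) * x v ^ 2 - 1 := by
  obtain ⟨tg, sg, l⟩ := t
  unfold eqn
  rw [if_neg (by omega)]
  dsimp only at h ⊢
  have hl : ∀ m ∈ l, m.2.2.length = n := fun m hm => by
    have := List.all_eq_true.1 h m hm
    simp only [wfM, Bool.and_eq_true, decide_eq_true_eq] at this
    exact this.1
  clear h ht
  split_ifs with a0 a1
  · induction l with
    | nil => simp [toP, toPoly, value]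
    | cons m l ih =>
      have h1 := ih fun m hm => hl m (by simp [hm])
      have h2 := aeval_vars x m (hl m (by simp))
      simp only [toP, toPoly, value, List.map_cons, List.sum_cons, map_add] at h1 ⊢
      rw [h1, monP, map_mul, h2]
      cases m.1 <;> simp
  · induction l with
    | nil => simp [toP, toPoly, value, monP]
    | cons m l ih =>
      have h1 := ih fun m hm => hl m (by simp [hm])
      have h2 := aeval_vars x m (hl m (by simp))
      simp only [toP, toPoly, value, List.map_cons, List.sum_cons, map_add] at h1 ⊢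
      rw [add_left_comm, h1, monP, List.map_cons, List.map_cons, List.prod_cons, List.prod_cons,
        map_mul, map_mul _ (X v), map_mul _ (X v), h2]
      cases m.1 <;> simp <;> ring
  · induction l with
    | nil => simp [toP, toPoly, value, monP]
    | cons m l ih =>
      have h1 := ih fun m hm => hl m (by simp [hm])
      have h2 := aeval_vars x m (hl m (by simp))
      simp only [toP, toPoly, value, List.map_cons, List.sum_cons, map_add] at h1 ⊢
      rw [add_left_comm, h1, monP, List.map_cons, List.map_cons, List.prod_cons, List.prod_cons,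
        map_mul, map_mul _ (X v), map_mul _ (X v), h2]
      cases m.1 <;> simp <;> ring

/-- Monomials of a polynomial. -/
def ofPoly {n : ℕ} (p : Poly n) : List M0 :=
  p.map fun t => (decide (t.1 < 0), t.1.natAbs, List.ofFn fun i => List.replicate (t.2 i) 0)

theorem toPoly_ofPoly {n : ℕ} (p : Poly n) : toPoly n (ofPoly p) = p := by
  unfold toPoly ofPoly
  rw [List.map_map]
  refine (List.map_congr_left fun t _ => ?_).trans (List.map_id p)
  refine Prod.ext ?_ (funext fun i => by simp)
  by_cases h : t.1 < 0 <;> simp only [Function.comp, h, decide_true, decide_false, if_true, id,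
    Bool.false_eq_true, if_false] <;> omega

theorem wf_ofPoly {n : ℕ} (p : Poly n) : (ofPoly p).all (wfM n) = true := by
  simp only [ofPoly, List.all_map, List.all_eq_true]
  intro t _
  by_cases h : t.1 < 0 <;> simp [wfM, h]
  omega

open Classical in
/-- The true sign. -/
noncomputable def sgn (r : ℝ) : ℕ := if r = 0 then 0 else if 0 < r then 1 else 2

/-- Tokens of a formula. -/
noncomputable def toks {n : ℕ} (x : Fin n → ℝ) : Formula n → List Tok
  | .eq p => [(0, sgn (value p x), ofPoly p)]
  | .pos p => [(1, sgn (value p x), ofPoly p)]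
  | .not φ => (2, 0, []) :: toks x φ
  | .and φ ψ => (3, 0, []) :: (toks x φ ++ toks x ψ)
  | .or φ ψ => (4, 0, []) :: (toks x φ ++ toks x ψ)

theorem code_toks {n : ℕ} (x : Fin n → ℝ) (φ : Formula n) :
    (toks x φ).flatMap tokCode = code φ := by
  have key : ∀ p : Poly n, (ofPoly p).flatMap m0Code ++ [false] = polyCode p := fun p => by
    rw [← polyCode_toPoly (wf_ofPoly p), toPoly_ofPoly]
  induction φ <;> simp_all [toks, tokCode, code]

theorem wf_toks {n : ℕ} (x : Fin n → ℝ) (φ : Formula n) :
    ∀ t ∈ toks x φ, t.2.2.all (wfM n) = true ∧ Sgn x t := by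
  have key : ∀ (p : Poly n) (k : ℕ), Sgn x (k, sgn (value p x), ofPoly p) := fun p k _ => by
    simp only [toPoly_ofPoly, sgn]
    split_ifs with h1 h2
    · simp [h1]
    · simp [h2]
    · simpa using lt_of_le_of_ne (not_lt.1 h2) h1
  have key2 : ∀ k : ℕ, 2 ≤ k → Sgn x (k, 0, []) := fun k hk h => absurd h (by omega)
  induction φ with
  | eq p => simpa [toks] using ⟨by simpa using wf_ofPoly p, key p 0⟩
  | pos p => simpa [toks] using ⟨by simpa using wf_ofPoly p, key p 1⟩
  | not φ ih =>
    intro t ht
    rcases List.mem_cons.1 ht with rfl | ht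
    exacts [⟨rfl, key2 _ le_rfl⟩, ih t ht]
  | and φ ψ ih ih' =>
    intro t ht
    rcases List.mem_cons.1 ht with rfl | ht
    exacts [⟨rfl, key2 _ (by omega)⟩, (List.mem_append.1 ht).elim (ih t) (ih' t)]
  | or φ ψ ih ih' =>
    intro t ht
    rcases List.mem_cons.1 ht with rfl | ht
    exacts [⟨rfl, key2 _ (by omega)⟩, (List.mem_append.1 ht).elim (ih t) (ih' t)]

open Classical in
theorem run_toks {n : ℕ} (x : Fin n → ℝ) (φ : Formula n) : ∀ s : Bool × List Bool,
    (toks x φ).foldr step s = (s.1, decide (Holds x φ) :: s.2) := by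
  induction φ with
  | eq p =>
    intro s
    by_cases h : value p x = 0
    · simp [toks, step, Holds, sgn, h]
    · by_cases h' : 0 < value p x <;> simp [toks, step, Holds, sgn, h, h']
  | pos p =>
    intro s
    by_cases h : value p x = 0
    · simp [toks, step, Holds, sgn, h]
    · by_cases h' : 0 < value p x <;> simp [toks, step, Holds, sgn, h, h']
  | not φ ih => intro s; by_cases a : Holds x φ <;> simp [toks, step, Holds, ih, a]
  | and φ ψ ih ih' =>
    intro s
    by_cases a : Holds x φ <;> by_cases a' : Holds x ψ <;> simp [toks, step, Holds, ih, ih', a, a']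
  | or φ ψ ih ih' =>
    intro s
    by_cases a : Holds x φ <;> by_cases a' : Holds x ψ <;> simp [toks, step, Holds, ih, ih', a, a']

theorem sz_ofPoly {n : ℕ} (p : Poly n) : sz (ofPoly p) ≤ 8 * (polyCode p).length := by
  have k1 : ∀ e : ℕ, sz (List.replicate e 0) = 2 * e := fun e => by
    induction e with
    | zero => rfl
    | succ e ih => rw [List.replicate_succ, sz_cons, ih, sz_nat, Nat.size_zero]; omega
  have k2 : ∀ l : List ℕ, sz (l.map fun e => List.replicate e 0) ≤ 4 * (l.flatMap unary).length :=
    fun l => by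
      induction l with
      | nil => simp
      | cons e l ih =>
        rw [List.map_cons, sz_cons, k1, List.flatMap_cons, List.length_append]
        simp only [unary, List.length_append, List.length_replicate, List.length_singleton]
        omega
  induction p with
  | nil => simp [ofPoly]
  | cons t p ih =>
    have h1 := k2 (List.ofFn t.2)
    have h2 : (binary t.1.natAbs).length = 2 * Nat.size t.1.natAbs + 1 := by
      simp [binary, List.length_flatMap, Nat.size_eq_bits_len, mul_comm]
    rw [List.map_ofFn] at h1
    simp only [ofPoly, polyCode, List.map_cons, List.flatMap_cons, sz_cons, sz_pair, sz_bool,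
      sz_nat, List.length_append, List.length_cons, Function.comp_def, h2] at ih h1 ⊢
    omega

theorem sz_toks {n : ℕ} (x : Fin n → ℝ) (φ : Formula n) : sz (toks x φ) ≤ 16 * (code φ).length := by
  have k1 : ∀ r, Nat.size (sgn r) ≤ 2 := fun r => by
    rw [Nat.size_le]; unfold sgn; split_ifs <;> omega
  have k2 : Nat.size 1 = 1 ∧ Nat.size 2 = 2 ∧ Nat.size 3 = 2 ∧ Nat.size 4 = 3 := by decide
  induction φ with
  | eq p =>
    have := sz_ofPoly p
    have := k1 (value p x)
    simp only [toks, code, sz_cons, sz_pair, sz_nil, sz_nat, List.length_cons, Nat.size_zero]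
    omega
  | pos p =>
    have := sz_ofPoly p
    have := k1 (value p x)
    simp only [toks, code, sz_cons, sz_pair, sz_nil, sz_nat, List.length_cons]
    omega
  | not φ ih =>
    simp only [toks, code, sz_cons, sz_pair, sz_nil, sz_nat, List.length_cons, Nat.size_zero]
    omega
  | and φ ψ ih ih' =>
    simp only [toks, code, sz_cons, sz_pair, sz_nil, sz_nat, List.length_cons, Nat.size_zero,
      sz_append, List.length_append]
    omega
  | or φ ψ ih ih' =>
    simp only [toks, code, sz_cons, sz_pair, sz_nil, sz_nat, List.length_cons, Nat.size_zero,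
      sz_append, List.length_append]
    omega

theorem mem_vars {t : M0} {v : ℕ} (h : v ∈ vars t) : v < t.2.2.length := by
  simp only [vars, idx, List.mem_flatMap, List.mem_range, List.mem_map] at h
  obtain ⟨i, h1, _, _, rfl⟩ := h
  exact h1

end Front

open Front in
theorem front : ∃ (ok : List Bool × Wit → Prop) (inst : Wit → Inst) (B : List Bool → ℕ),
    PT ok ∧ PT inst ∧ PB B ∧ (∀ w y, ok (w, y) → WF (inst y)) ∧
    (∀ w ∈ ETR, ∃ y, sz y ≤ B w ∧ ok (w, y) ∧ Feas (inst y)) ∧
    ∀ w y, ok (w, y) → Feas (inst y) → w ∈ ETR := by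
  classical
  refine ⟨ok, inst, fun w => 16 * w.length + 1, pt_ok, pt_inst, PT.id.pb_length.lin 16 1, ?_, ?_,
    ?_⟩
  · rintro w ⟨u, l⟩ ⟨-, h, -⟩ A hA μ hμ v hv
    simp only [inst, idx, List.mem_map, List.mem_range, List.length_append,
      List.length_range] at hA ⊢
    obtain ⟨k, hk, rfl⟩ := hA
    have h1 := List.all_eq_true.1 h (l.getD k default) (by simp [hk])
    generalize l.getD k default = t at h1 hμ
    have h2 : ∀ m ∈ t.2.2, ∀ v ∈ vars m, v < u.length := fun m hm v hv => by
      have := List.all_eq_true.1 h1 m hm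
      simp only [wfM, Bool.and_eq_true, decide_eq_true_eq] at this
      exact this.1 ▸ mem_vars hv
    unfold eqn at hμ
    split_ifs at hμ
    · simp at hμ
    · obtain ⟨m, hm, rfl⟩ := List.mem_map.1 hμ
      have := h2 m hm v hv
      omega
    all_goals
      rcases List.mem_cons.1 hμ with rfl | hμ
      · simp at hv
      · obtain ⟨m, hm, rfl⟩ := List.mem_map.1 hμ
        simp only [List.mem_cons] at hv
        rcases hv with rfl | rfl | hv
        · omega
        · omega
        · have := h2 m hm v hv
          omega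
  · rintro w ⟨n, φ, rfl, x, hx⟩
    refine ⟨(List.replicate n 0, toks x φ), ?_, ⟨?_, ?_, ?_⟩, ?_⟩
    · have h1 := sz_toks x φ
      have h2 := sz_le_of_forall (l := List.replicate n 0) (b := 0) (by simp [sz_nat])
      simp only [sz_pair, unary, List.length_append, List.length_replicate,
        List.length_singleton] at h2 ⊢
      omega
    · simp [unL_eq, code_toks]
    · rw [List.length_replicate]
      exact List.all_eq_true.2 fun t ht => (wf_toks x φ t ht).1
    · simp [run, run_toks, hx]
    · let x' : ℕ → ℝ := fun v => if h : v < n then x ⟨v, h⟩ else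
        (√|value (toPoly n ((toks x φ).getD (v - n) default).2.2) x|)⁻¹
      refine ⟨x', fun A hA => ?_⟩
      simp only [inst, idx, List.mem_map, List.mem_range, List.length_replicate] at hA
      obtain ⟨k, hk, rfl⟩ := hA
      obtain ⟨h1, h2⟩ := wf_toks x φ ((toks x φ).getD k default) (by simp [hk])
      have e1 : (fun i : Fin n => x' i) = x := funext fun i => by simp [x']
      have e2 : x' (n + k) =
          (√|value (toPoly n ((toks x φ).getD k default).2.2) x|)⁻¹ := by simp [x']
      generalize (toks x φ).getD k default = t at h1 h2 e2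
      by_cases ht : t.1 ≤ 1
      · rw [aeval_eqn x' _ t h1 ht, e1, e2, inv_pow, Real.sq_sqrt (abs_nonneg _)]
        obtain ⟨h3, h4, h5⟩ := h2 ht
        split_ifs with a0 a1
        · exact h3 a0
        · have := h4 a1
          rw [abs_of_pos this, mul_inv_cancel₀ this.ne', sub_self]
        · have := h5 (by omega)
          rw [abs_of_neg this, mul_inv_cancel₀ (neg_ne_zero.2 this.ne), sub_self]
      · simp [eqn, show 2 ≤ t.1 by omega, toP]
  · rintro w ⟨u, l⟩ ⟨h1, h2, h3⟩ ⟨x, hx⟩
    dsimp only at h1 h2 h3
    have h4 := List.all_eq_true.1 h2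
    obtain ⟨φs, h5, h6, h7⟩ := parse l h4 (by rw [h3])
    rw [h3] at h6 h7
    obtain ⟨φ, rfl⟩ := List.length_eq_one_iff.1 h6
    refine ⟨u.length, φ, by rw [h1, unL_eq, ← h5]; simp, fun i => x i, ?_⟩
    suffices h : ∀ t ∈ l, Sgn (fun i : Fin u.length => x i) t by simpa using h7 _ h
    intro t ht h8
    obtain ⟨k, hk, rfl⟩ := List.getElem_of_mem ht
    have h9 := hx (eqn (u.length + k) l[k]) (by
      simp only [inst, idx, List.mem_map, List.mem_range]
      exact ⟨k, hk, by simp [hk]⟩)
    rw [aeval_eqn x _ _ (h4 _ ht) h8] at h9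
    have h10 := sq_nonneg (x (u.length + k))
    refine ⟨fun a => by rwa [if_pos a] at h9, fun a => ?_, fun a => ?_⟩
    · rw [if_neg (by omega), if_pos a] at h9
      by_contra h
      nlinarith [mul_nonneg (neg_nonneg.2 (not_lt.1 h)) h10]
    · rw [if_neg (by omega), if_neg (by omega)] at h9
      by_contra h
      nlinarith [mul_nonneg (not_lt.1 h) h10]

end Vale.Agent.P337
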