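import Vale.Agent.Lib.PolyTime.More

/-! Systems of polynomial equations as lists. -/

namespace Vale.Agent.P337

open MvPolynomial

/-- Integer polynomials in countably many variables. -/
abbrev RR : Type := MvPolynomial ℕ ℤ

/-- A monomial: sign, absolute value of the coefficient, list of variables with repetition. -/
abbrev Mon : Type := Bool × ℕ × List ℕ

/-- The polynomial of a monomial. -/
noncomputable def monP (μ : Mon) : RR :=
  (if μ.1 = true then -1 else 1) * (μ.2.1 : RR) * (μ.2.2.map X).prod

/-- The polynomial of a list of monomials. -/
noncomputable def toP (L : List Mon) : RR := (L.map monP).sum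

/-- A system: the number of variables (as a length) and the list of equations. -/
abbrev Inst : Type := List ℕ × List (List Mon)

/-- All variables are in range. -/
def WF (I : Inst) : Prop := ∀ A ∈ I.2, ∀ μ ∈ A, ∀ v ∈ μ.2.2, v < I.1.length

/-- The system has a real solution. -/
def Feas (I : Inst) : Prop := ∃ x : ℕ → ℝ, ∀ A ∈ I.2, aeval x (toP A) = 0

/-- Witnesses for parsing: number of variables (as a length) and tokens (tag, guessed sign,
monomials with exponents given as lengths). -/
abbrev Wit : Type := List ℕ × List (ℕ × ℕ × List (Bool × ℕ × List (List ℕ)))

end Vale.Agent.P337
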