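import Vale.Agent.P337.Base

/-! The product of a multiset of numbers from its power sums. -/

namespace Vale.Agent.P337

open Finset Polynomial

namespace Newton

lemma uniq {R G : ℂ[X]} {D : ℕ} (h : X ^ D ∣ derivative R - G * R) (h0 : R.coeff 0 = 0) :
    ∀ k ≤ D, R.coeff k = 0 := by
  intro k
  induction k using Nat.strong_induction_on with
  | _ k ih =>
    intro hk
    cases k with
    | zero => exact h0
    | succ k =>
      have h1 := (X_pow_dvd_iff.1 h) k (by omega)
      rw [coeff_sub, coeff_derivative, coeff_mul, sum_eq_zero, sub_zero] at h1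
      · exact (mul_eq_zero.1 h1).resolve_right (Nat.cast_add_one_ne_zero k)
      · intro p hp
        have := mem_antidiagonal.1 hp
        rw [ih p.2 (by omega) (by omega), mul_zero]

/-- The truncated logarithmic derivative. -/
noncomputable def G (s : Multiset ℂ) (D : ℕ) : ℂ[X] :=
  ∑ k ∈ range D, C ((-1) ^ k * (s.map fun x => x ^ (k + 1)).sum) * X ^ k

/-- The truncated logarithm. -/
noncomputable def L (s : Multiset ℂ) (D : ℕ) : ℂ[X] :=
  ∑ k ∈ range D, C ((-1) ^ k * (s.map fun x => x ^ (k + 1)).sum / ((k : ℂ) + 1)) * X ^ (k + 1)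

/-- The generating polynomial of the elementary symmetric functions. -/
noncomputable def Pr (s : Multiset ℂ) : ℂ[X] := (s.map fun x => 1 + C x * X).prod

lemma deriv_L (s : Multiset ℂ) (D : ℕ) : derivative (L s D) = G s D := by
  unfold L G
  rw [derivative_sum]
  refine sum_congr rfl fun k _ => ?_
  rw [derivative_C_mul_X_pow, Nat.add_sub_cancel, Nat.cast_add_one,
    div_mul_cancel₀ _ (Nat.cast_add_one_ne_zero k)]

lemma X_dvd_L (s : Multiset ℂ) (D : ℕ) : X ∣ L s D :=
  dvd_sum fun k _ => Dvd.dvd.mul_left (dvd_pow_self X (Nat.succ_ne_zero k)) _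

lemma geo (x : ℂ) (D : ℕ) :
    C x - (∑ k ∈ range D, C ((-1) ^ k * x ^ (k + 1)) * X ^ k) * (1 + C x * X) =
      C ((-1) ^ D * x ^ (D + 1)) * X ^ D := by
  induction D with
  | zero => simp
  | succ D ih =>
    rw [sum_range_succ, add_mul, ← sub_sub, ih]
    simp only [map_mul, map_pow, map_neg, map_one]
    ring

lemma dvd_Pr (s : Multiset ℂ) (D : ℕ) : X ^ D ∣ derivative (Pr s) - G s D * Pr s := by
  induction s using Multiset.induction_on with
  | empty => simp [Pr, G]
  | cons x t ih =>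
    have h1 : Pr (x ::ₘ t) = (1 + C x * X) * Pr t := by simp [Pr]
    have h2 : G (x ::ₘ t) D = (∑ k ∈ range D, C ((-1) ^ k * x ^ (k + 1)) * X ^ k) + G t D := by
      unfold G
      rw [← sum_add_distrib]
      refine sum_congr rfl fun k _ => ?_
      rw [Multiset.map_cons, Multiset.sum_cons, mul_add, C_add, add_mul]
    have h3 : derivative (1 + C x * X : ℂ[X]) = C x := by simp
    have h4 : derivative (Pr (x ::ₘ t)) - G (x ::ₘ t) D * Pr (x ::ₘ t) =
        (C x - (∑ k ∈ range D, C ((-1) ^ k * x ^ (k + 1)) * X ^ k) * (1 + C x * X)) * Pr t +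
          (1 + C x * X) * (derivative (Pr t) - G t D * Pr t) := by
      rw [h1, h2, derivative_mul, h3]
      ring
    rw [h4, geo]
    exact dvd_add (Dvd.dvd.mul_right (Dvd.intro_left _ rfl) _) (Dvd.dvd.mul_left ih _)

lemma coeff_Pr_zero (s : Multiset ℂ) : (Pr s).coeff 0 = 1 := by
  induction s using Multiset.induction_on with
  | empty => simp [Pr]
  | cons x t ih =>
    have h1 : Pr (x ::ₘ t) = (1 + C x * X) * Pr t := by simp [Pr]
    rw [h1, mul_coeff_zero, ih]
    simp

lemma coeff_Pr (s : Multiset ℂ) :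
    (Pr s).coeff s.card = s.prod ∧ ∀ k, s.card < k → (Pr s).coeff k = 0 := by
  induction s using Multiset.induction_on with
  | empty =>
    refine ⟨by simp [Pr], fun k hk => ?_⟩
    have : k ≠ 0 := by
      rw [Multiset.card_zero] at hk
      omega
    simp [Pr, coeff_one, this]
  | cons x t ih =>
    have h1 : Pr (x ::ₘ t) = Pr t + C x * (X * Pr t) := by
      have : Pr (x ::ₘ t) = (1 + C x * X) * Pr t := by simp [Pr]
      rw [this]
      ring
    rw [h1, Multiset.card_cons, Multiset.prod_cons]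
    refine ⟨?_, fun k hk => ?_⟩
    · rw [coeff_add, coeff_C_mul, coeff_X_mul, ih.1, ih.2 _ (Nat.lt_succ_self _), zero_add]
    · obtain ⟨j, rfl⟩ : ∃ j, k = j + 1 := ⟨k - 1, by omega⟩
      rw [coeff_add, coeff_C_mul, coeff_X_mul, ih.2 _ (by omega), ih.2 _ (by omega), mul_zero,
        add_zero]

/-- The truncated exponential. -/
noncomputable def E (P : ℂ[X]) (n : ℕ) : ℂ[X] :=
  ∑ j ∈ range n, C ((j.factorial : ℂ)⁻¹) * P ^ j

lemma deriv_E (P : ℂ[X]) (n : ℕ) : derivative (E P (n + 1)) = derivative P * E P n := by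
  induction n with
  | zero => simp [E]
  | succ n ih =>
    have h1 : E P (n + 1 + 1) = E P (n + 1) + C (((n + 1).factorial : ℂ)⁻¹) * P ^ (n + 1) :=
      sum_range_succ _ _
    have h2 : E P (n + 1) = E P n + C ((n.factorial : ℂ)⁻¹) * P ^ n := sum_range_succ _ _
    have h3 : (((n + 1).factorial : ℂ)⁻¹) * ((n + 1 : ℕ) : ℂ) = (n.factorial : ℂ)⁻¹ := by
      have a1 : ((n + 1 : ℕ) : ℂ) ≠ 0 := Nat.cast_ne_zero.2 (Nat.succ_ne_zero n)
      have a2 : (n.factorial : ℂ) ≠ 0 := Nat.cast_ne_zero.2 (Nat.factorial_ne_zero n)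
      rw [Nat.factorial_succ, Nat.cast_mul]
      field_simp
    rw [h1, derivative_add, ih, derivative_C_mul, derivative_pow, Nat.add_sub_cancel,
      ← mul_assoc, ← mul_assoc, ← C_mul, h3]
    conv_rhs => rw [h2]
    ring

lemma dvd_E {P : ℂ[X]} (hP : X ∣ P) (D : ℕ) :
    X ^ D ∣ derivative (E P (D + 1)) - derivative P * E P (D + 1) := by
  have h2 : E P (D + 1) = E P D + C ((D.factorial : ℂ)⁻¹) * P ^ D := sum_range_succ _ _
  have h3 : derivative (E P (D + 1)) - derivative P * E P (D + 1) =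
      (-(derivative P * C ((D.factorial : ℂ)⁻¹))) * P ^ D := by
    rw [deriv_E]
    conv_lhs => rw [h2]
    ring
  rw [h3]
  exact Dvd.dvd.mul_left (pow_dvd_pow_of_dvd hP D) _

lemma coeff_E_zero {P : ℂ[X]} (hP : X ∣ P) (D : ℕ) : (E P (D + 1)).coeff 0 = 1 := by
  have h0 : P.coeff 0 = 0 := X_dvd_iff.1 hP
  unfold E
  rw [sum_range_succ', coeff_add, finsetSum_coeff, sum_eq_zero]
  · simp
  · intro j _
    rw [coeff_C_mul, pow_succ, mul_coeff_zero, h0, mul_zero, mul_zero]

lemma coeff_E (s : Multiset ℂ) : (E (L s s.card) (s.card + 1)).coeff s.card = s.prod := by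
  have h1 := dvd_E (X_dvd_L s s.card) s.card
  rw [deriv_L] at h1
  have h2 := dvd_Pr s s.card
  have h3 : X ^ s.card ∣ derivative (E (L s s.card) (s.card + 1) - Pr s) -
      G s s.card * (E (L s s.card) (s.card + 1) - Pr s) := by
    have := dvd_sub h1 h2
    rwa [show derivative (E (L s s.card) (s.card + 1)) -
        G s s.card * E (L s s.card) (s.card + 1) - (derivative (Pr s) - G s s.card * Pr s) =
      derivative (E (L s s.card) (s.card + 1) - Pr s) -
        G s s.card * (E (L s s.card) (s.card + 1) - Pr s) by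
          rw [derivative_sub]
          ring] at this
  have h4 := uniq h3
    (by rw [coeff_sub, coeff_E_zero (X_dvd_L s s.card), coeff_Pr_zero, sub_self]) _ le_rfl
  rw [coeff_sub, sub_eq_zero] at h4
  rw [h4, (coeff_Pr s).1]

end Newton

open Newton in
theorem newton (s : Multiset ℂ) (D : ℕ) (hD : s.card = D) (a b : ℕ → ℂ)
    (ha : ∀ j ≤ D, a j * (j.factorial : ℂ) = D.factorial)
    (hb : ∀ k < D, b k * ((k : ℂ) + 1) = D.factorial) :
    (∑ j ∈ range (D + 1), C (a j * (D.factorial : ℂ) ^ (D - j)) *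
      (∑ k ∈ range D, C ((-1) ^ k * b k * (s.map fun x => x ^ (k + 1)).sum) * X ^ (k + 1)) ^ j).coeff D
      = (D.factorial : ℂ) ^ (D + 1) * s.prod := by
  have h1 : (∑ k ∈ range D, C ((-1) ^ k * b k * (s.map fun x => x ^ (k + 1)).sum) * X ^ (k + 1)) =
      C (D.factorial : ℂ) * L s D := by
    unfold L
    rw [mul_sum]
    refine sum_congr rfl fun k hk => ?_
    have a1 : ((k : ℂ) + 1) ≠ 0 := Nat.cast_add_one_ne_zero k
    rw [← mul_assoc, ← C_mul, ← hb k (mem_range.1 hk)]
    congr 2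
    field_simp
  have h2 : (∑ j ∈ range (D + 1), C (a j * (D.factorial : ℂ) ^ (D - j)) *
      (C (D.factorial : ℂ) * L s D) ^ j) = C ((D.factorial : ℂ) ^ (D + 1)) * E (L s D) (D + 1) := by
    unfold E
    rw [mul_sum]
    refine sum_congr rfl fun j hj => ?_
    have hj' : j ≤ D := Nat.lt_succ_iff.1 (mem_range.1 hj)
    have a2 : (j.factorial : ℂ) ≠ 0 := Nat.cast_ne_zero.2 (Nat.factorial_ne_zero j)
    have a3 : a j = D.factorial * (j.factorial : ℂ)⁻¹ := by
      rw [← ha j hj', mul_assoc, mul_inv_cancel₀ a2, mul_one]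
    have a4 : (D.factorial : ℂ) ^ (D - j) * (D.factorial : ℂ) ^ j = (D.factorial : ℂ) ^ D := by
      rw [← pow_add, Nat.sub_add_cancel hj']
    rw [mul_pow, ← C_pow, ← mul_assoc, ← mul_assoc, ← C_mul, ← C_mul, mul_assoc (a j), a4, a3]
    congr 2
    ring
  rw [h1, h2, coeff_C_mul, ← hD, coeff_E]

end Vale.Agent.P337
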