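import Mathlib

/-! Norms from power sums, sums of fractions, bounds for roots. -/

namespace Vale.Agent.P337

open Polynomial Finset

variable {R S : Type} [CommRing R] [CommRing S]

/-- a multiple of the last elementary symmetric function in terms of the power sums -/
noncomputable def nwt (D : ℕ) (p : ℕ → R) : R :=
  (∑ m ∈ range (D + 1), C (((∏ i ∈ Ioc m D, i) * D.factorial ^ (D - m) : ℕ) : R) *
    (∑ j ∈ Icc 1 D, C ((-1) ^ (j + 1) * ((∏ i ∈ (Icc 1 D).erase j, i : ℕ) : R) * p j) * X ^ j) ^ m).coeff D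

theorem nwt_map (φ : R →+* S) (D : ℕ) (p : ℕ → R) : φ (nwt D p) = nwt D (fun j => φ (p j)) := by
  unfold nwt
  rw [← Polynomial.coeff_map]
  congr 1
  simp only [Polynomial.map_sum, Polynomial.map_mul, Polynomial.map_pow, Polynomial.map_C,
    Polynomial.map_X, map_natCast, map_mul, map_pow, map_neg, map_one, Polynomial.map_natCast,
    Polynomial.map_neg, Polynomial.map_one]

namespace Newton

theorem prod_Icc_eq (D : ℕ) : ∏ i ∈ Icc 1 D, i = D.factorial := by
  induction D with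
  | zero => simp
  | succ D ih => rw [Finset.prod_Icc_succ_top (by omega), ih, Nat.factorial_succ, mul_comm]

theorem prod_erase_mul (D j : ℕ) (hj : j ∈ Icc 1 D) :
    (∏ i ∈ (Icc 1 D).erase j, i) * j = D.factorial := by
  rw [← prod_Icc_eq]
  exact Finset.prod_erase_mul (Icc 1 D) (fun i => i) hj

theorem prod_Ioc_mul (m D : ℕ) (h : m ≤ D) : (∏ i ∈ Ioc m D, i) * m.factorial = D.factorial := by
  induction D, h using Nat.le_induction with
  | base => simp
  | succ D h ih =>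
    rw [Finset.prod_Ioc_succ_top h, Nat.factorial_succ, ← ih]; ring

/-- the truncated exponential satisfies the differential equation up to high order -/
theorem exp_ode (D : ℕ) (T : ℂ[X]) :
    derivative (∑ m ∈ range (D + 1), C (1 / (m.factorial : ℂ)) * T ^ m)
      - derivative T * ∑ m ∈ range (D + 1), C (1 / (m.factorial : ℂ)) * T ^ m
      = - (derivative T * C (1 / (D.factorial : ℂ)) * T ^ D) := by
  induction D with
  | zero => simp
  | succ D ih =>
    rw [Finset.sum_range_succ _ (D + 1), derivative_add, mul_add]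
    have e : derivative (C (1 / ((D + 1).factorial : ℂ)) * T ^ (D + 1))
        = derivative T * C (1 / (D.factorial : ℂ)) * T ^ D := by
      rw [derivative_C_mul, derivative_pow_succ]
      have h1 : (1 / ((D + 1).factorial : ℂ)) * ((D : ℂ) + 1) = 1 / (D.factorial : ℂ) := by
        have h2 : (D.factorial : ℂ) ≠ 0 := by exact_mod_cast D.factorial_ne_zero
        have h3 : ((D : ℂ) + 1) ≠ 0 := by exact_mod_cast Nat.succ_ne_zero D
        rw [Nat.factorial_succ]; push_cast; field_simp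
      rw [← h1, C_mul]
      ring
    rw [e]
    linear_combination ih

theorem prod_ode {ι : Type} (D : ℕ) (b : ι → ℂ) (s : Finset ι) :
    X ^ D ∣ derivative (∏ k ∈ s, (1 + C (b k) * X))
      - (∑ k ∈ s, C (b k) * ∑ j ∈ range D, (-(C (b k) * X)) ^ j) * ∏ k ∈ s, (1 + C (b k) * X) := by
  classical
  induction s using Finset.induction_on with
  | empty => simp
  | insert a s ha ih =>
    rw [Finset.prod_insert ha, Finset.sum_insert ha, derivative_mul]
    have h1 := mul_neg_geom_sum (-(C (b a) * X)) D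
    have h2 : derivative (1 + C (b a) * X) = C (b a) := by simp
    have h3 : X ^ D ∣ (-(C (b a) * X)) ^ D := pow_dvd_pow_of_dvd ⟨-C (b a), by ring⟩ D
    obtain ⟨u, hu⟩ := ih
    obtain ⟨v, hv⟩ := h3
    refine ⟨(1 + C (b a) * X) * u + C (b a) * v * ∏ k ∈ s, (1 + C (b k) * X), ?_⟩
    rw [h2]
    linear_combination (1 + C (b a) * X) * hu
      - C (b a) * (∏ k ∈ s, (1 + C (b k) * X)) * h1
      + C (b a) * (∏ k ∈ s, (1 + C (b k) * X)) * hv

theorem ode_unique (D : ℕ) (G U : ℂ[X]) (h0 : G.coeff 0 = 0) (h : X ^ D ∣ derivative G - U * G) :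
    G.coeff D = 0 := by
  have key : ∀ k, k ≤ D + 1 → X ^ k ∣ G := by
    intro k
    induction k with
    | zero => simp
    | succ k ih =>
      intro hk
      have h1 : X ^ k ∣ derivative G := by
        have h2 : X ^ k ∣ derivative G - U * G := (pow_dvd_pow X (by omega)).trans h
        have h3 : X ^ k ∣ U * G := Dvd.dvd.mul_left (ih (by omega)) U
        have := dvd_add h2 h3
        simpa using this
      rw [X_pow_dvd_iff] at h1 ⊢
      intro d hd
      rcases d with _ | d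
      · exact h0
      · have h4 := h1 d (by omega)
        rw [coeff_derivative] at h4
        have h5 : ((d : ℂ) + 1) ≠ 0 := by exact_mod_cast Nat.succ_ne_zero d
        exact (mul_eq_zero.1 h4).resolve_right h5
  exact X_pow_dvd_iff.1 (key (D + 1) le_rfl) D (Nat.lt_succ_self D)

theorem coeff_prod_lin {ι : Type} (a b : ι → ℂ) (s : Finset ι) (ha : ∀ k, a k ≠ 0) :
    (∏ k ∈ s, (C (a k) + X * C (b k))).coeff 0 = ∏ k ∈ s, a k ∧
    (∏ k ∈ s, (C (a k) + X * C (b k))).coeff 1 = (∏ k ∈ s, a k) * ∑ k ∈ s, b k / a k := by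
  classical
  induction s using Finset.induction_on with
  | empty => simp [Polynomial.coeff_one]
  | insert i s hi ih =>
    rw [Finset.prod_insert hi, Finset.prod_insert hi, Finset.sum_insert hi, add_mul, mul_assoc,
      coeff_add, coeff_add, coeff_C_mul, coeff_C_mul, coeff_X_mul_zero,
      show (1 : ℕ) = 0 + 1 from rfl, coeff_X_mul, coeff_C_mul, zero_add, ih.1, ih.2]
    refine ⟨add_zero _, ?_⟩
    have := ha i
    field_simp
    ring

end Newton

open Newton

namespace Newton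

theorem nwt_scale (D : ℕ) (p : ℕ → ℂ) :
    nwt D p = (D.factorial : ℂ) ^ (D + 1) * (∑ m ∈ range (D + 1), C (1 / (m.factorial : ℂ)) *
      (∑ j ∈ Icc 1 D, C ((-1) ^ (j + 1) * p j / (j : ℂ)) * X ^ j) ^ m).coeff D := by
  generalize hT : (∑ j ∈ Icc 1 D, C ((-1) ^ (j + 1) * p j / (j : ℂ)) * X ^ j : ℂ[X]) = T
  have h1 : (∑ j ∈ Icc 1 D, C ((-1) ^ (j + 1) * ((∏ i ∈ (Icc 1 D).erase j, i : ℕ) : ℂ)
      * p j) * X ^ j) = C (D.factorial : ℂ) * T := by
    rw [← hT, Finset.mul_sum]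
    refine Finset.sum_congr rfl (fun j hj => ?_)
    rw [← mul_assoc, ← C_mul, ← prod_erase_mul D j hj]
    have hj0 : (j : ℂ) ≠ 0 := by
      have := (mem_Icc.1 hj).1
      exact_mod_cast (by omega : j ≠ 0)
    refine congrArg (fun z : ℂ => C z * X ^ j) ?_
    rw [Nat.cast_mul]
    field_simp
  unfold nwt
  rw [h1, ← coeff_C_mul, Finset.mul_sum]
  refine congrArg (fun z : ℂ[X] => z.coeff D) ?_
  refine Finset.sum_congr rfl (fun m hm => ?_)
  have hm' : m ≤ D := by have := mem_range.1 hm; omega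
  rw [mul_pow, ← C_pow, ← mul_assoc, ← mul_assoc, ← C_mul, ← C_mul]
  refine congrArg (fun z : ℂ => C z * T ^ m) ?_
  have h3 : ((∏ i ∈ Ioc m D, i : ℕ) : ℂ) * (m.factorial : ℂ) = D.factorial := by
    exact_mod_cast prod_Ioc_mul m D hm'
  have hm0 : (m.factorial : ℂ) ≠ 0 := by exact_mod_cast m.factorial_ne_zero
  have h4 : (D.factorial : ℂ) ^ (D - m) * (D.factorial : ℂ) ^ m = (D.factorial : ℂ) ^ D := by
    rw [← pow_add]; congr 1; omega
  rw [Nat.cast_mul, Nat.cast_pow, mul_assoc, h4, pow_succ, mul_one_div, eq_div_iff hm0]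
  linear_combination (D.factorial : ℂ) ^ D * h3

theorem deriv_log (D : ℕ) (b : Fin D → ℂ) :
    derivative (∑ j ∈ Icc 1 D, C ((-1) ^ (j + 1) * (∑ k, b k ^ j) / (j : ℂ)) * X ^ j : ℂ[X])
      = ∑ k, C (b k) * ∑ j ∈ range D, (-(C (b k) * X)) ^ j := by
  have e : ∀ k, C (b k) * ∑ j ∈ range D, (-(C (b k) * X)) ^ j
      = ∑ j ∈ range D, C (b k) * (-(C (b k) * X)) ^ j := fun k => Finset.mul_sum _ _ _
  rw [Finset.sum_congr rfl (fun k _ => e k), Finset.sum_comm, derivative_sum,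
    ← Finset.Ico_add_one_right_eq_Icc, Finset.sum_Ico_eq_sum_range]
  refine Finset.sum_congr (by simp) (fun j _ => ?_)
  rw [derivative_C_mul_X_pow]
  have hj0 : ((1 + j : ℕ) : ℂ) ≠ 0 := by exact_mod_cast (by omega : 1 + j ≠ 0)
  rw [div_mul_cancel₀ _ hj0, Finset.mul_sum, map_sum, Finset.sum_mul]
  refine Finset.sum_congr rfl (fun k _ => ?_)
  rw [show 1 + j - 1 = j by omega, neg_pow (C (b k) * X)]
  simp only [map_mul, map_pow, map_neg, map_one]
  ring

theorem exp_coeff (D : ℕ) (T P : ℂ[X]) (hXT : X ∣ T) (hP0 : P.eval 0 = 1)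
    (hP : X ^ D ∣ derivative P - derivative T * P) :
    (∑ m ∈ range (D + 1), C (1 / (m.factorial : ℂ)) * T ^ m).coeff D = P.coeff D := by
  have h6 := exp_ode D T
  have hT0 : T.eval 0 = 0 := by
    obtain ⟨u, hu⟩ := hXT
    rw [hu]; simp
  have h7 : (∑ m ∈ range (D + 1), C (1 / (m.factorial : ℂ)) * T ^ m).eval 0 = 1 := by
    rw [eval_finsetSum, Finset.sum_range_succ']
    simp [hT0]
  generalize (∑ m ∈ range (D + 1), C (1 / (m.factorial : ℂ)) * T ^ m) = E at h6 h7
  have h5 : X ^ D ∣ derivative (E - P) - derivative T * (E - P) := by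
    have h6' : X ^ D ∣ derivative E - derivative T * E := by
      rw [h6]
      exact (Dvd.dvd.mul_left (pow_dvd_pow_of_dvd hXT D) _).neg_right
    have := dvd_sub h6' hP
    rw [derivative_sub]
    refine this.trans (dvd_of_eq (by ring))
  have h8 : (E - P).coeff 0 = 0 := by
    rw [coeff_zero_eq_eval_zero, eval_sub, h7, hP0, sub_self]
  have h9 := ode_unique D _ _ h8 h5
  rwa [coeff_sub, sub_eq_zero] at h9

theorem coeff_top (D : ℕ) (b : Fin D → ℂ) :
    (∏ k, (1 + C (b k) * X) : ℂ[X]).coeff D = ∏ k, b k := by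
  have h10 := Polynomial.coeff_prod_of_natDegree_le (univ : Finset (Fin D))
    (fun k => (1 + C (b k) * X : ℂ[X])) 1 (fun k _ => by compute_degree)
  simp only [card_univ, Fintype.card_fin, mul_one] at h10
  rw [h10]
  exact Finset.prod_congr rfl (fun k _ => by simp [Polynomial.coeff_one])

end Newton

theorem nwt_eq (D : ℕ) (b : Fin D → ℂ) :
    nwt D (fun j => ∑ k, b k ^ j) = (D.factorial : ℂ) ^ (D + 1) * ∏ k, b k := by
  rw [nwt_scale, exp_coeff D _ (∏ k, (1 + C (b k) * X)), coeff_top]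
  · refine Finset.dvd_sum (fun j hj => Dvd.dvd.mul_left ?_ _)
    exact dvd_pow_self X (by have := (mem_Icc.1 hj).1; omega)
  · rw [eval_prod]; simp
  · rw [deriv_log]; exact prod_ode D b univ

theorem frac_sum {D : ℕ} (q : ℂ[X]) (κ : ℂ) (hκ : κ ≠ 0) (a b : Fin D → ℂ) (ha : ∀ k, a k ≠ 0)
    (hq : ∀ t, q.eval t = κ * ∏ k, (a k + t * b k)) :
    q.coeff 0 ≠ 0 ∧ q.coeff 1 / q.coeff 0 = ∑ k, b k / a k := by
  have e : q = C κ * ∏ k, (C (a k) + X * C (b k)) := by
    refine Polynomial.funext (fun t => ?_)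
    rw [hq, eval_mul, eval_C, eval_prod]
    simp only [eval_add, eval_mul, eval_C, eval_X]
  obtain ⟨h0, h1⟩ := coeff_prod_lin a b univ ha
  have hp : ∏ k, a k ≠ 0 := Finset.prod_ne_zero_iff.2 (fun k _ => ha k)
  rw [e, coeff_C_mul, coeff_C_mul, h0, h1]
  refine ⟨mul_ne_zero hκ hp, ?_⟩
  field_simp

theorem cauchy (q : ℂ[X]) (h : ℝ) (h1 : 1 ≤ ‖q.leadingCoeff‖) (hq : ∀ k, ‖q.coeff k‖ ≤ h) (w : ℂ)
    (hw : h + 1 ≤ ‖w‖) : 1 ≤ ‖q.eval w‖ := by
  have h0 : 0 ≤ h := le_trans (norm_nonneg _) (hq 0)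
  set r := ‖w‖ with hr
  set m := q.natDegree with hm
  have e : q.eval w = ∑ k ∈ range m, q.coeff k * w ^ k + q.leadingCoeff * w ^ m := by
    rw [eval_eq_sum_range, Finset.sum_range_succ]; rfl
  have h2 : ‖∑ k ∈ range m, q.coeff k * w ^ k‖ ≤ h * ∑ k ∈ range m, r ^ k := by
    rw [Finset.mul_sum]
    refine le_trans (norm_sum_le _ _) (Finset.sum_le_sum (fun k _ => ?_))
    rw [norm_mul, norm_pow]
    exact mul_le_mul_of_nonneg_right (hq k) (by positivity)
  have h3 : r ^ m ≤ ‖q.leadingCoeff * w ^ m‖ := by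
    rw [norm_mul, norm_pow]
    exact le_mul_of_one_le_left (by positivity) h1
  have h4 := geom_sum_mul r m
  have h5 : 0 ≤ ∑ k ∈ range m, r ^ k := Finset.sum_nonneg (fun k _ => by positivity)
  have h6 : h * ∑ k ∈ range m, r ^ k ≤ (r - 1) * ∑ k ∈ range m, r ^ k :=
    mul_le_mul_of_nonneg_right (by linarith) h5
  have h7 : ‖q.leadingCoeff * w ^ m‖ ≤ ‖q.eval w‖ + ‖∑ k ∈ range m, q.coeff k * w ^ k‖ := by
    have : q.leadingCoeff * w ^ m = q.eval w - ∑ k ∈ range m, q.coeff k * w ^ k := by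
      rw [e]; ring
    rw [this]; exact norm_sub_le _ _
  nlinarith

namespace Newton

theorem norm_int_le {z : ℤ} {H : ℕ} (h : z.natAbs ≤ H) : ‖(z : ℂ)‖ ≤ H := by
  rw [Complex.norm_intCast, ← Int.cast_abs, ← Int.natCast_natAbs]
  exact_mod_cast h

theorem cauchy_int (q : ℤ[X]) (h0 : q ≠ 0) (H : ℕ) (hq : ∀ k, (q.coeff k).natAbs ≤ H) (w : ℂ)
    (hw : (H : ℝ) + 1 ≤ ‖w‖) : 1 ≤ ‖q.eval₂ (Int.castRingHom ℂ) w‖ := by
  rw [← eval_map]
  refine cauchy _ H ?_ (fun k => ?_) w hw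
  · rw [leadingCoeff_map_of_injective (Int.castRingHom ℂ).injective_int, eq_intCast,
      Complex.norm_intCast, ← Int.cast_abs]
    exact_mod_cast Int.one_le_abs (leadingCoeff_ne_zero.2 h0)
  · rw [coeff_map, eq_intCast]; exact norm_int_le (hq k)

theorem upper (q : ℤ[X]) (h0 : q ≠ 0) (H : ℕ) (hq : ∀ k, (q.coeff k).natAbs ≤ H) (w : ℂ)
    (hr : q.eval₂ (Int.castRingHom ℂ) w = 0) : ‖w‖ ≤ H + 1 := by
  by_contra hc
  have := cauchy_int q h0 H hq w (not_le.1 hc).le
  rw [hr, norm_zero] at this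
  linarith

end Newton

theorem root_bound (q : ℤ[X]) (h0 : q ≠ 0) (H : ℕ) (hq : ∀ k, (q.coeff k).natAbs ≤ H) (w : ℂ)
    (hw : w ≠ 0) (hr : aeval w q = 0) : 1 ≤ (H + 1) * ‖w‖ ∧ ‖w‖ ≤ H + 1 := by
  have hr' : q.eval₂ (Int.castRingHom ℂ) w = 0 := by
    rw [aeval_def] at hr; exact hr
  refine ⟨?_, upper q h0 H hq w hr'⟩
  let _ : Invertible w := invertibleOfNonzero hw
  have h1 : q.reverse.eval₂ (Int.castRingHom ℂ) (⅟w) = 0 :=
    (eval₂_reverse_eq_zero_iff _ w q).2 hr'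
  have h2 := upper q.reverse (by rwa [Ne, reverse_eq_zero]) H
    (fun k => by rw [coeff_reverse]; exact hq _) _ h1
  rw [invOf_eq_inv, norm_inv, inv_le_iff_one_le_mul₀ (norm_pos_iff.2 hw)] at h2
  exact h2

theorem root_bound2 (q : ℤ[X][X]) (h0 : q ≠ 0) (H δ : ℕ)
    (hq : ∀ k l, ((q.coeff k).coeff l).natAbs ≤ H) (hd : ∀ k, (q.coeff k).natDegree ≤ δ)
    (u E : ℝ) (hu : H + 1 ≤ u) (hE : (δ + 1) * H * u ^ δ + 1 ≤ E) :
    q.eval₂ (eval₂RingHom (Int.castRingHom ℂ) (u : ℂ)) (E : ℂ) ≠ 0 := by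
  have hH : (0 : ℝ) ≤ H := Nat.cast_nonneg _
  have hu1 : 1 ≤ u := by linarith
  have hnu : ‖(u : ℂ)‖ = u := by rw [Complex.norm_real, Real.norm_of_nonneg (by linarith)]
  set φ := eval₂RingHom (Int.castRingHom ℂ) (u : ℂ) with hφ
  have h1 : 1 ≤ ‖φ q.leadingCoeff‖ :=
    cauchy_int q.leadingCoeff (leadingCoeff_ne_zero.2 h0) H (hq _) u (by rw [hnu]; exact hu)
  have h2 : φ q.leadingCoeff ≠ 0 := by
    intro h; rw [h, norm_zero] at h1; linarith
  have h3 := cauchy (q.map φ) ((δ + 1) * H * u ^ δ)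
    (by rw [leadingCoeff_map_of_leadingCoeff_ne_zero _ h2]; exact h1) (fun k => ?_) E
    (le_trans hE (by rw [Complex.norm_real]; exact le_abs_self E))
  · rw [eval_map] at h3
    intro h; rw [h, norm_zero] at h3; linarith
  · rw [coeff_map, hφ, coe_eval₂RingHom, eval₂_eq_sum_range' _ (Nat.lt_succ_of_le (hd k))]
    refine le_trans (norm_sum_le _ _) ?_
    calc _ ≤ ∑ _l ∈ range (δ + 1), (H : ℝ) * u ^ δ := by
          refine Finset.sum_le_sum (fun l hl => ?_)
          rw [norm_mul, norm_pow, hnu, eq_intCast]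
          exact mul_le_mul (norm_int_le (hq k l))
            (pow_le_pow_right₀ hu1 (by have := mem_range.1 hl; omega)) (by positivity) hH
      _ = _ := by rw [Finset.sum_const, card_range, nsmul_eq_mul]; push_cast; ring

end Vale.Agent.P337
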