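import Vale.Agent.P337.CFLib

/-! Families of integer polynomials that can be evaluated modulo large primes. -/

namespace Vale.Agent.P337

open Vale.Agent.Lib.PolyTime Vale.Agent.P328 Finset

/-- Points: one association list for every layer of variables. -/
abbrev Pt : Type := List (List (ℕ × ℕ))

/-- The value of a variable. -/
def vl (l : List (ℕ × ℕ)) (j : ℕ) : ℕ := (l.map fun e => if e.1 = j then e.2 else 0).sum

/-- Rings with evaluation maps and a norm. -/
class Pts (R : Type) [CommRing R] where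
  ev : (p : ℕ) → Pt → R →+* ZMod p
  N : R → ℕ
  N_zero : N 0 = 0
  N_one : N 1 ≤ 1
  N_neg : ∀ x, N (-x) ≤ N x
  N_add : ∀ x y, N (x + y) ≤ N x + N y
  N_mul : ∀ x y, N (x * y) ≤ N x * N y
  N_pos : ∀ x, x ≠ 0 → 1 ≤ N x
  cst : ∀ r, ∃ f : ℕ × Pt → ℕ, CF f ∧ ∀ p v, p ≠ 0 → (f (p, v) : ZMod p) = ev p v r

open Pts

variable {α β : Type} [Enc α] [Enc β] [Dec α] [Dec β]
variable {R S : Type} [CommRing R] [CommRing S] [Pts R] [Pts S]

@[fun_prop] theorem CF.vl {l : α → List (ℕ × ℕ)} {j : α → ℕ} (hl : CF l) (hj : CF j) :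
    CF fun a => vl (l a) (j a) :=
  CF.bin (op := P337.vl) (by unfold P337.vl; fun_prop) hl hj

theorem cast_pred {p : ℕ} (hp : p ≠ 0) : ((p - 1 : ℕ) : ZMod p) = -1 := by
  rw [Nat.cast_pred (Nat.pos_of_ne_zero hp), ZMod.natCast_self, zero_sub]

instance : Pts ℤ where
  ev p _ := Int.castRingHom _
  N := Int.natAbs
  N_zero := rfl
  N_one := le_rfl
  N_neg x := (Int.natAbs_neg x).le
  N_add := Int.natAbs_add_le
  N_mul x y := (Int.natAbs_mul x y).le
  N_pos x h := Int.natAbs_pos.2 h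
  cst r := by
    obtain ⟨k, rfl | rfl⟩ := r.eq_nat_or_neg
    · exact ⟨fun _ => k, by fun_prop, fun p v _ => by simp⟩
    · exact ⟨fun x => (x.1 - 1) * k, by fun_prop, fun p v h => by simp [cast_pred h]⟩

theorem N_sum {ι : Type} (s : Finset ι) (f : ι → R) : N (∑ i ∈ s, f i) ≤ ∑ i ∈ s, N (f i) :=
  le_sum_of_subadditive N N_zero.le N_add s f

theorem N_prod {ι : Type} (s : Finset ι) (f : ι → R) : N (∏ i ∈ s, f i) ≤ ∏ i ∈ s, N (f i) :=
  le_prod_of_submultiplicative N N_one N_mul s f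

theorem N_nat (k : ℕ) : N (k : R) ≤ k := by
  simpa using (N_sum (range k) fun _ => (1 : R)).trans (sum_le_card_nsmul _ _ 1 fun _ _ => N_one)

theorem N_int (z : ℤ) : N (z : R) ≤ N z := by
  obtain ⟨k, rfl | rfl⟩ := z.eq_nat_or_neg
  · simpa [N] using N_nat k
  · simpa [N] using (N_neg _).trans (N_nat k)

section Mv

open MvPolynomial

/-- The weighted norm. -/
noncomputable def NM (P : MvPolynomial ℕ R) : ℕ :=
  ∑ e ∈ P.support, N (coeff e P) * 2 ^ e.degree

theorem NM_sub {P : MvPolynomial ℕ R} {s : Finset (ℕ →₀ ℕ)} (h : P.support ⊆ s) :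
    NM P = ∑ e ∈ s, N (coeff e P) * 2 ^ e.degree :=
  sum_subset h fun e _ he => by rw [notMem_support_iff.1 he, N_zero, zero_mul]

theorem NM_add (P Q : MvPolynomial ℕ R) : NM (P + Q) ≤ NM P + NM Q := by
  classical
  rw [NM_sub support_add, NM_sub subset_union_left, NM_sub subset_union_right, ← sum_add_distrib]
  exact sum_le_sum fun e _ => by
    rw [← add_mul, coeff_add]; exact Nat.mul_le_mul_right _ (N_add _ _)

theorem NM_monomial (e : ℕ →₀ ℕ) (c : R) : NM (monomial e c) = N c * 2 ^ e.degree := by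
  classical
  rw [NM_sub support_monomial_subset, sum_singleton, coeff_monomial, if_pos rfl]

theorem NM_sum {ι : Type} (s : Finset ι) (f : ι → MvPolynomial ℕ R) :
    NM (∑ i ∈ s, f i) ≤ ∑ i ∈ s, NM (f i) :=
  le_sum_of_subadditive NM (by simp [NM]) NM_add s f

noncomputable instance : Pts (MvPolynomial ℕ R) where
  ev p v := eval₂Hom (ev p v.tail) fun j => (vl (v.headD []) j : ZMod p)
  N := NM
  N_zero := by simp [NM]
  N_one := (NM_monomial 0 1).le.trans (by simpa using N_one)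
  N_neg P := by
    rw [NM, support_neg]
    exact sum_le_sum fun e _ => Nat.mul_le_mul_right _ (by rw [coeff_neg]; exact N_neg _)
  N_add := NM_add
  N_mul P Q := by
    conv_lhs => rw [P.as_sum, Q.as_sum, sum_mul_sum]
    conv_rhs => rw [NM, NM, sum_mul_sum]
    refine (NM_sum _ _).trans (sum_le_sum fun e _ => (NM_sum _ _).trans (sum_le_sum fun e' _ => ?_))
    rw [monomial_mul, NM_monomial, map_add, pow_add, mul_mul_mul_comm]
    exact Nat.mul_le_mul_right _ (N_mul _ _)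
  N_pos P h := by
    obtain ⟨e, he⟩ := support_nonempty.2 h
    exact le_trans (Nat.mul_pos (N_pos _ (mem_support_iff.1 he)) (by positivity))
      (single_le_sum (f := fun e => N (coeff e P) * 2 ^ e.degree) (fun _ _ => Nat.zero_le _) he)
  cst r := by
    induction r using MvPolynomial.induction_on with
    | C c =>
      obtain ⟨f, h1, h2⟩ := cst c
      exact ⟨fun x => f (x.1, x.2.tail), by fun_prop, fun p v h => by simp [h2 p _ h]⟩
    | add P Q hP hQ =>
      obtain ⟨f, h1, h2⟩ := hP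
      obtain ⟨g, g1, g2⟩ := hQ
      exact ⟨fun x => f x + g x, by fun_prop, fun p v h => by simp [h2 p _ h, g2 p _ h]⟩
    | mul_X P i hP =>
      obtain ⟨f, h1, h2⟩ := hP
      exact ⟨fun x => f x * vl (x.2.headD []) i, by fun_prop, fun p v h => by simp [h2 p _ h]⟩

theorem ev_mv (p : ℕ) (v : Pt) (P : MvPolynomial ℕ R) :
    ev p v P = eval (fun j => (vl (v.headD []) j : ZMod p)) (map (ev p v.tail) P) := by
  rw [eval_map]; rfl

theorem N_coeff_mv (P : MvPolynomial ℕ R) (e : ℕ →₀ ℕ) : N (coeff e P) * 2 ^ e.degree ≤ N P := by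
  by_cases he : e ∈ P.support
  · exact single_le_sum (f := fun e => N (coeff e P) * 2 ^ e.degree) (fun _ _ => Nat.zero_le _) he
  · rw [notMem_support_iff.1 he, N_zero, zero_mul]; exact Nat.zero_le _

theorem totalDegree_le_of_N {P : MvPolynomial ℕ R} {k : ℕ} (h : N P ≤ 2 ^ k) :
    P.totalDegree ≤ k :=
  Finset.sup_le fun e he => (Nat.pow_le_pow_iff_right one_lt_two).1
    ((Nat.le_mul_of_pos_left _ (N_pos _ (mem_support_iff.1 he))).trans ((N_coeff_mv P e).trans h))

theorem N_map {ψ : R →+* S} (h : ∀ x, N (ψ x) ≤ N x) (P : MvPolynomial ℕ R) :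
    N (map ψ P) ≤ N P := by
  show NM _ ≤ NM _
  rw [NM_sub (support_map_subset _ _)]
  exact sum_le_sum fun e _ => Nat.mul_le_mul_right _ (by rw [coeff_map]; exact h _)

theorem N_C (r : R) : N (C r : MvPolynomial ℕ R) ≤ N r := (NM_monomial 0 r).le.trans (by simp)

theorem N_pderiv (i : ℕ) (P : MvPolynomial ℕ R) : N (pderiv i P) ≤ N P * N P := by
  conv_lhs => rw [P.as_sum, map_sum]
  conv_rhs => rw [show N P * N P = N P * NM P from rfl, NM, mul_sum]
  refine (NM_sum _ _).trans (sum_le_sum fun e he => ?_)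
  rw [pderiv_monomial, NM_monomial, mul_left_comm, ← mul_assoc]
  refine Nat.mul_le_mul ((N_mul _ _).trans (Nat.mul_le_mul_left _ ((N_nat _).trans ?_)))
    (Nat.pow_le_pow_right two_pos (Finsupp.degree_mono tsub_le_self))
  exact (Finsupp.le_degree i e).trans (Nat.lt_two_pow_self.le.trans
    ((Nat.le_mul_of_pos_left _ (N_pos _ (mem_support_iff.1 he))).trans (N_coeff_mv P e)))

end Mv

section Uni

open Polynomial

noncomputable instance : Pts R[X] where
  ev p v := (ev p v).comp (toMvPolynomial (R := R) (0 : ℕ)).toRingHom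
  N q := N (toMvPolynomial (0 : ℕ) q)
  N_zero := by rw [map_zero, N_zero]
  N_one := by rw [map_one]; exact N_one
  N_neg x := by rw [map_neg]; exact N_neg _
  N_add x y := by rw [map_add]; exact N_add _ _
  N_mul x y := by rw [map_mul]; exact N_mul _ _
  N_pos x h := N_pos _ ((map_ne_zero_iff _ (toMvPolynomial_injective _)).2 h)
  cst r := cst (toMvPolynomial (0 : ℕ) r)

theorem ev_uni (p : ℕ) (v : Pt) (q : R[X]) :
    ev p v q = (q.map (ev p v.tail)).eval (vl (v.headD []) 0 : ZMod p) := by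
  show ev p v (toMvPolynomial (0 : ℕ) q) = _
  rw [ev_mv]
  induction q using Polynomial.induction_on' with
  | add p q hp hq => simp only [map_add, Polynomial.map_add, eval_add, hp, hq]
  | monomial k c => simp [← C_mul_X_pow_eq_monomial]

theorem N_coeff_uni (q : R[X]) (k : ℕ) : N (q.coeff k) * 2 ^ k ≤ N q := by
  have h := N_coeff_mv (toMvPolynomial (0 : ℕ) q) (Finsupp.single 0 k)
  rw [Finsupp.degree_single] at h
  refine le_trans (le_of_eq ?_) h
  congr 2
  clear h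
  induction q using Polynomial.induction_on' with
  | add p q hp hq => simp [hp, hq]
  | monomial j c =>
    simp [← C_mul_X_pow_eq_monomial, MvPolynomial.coeff_X_pow, coeff_X_pow, eq_comm,
      (Finsupp.single_injective _).eq_iff]

theorem N_coeff_le (q : R[X]) (k : ℕ) : N (q.coeff k) ≤ N q :=
  (Nat.le_mul_of_pos_right _ (by positivity)).trans (N_coeff_uni q k)

theorem natDegree_le_of_N {q : R[X]} {k : ℕ} (h : N q ≤ 2 ^ k) : q.natDegree ≤ k :=
  natDegree_le_iff_coeff_eq_zero.2 fun j hj => by_contra fun h0 =>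
    absurd ((Nat.le_mul_of_pos_left _ (N_pos _ h0)).trans ((N_coeff_uni q j).trans h))
      (not_le.2 (Nat.pow_lt_pow_right one_lt_two hj))

end Uni

/-- Families of small norm that can be evaluated modulo large primes. -/
@[fun_prop]
def PF (P : α → R) : Prop :=
  ∃ b : α → ℕ, PB b ∧ (∀ a, N (P a) ≤ 2 ^ 2 ^ b a) ∧ ∃ f : α × ℕ × Pt → ℕ, CF f ∧
    ∀ a p v, p.Prime → 2 ^ b a ≤ p → (f (a, p, v) : ZMod p) = ev p v (P a)

theorem tw {x b c : ℕ} (h : x ≤ 2 ^ 2 ^ b) (hbc : b ≤ c) : x ≤ 2 ^ 2 ^ c :=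
  h.trans (Nat.pow_le_pow_right two_pos (Nat.pow_le_pow_right two_pos hbc))

theorem tp {p b c : ℕ} (h : 2 ^ c ≤ p) (hbc : b ≤ c) : 2 ^ b ≤ p :=
  (Nat.pow_le_pow_right two_pos hbc).trans h

theorem tw_mul {x y b c : ℕ} (h : x ≤ 2 ^ 2 ^ b) (h' : y ≤ 2 ^ 2 ^ c) :
    x * y ≤ 2 ^ 2 ^ (b + c + 1) := by
  rw [pow_succ, pow_mul, sq]
  exact Nat.mul_le_mul (tw h (by omega)) (tw h' (by omega))

theorem tw_pow {x k b c : ℕ} (h : x ≤ 2 ^ 2 ^ b) (h' : k ≤ 2 ^ c) : x ^ k ≤ 2 ^ 2 ^ (b + c) := by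
  rw [pow_add, pow_mul]
  exact (Nat.pow_le_pow_left h k).trans (Nat.pow_le_pow_right (by positivity) h')

variable {P Q : α → R}

theorem PF.bound (hP : PF P) : ∃ b, Sm b ∧ ∀ a, N (P a) ≤ 2 ^ 2 ^ b a :=
  let ⟨_, h1, h2, _⟩ := hP
  let ⟨c, c1, c2⟩ := PB.sm' h1
  ⟨c, c1, fun a => tw (h2 a) (c2 a)⟩

omit [Dec α] in
theorem PF.congr (hP : PF P) (h : ∀ a, Q a = P a) : PF Q := by
  rwa [funext h]

@[fun_prop] theorem PF.comp {P : β → R} {g : α → β} (hP : PF P) (hg : CF g) :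
    PF fun a => P (g a) :=
  let ⟨_, h1, h2, f, h3, h4⟩ := hP
  ⟨_, h1.comp' hg.1, fun a => h2 (g a), fun x => f (g x.1, x.2), by fun_prop, fun a => h4 (g a)⟩

@[fun_prop] theorem PF.const (r : R) : PF fun _ : α => r :=
  let ⟨f, h1, h2⟩ := cst r
  ⟨_, PB.const (N r), fun _ => (Nat.lt_two_pow_self.trans Nat.lt_two_pow_self).le, fun x => f x.2,
    by fun_prop, fun _ p v hp _ => h2 p v hp.ne_zero⟩

@[fun_prop] theorem PF.nat {k : α → ℕ} (hk : CF k) : PF fun a => (k a : R) :=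
  ⟨_, hk.1, fun a => (N_nat _).trans ((Nat.lt_size_self _).trans Nat.lt_two_pow_self).le,
    fun x => k x.1, by fun_prop, fun _ p v _ _ => (map_natCast _ _).symm⟩

theorem PF.hom {ψ : R → S} {τ : Pt → Pt} (hτ : CF τ) (h1 : ∀ x, N (ψ x) ≤ N x)
    (h2 : ∀ p v x, ev p v (ψ x) = ev p (τ v) x) (hP : PF P) : PF fun a => ψ (P a) :=
  let ⟨_, g1, g2, f, g3, g4⟩ := hP
  ⟨_, g1, fun a => (h1 _).trans (g2 a), fun x => f (x.1, x.2.1, τ x.2.2), by fun_prop,
    fun a p v hp h => (g4 a p _ hp h).trans (h2 p v _).symm⟩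

@[fun_prop] theorem PF.int {z : α → ℤ} (hz : PF z) : PF fun a => (z a : R) :=
  hz.hom CF.id N_int fun _ _ _ => map_intCast _ _

@[fun_prop] theorem PF.neg (hP : PF P) : PF fun a => -P a :=
  let ⟨_, g1, g2, f, g3, g4⟩ := hP
  ⟨_, g1, fun a => (N_neg _).trans (g2 a), fun x => (x.2.1 - 1) * f x, by fun_prop,
    fun a p v hp h => by simp [cast_pred hp.ne_zero, g4 a p v hp h]⟩

@[fun_prop] theorem PF.mul (hP : PF P) (hQ : PF Q) : PF fun a => P a * Q a :=
  let ⟨_, g1, g2, f, g3, g4⟩ := hP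
  let ⟨_, h1, h2, g, h3, h4⟩ := hQ
  ⟨_, (g1.add h1).add (PB.const 1), fun a => (N_mul _ _).trans (tw_mul (g2 a) (h2 a)),
    fun x => f x * g x, by fun_prop, fun a p v hp h => by
      simp [g4 a p v hp (tp h (by omega)), h4 a p v hp (tp h (by omega))]⟩

@[fun_prop] theorem PF.ite {c : α → Prop} [DecidablePred c] (hc : CF c) (hP : PF P) (hQ : PF Q) :
    PF fun a => if c a then P a else Q a :=
  let ⟨_, g1, g2, f, g3, g4⟩ := hP
  let ⟨_, h1, h2, g, h3, h4⟩ := hQ
  ⟨_, g1.add h1, fun a => by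
    dsimp only
    split_ifs
    exacts [tw (g2 a) (by omega), tw (h2 a) (by omega)],
    fun x => if c x.1 then f x else g x, by fun_prop, fun a p v hp h => by
      dsimp only
      split_ifs
      exacts [g4 a p v hp (tp h (by omega)), h4 a p v hp (tp h (by omega))]⟩

@[fun_prop] theorem PF.pow {k : α → ℕ} (hP : PF P) (hk : CF k) : PF fun a => P a ^ k a :=
  let ⟨_, g1, g2, f, g3, g4⟩ := hP
  ⟨_, g1.add hk.1, fun a => le_trans (by simpa using N_prod (range (k a)) fun _ => P a)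
    (tw_pow (g2 a) (Nat.lt_size_self _).le), fun x => pm (f x) (k x.1) (x.2.1 - 1 + 1),
    by fun_prop, fun a p v hp h => by
      rw [cast_pm hp, g4 a p v hp (tp h (by omega)), map_pow]⟩

@[fun_prop] theorem PF.sum {s : α → Finset β} {P : α → β → R} (hs : FS s)
    (hP : PF fun x : α × β => P x.1 x.2) : PF fun a => ∑ y ∈ s a, P a y := by
  obtain ⟨b, g1, g2, f, g3, g4⟩ := hP
  obtain ⟨D, h1, h2⟩ := PB.alongF g1 hs
  obtain ⟨c, h3, h4⟩ := hs.2
  refine ⟨_, (h3.add h1).add (PB.const 1), fun a => (N_sum _ _).trans ((sum_le_card_nsmul _ _ _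
    fun y hy => tw (g2 (a, y)) (h2 a y hy)).trans (tw_mul ((card_le_of_sz (h4 a)).trans
      Nat.lt_two_pow_self.le) le_rfl)), fun x => ∑ y ∈ s x.1, f ((x.1, y), x.2), by fun_prop,
    fun a p v hp h => ?_⟩
  rw [Nat.cast_sum, map_sum]
  exact sum_congr rfl fun y hy => g4 (a, y) p v hp (tp h (by have := h2 a y hy; omega))

@[fun_prop] theorem PF.prod {s : α → Finset β} {P : α → β → R} (hs : FS s)
    (hP : PF fun x : α × β => P x.1 x.2) : PF fun a => ∏ y ∈ s a, P a y := by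
  obtain ⟨b, g1, g2, f, g3, g4⟩ := hP
  obtain ⟨D, h1, h2⟩ := PB.alongF g1 hs
  obtain ⟨c, h3, h4⟩ := hs.2
  obtain ⟨g, g5, g6⟩ := CF.prodMod (s := fun x : α × ℕ × Pt => s x.1)
    (f := fun x y => f ((x.1, y), x.2)) (p := fun x => x.2.1) (by fun_prop) (by fun_prop)
    (by fun_prop)
  refine ⟨_, h1.add h3, fun a => (N_prod _ _).trans ((prod_le_pow_card _ _ _
    fun y hy => tw (g2 (a, y)) (h2 a y hy)).trans (tw_pow le_rfl (card_le_of_sz (h4 a)))),
    g, g5, fun a p v hp h => ?_⟩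
  rw [g6 (a, p, v) hp, map_prod]
  exact prod_congr rfl fun y hy => g4 (a, y) p v hp (tp h (by have := h2 a y hy; omega))

@[fun_prop] theorem PF.add (hP : PF P) (hQ : PF Q) : PF fun a => P a + Q a :=
  PF.congr (P := fun a => ∑ i ∈ range 2, if i = 0 then P a else Q a) (by fun_prop)
    fun a => by simp [sum_range_succ]

@[fun_prop] theorem PF.sub (hP : PF P) (hQ : PF Q) : PF fun a => P a - Q a :=
  (hP.add hQ.neg).congr fun _ => sub_eq_add_neg _ _

section Mv

open MvPolynomial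

@[fun_prop] theorem PF.X {i : α → ℕ} (hi : CF i) : PF fun a => (X (i a) : MvPolynomial ℕ R) :=
  ⟨_, PB.const 0, fun a => (NM_monomial _ _).le.trans (by simpa using N_one),
    fun x => vl (x.2.2.headD []) (i x.1), by fun_prop, fun a p v _ _ => by simp [ev_mv]⟩

@[fun_prop] theorem PF.C (hP : PF P) : PF fun a => (C (P a) : MvPolynomial ℕ R) :=
  hP.hom (τ := List.tail) (by fun_prop) N_C fun _ _ _ => by simp [ev_mv]

@[fun_prop] theorem PF.polyC (hP : PF P) : PF fun a => Polynomial.C (P a) :=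
  hP.C.congr (Q := fun a => Polynomial.toMvPolynomial (0 : ℕ) (Polynomial.C (P a))) (by simp)

@[fun_prop] theorem PF.mapInt {F : α → MvPolynomial ℕ ℤ} (hF : PF F) :
    PF fun a => map (Int.castRingHom R) (F a) :=
  hF.hom CF.id (N_map N_int) fun p v x => by
    rw [ev_mv, ev_mv, MvPolynomial.map_map, RingHom.ext_int (RingHom.comp _ _) (ev p v.tail)]

@[fun_prop] theorem PF.mapC {P : α → MvPolynomial ℕ R} (hP : PF P) :
    PF fun a => map Polynomial.C (P a) :=
  hP.hom (τ := fun v => v.headD [] :: v.tail.tail) (by fun_prop)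
    (N_map fun x => (congrArg N (Polynomial.toMvPolynomial_C (0 : ℕ) x)).le.trans (N_C x))
    fun p v x => by
      rw [ev_mv, ev_mv, MvPolynomial.map_map]; congr 3; ext y; simp [ev_uni]

omit [Pts R] [Pts S] in
theorem deg_map (φ : R →+* S) (P : MvPolynomial ℕ R) : (map φ P).totalDegree ≤ P.totalDegree :=
  Finset.sup_mono (support_map_subset φ P)

theorem lt_pred {x b p : ℕ} (h : x ≤ 2 ^ b) (hp : 2 ^ (b + 2) ≤ p) : x < p - 1 := by
  have := Nat.pow_pos (n := b) two_pos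
  rw [pow_add] at hp
  omega

@[fun_prop] theorem PF.pderiv {P : α → MvPolynomial ℕ R} {i : α → ℕ} (hP : PF P) (hi : CF i) :
    PF fun a => pderiv (i a) (P a) := by
  obtain ⟨b, g1, g2, f, g3, g4⟩ := hP
  refine ⟨_, (g1.add g1).add (PB.const 2), fun a => (N_pderiv _ _).trans
    (tw (tw_mul (g2 a) (g2 a)) (by omega)), fun x => (x.2.1 - 1) * ∑ t ∈ Ico 1 x.2.1,
      pm t (x.2.1 - 2) (x.2.1 - 1 + 1) *
        f (x.1, x.2.1, ((i x.1, t) :: x.2.2.headD []) :: x.2.2.tail), by fun_prop,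
    fun a p v hp h => ?_⟩
  have := Fact.mk hp
  have h1 := lt_pred (totalDegree_le_of_N (g2 a)) (tp h (by omega))
  rw [ev_mv, ← pderiv_map, dft_pderiv (lt_of_lt_of_le (by decide) (tp h (show 2 ≤ _ by omega))) _
    ((deg_map _ _).trans_lt h1)]
  simp only [Nat.cast_mul, Nat.cast_sum, cast_pm hp, cast_pred hp.ne_zero, neg_one_mul,
    g4 a p _ hp (tp h (by omega)), ev_mv]
  simp [vl]

/-- The point given by a list of values. -/
def ptv (u : List ℕ) : List (ℕ × ℕ) := (List.range u.length).map fun i => (i, u.getD i 0)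

theorem vl_ptv (u : List ℕ) (j : ℕ) : vl (ptv u) j = u.getD j 0 := by
  rw [vl, ptv, List.map_map, ← List.sum_toFinset _ List.nodup_range, List.toFinset_range]
  simp only [Function.comp_def, sum_ite_eq', mem_range]
  split_ifs with h
  · rfl
  · rw [List.getD_eq_default _ _ (not_lt.1 h)]

@[fun_prop] theorem CF.ptv {u : α → List ℕ} (hu : CF u) : CF fun a => ptv (u a) :=
  CF.un (by unfold P337.ptv; fun_prop) hu

theorem PF.coeffK {P : α → MvPolynomial ℕ R} {n e : α → ℕ} (hP : PF P) (hn : Sm n) (he : CF e) :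
    PF fun a => coeff (Finsupp.equivFunOnFinite.symm fun _ : Fin (n a) => e a)
      (kap (n a) (P a)) := by
  obtain ⟨b, g1, g2, f, g3, g4⟩ := hP
  have := hn.1
  obtain ⟨g, g5, g6⟩ := CF.prodMod (s := fun x : (α × ℕ × Pt) × List ℕ => range (n x.1.1))
    (f := fun x i => pm (x.2.getD i 0) (x.1.2.1 - 1 - e x.1.1) (x.1.2.1 - 1 + 1))
    (p := fun x => x.1.2.1) (by fun_prop) (by fun_prop) (by fun_prop)
  refine ⟨_, (g1.add he.1).add (PB.const 2), fun a => tw (le_trans ?_ (g2 a)) (by omega),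
    fun x => pm (x.2.1 - 1) (n x.1) (x.2.1 - 1 + 1) * ∑ u ∈ vecs (n x.1) (Ico 1 x.2.1),
      g (x, u) * f (x.1, x.2.1, ptv u :: x.2.2), by fun_prop, fun a p v hp h => ?_⟩
  · dsimp only [kap]
    rw [coeff_killCompl]
    exact (Nat.le_mul_of_pos_right _ (by positivity)).trans (N_coeff_mv _ _)
  have := Fact.mk hp
  have h1 := lt_pred (totalDegree_le_of_N (g2 a)) (tp h (by omega))
  rw [← coeff_map, map_kap, dft_mv _ _ _ ((deg_map _ _).trans_lt h1)
    (lt_pred (Nat.lt_size_self _).le (tp h (by rw [← sz_nat]; omega)))]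
  simp only [Nat.cast_mul, Nat.cast_sum, cast_pm hp, cast_pred hp.ne_zero,
    g4 a p _ hp (tp h (by omega)), ev_mv, g6 ((a, p, v), _) hp, List.headD_cons, List.tail_cons,
    vl_ptv]

end Mv

@[fun_prop] theorem PF.coeff {P : α → Polynomial R} {k : α → ℕ} (hP : PF P) (hk : CF k) :
    PF fun a => (P a).coeff (k a) := by
  obtain ⟨b, g1, g2, f, g3, g4⟩ := hP
  refine ⟨_, (g1.add hk.1).add (PB.const 2), fun a => tw ((N_coeff_le _ _).trans (g2 a))
    (by omega), fun x => (x.2.1 - 1) * ∑ t ∈ Ico 1 x.2.1,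
      pm t (x.2.1 - 1 - k x.1) (x.2.1 - 1 + 1) * f (x.1, x.2.1, [(0, t)] :: x.2.2), by fun_prop,
    fun a p v hp h => ?_⟩
  have := Fact.mk hp
  have h1 := lt_pred (natDegree_le_of_N (g2 a)) (tp h (by omega))
  rw [← Polynomial.coeff_map, dft_coeff _ _ (Polynomial.natDegree_map_le.trans_lt h1)
    (lt_pred (Nat.lt_size_self _).le (tp h (by rw [← sz_nat]; omega)))]
  simp only [Nat.cast_mul, Nat.cast_sum, cast_pm hp, cast_pred hp.ne_zero, neg_one_mul,
    g4 a p _ hp (tp h (by omega)), ev_uni]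
  simp [vl]

end Vale.Agent.P337
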