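import Vale.Agent.P337.Defs
import Vale.Agent.Lib.PolyTime.Raw

/-! Polynomial-time functions on bit strings are computed by machines with raw input and output. -/

namespace Vale.Agent.P337

open Vale.Agent.Lib.PolyTime

theorem raw_machine {f : List Bool → List Bool} (hf : PT f) :
    ∃ M : Turing.TM2ComputableInPolyTime id id f, ∀ k, Finite (M.tm.Γ k) :=
  hf.rawMachine id id f fun _ => rfl

theorem polyTime_of_pt {f : List Bool → List Bool} (hf : PT f) : PolyTime f := raw_machine hf

end Vale.Agent.P337
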