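import Vale.Agent.P337.ResAux

/-! Global residues and traces for systems `X i ^ d + g i` with `g i` of degree less than `d`. -/

namespace Vale.Agent.P337

open MvPolynomial Finset

variable {R S : Type} [CommRing R] [CommRing S] {n : ℕ}

/-- the truncated residue -/
noncomputable def lamK (d K : ℕ) (g : Fin n → MvPolynomial (Fin n) R)
    (P : MvPolynomial (Fin n) R) : R :=
  coeff (Finsupp.equivFunOnFinite.symm fun _ => (K + 1) * d - 1)
    (P * ∏ i, ∑ k ∈ range (K + 1), (-g i) ^ k * X i ^ ((K - k) * d))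

/-- the Jacobian determinant -/
noncomputable def jac (d : ℕ) (g : Fin n → MvPolynomial (Fin n) R) : MvPolynomial (Fin n) R :=
  (Matrix.of fun i j => pderiv j (X i ^ d + g i)).det

/-- the trace -/
noncomputable def trc (d : ℕ) (g : Fin n → MvPolynomial (Fin n) R)
    (P : MvPolynomial (Fin n) R) : R :=
  lamK d (P * jac d g).totalDegree g (P * jac d g)

namespace Res

/-- the truncated inverse series -/
noncomputable def SS (d K : ℕ) (g : Fin n → MvPolynomial (Fin n) R) (i : Fin n) :
    MvPolynomial (Fin n) R :=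
  ∑ k ∈ range (K + 1), (-g i) ^ k * X i ^ ((K - k) * d)

theorem lamK_eq (d K : ℕ) (g : Fin n → MvPolynomial (Fin n) R) (P : MvPolynomial (Fin n) R) :
    lamK d K g P = coeff (cst n ((K + 1) * d - 1)) (P * ∏ i, SS d K g i) := rfl

theorem SS_zero (d : ℕ) (g : Fin n → MvPolynomial (Fin n) R) (i : Fin n) : SS d 0 g i = 1 := by
  simp [SS]

theorem SS_succ (d K : ℕ) (g : Fin n → MvPolynomial (Fin n) R) (i : Fin n) :
    SS d (K + 1) g i = X i ^ d * SS d K g i + (-g i) ^ (K + 1) := by
  unfold SS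
  rw [Finset.sum_range_succ, Nat.sub_self, zero_mul, pow_zero, mul_one, Finset.mul_sum]
  congr 1
  refine Finset.sum_congr rfl fun k hk => ?_
  rw [Finset.mem_range] at hk
  have e : (K + 1 - k) * d = d + (K - k) * d := by
    rw [show K + 1 - k = K - k + 1 by omega]; ring
  rw [e, pow_add]
  ring

theorem SS_mul (d K : ℕ) (g : Fin n → MvPolynomial (Fin n) R) (i : Fin n) :
    (X i ^ d + g i) * SS d K g i = X i ^ ((K + 1) * d) - (-g i) ^ (K + 1) := by
  induction K with
  | zero => simp [SS_zero]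
  | succ K ih =>
    rw [SS_succ, show (K + 1 + 1) * d = d + (K + 1) * d by ring, pow_add (X i) d,
      pow_succ (-g i) (K + 1)]
    linear_combination X i ^ d * ih

variable {d : ℕ} {g : Fin n → MvPolynomial (Fin n) R}

theorem dg_g (hg : ∀ i, (g i).totalDegree < d) (i : Fin n) : Dg (g i) ((d : ℤ) - 1) :=
  (Dg.of_total _).mono (by have := hg i; omega)

theorem dg_SS (hg : ∀ i, (g i).totalDegree < d) (K : ℕ) (i : Fin n) :
    Dg (SS d K g i) (K * d) := by
  induction K with
  | zero => rw [SS_zero]; simpa using Dg.one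
  | succ K ih =>
    rw [SS_succ]
    refine Dg.add ((((Dg.X i).pow d).mul ih).mono ?_) (((dg_g hg i).neg.pow (K + 1)).mono ?_)
    · push_cast; linarith
    · push_cast; nlinarith

theorem cst_cast (hg : ∀ i, (g i).totalDegree < d) (K : ℕ) :
    (((cst n ((K + 1) * d - 1)).degree : ℕ) : ℤ) = n * ((K + 1) * d - 1) := by
  rw [cst_degree]
  rcases Nat.eq_zero_or_pos n with h | h
  · simp [h]
  · have h1 : 1 ≤ d := Nat.one_le_of_lt (hg ⟨0, h⟩)
    have h2 : 1 ≤ (K + 1) * d := Nat.mul_pos (Nat.succ_pos K) h1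
    push_cast [Nat.cast_sub h2]
    ring

theorem step (hg : ∀ i, (g i).totalDegree < d) {P : MvPolynomial (Fin n) R} {K : ℕ}
    (hP : Dg P (n * ((d : ℤ) - 1) + K)) : lamK d (K + 1) g P = lamK d K g P := by
  rw [lamK_eq, lamK_eq]
  have h1 := Dg.pert Finset.univ (a := fun i => X i ^ d * SS d K g i)
    (r := fun i => (-g i) ^ (K + 1)) (A := (K + 1) * d) (t := K + 1) (by positivity)
    (fun i => (((Dg.X i).pow d).mul (dg_SS hg K i)).mono (by linarith))
    (fun i => ((dg_g hg i).neg.pow (K + 1)).mono (by push_cast; linarith))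
  rw [Finset.card_univ, Fintype.card_fin] at h1
  have e : P * ∏ i, SS d (K + 1) g i = P * (∏ i, (X i ^ d * SS d K g i + (-g i) ^ (K + 1)) -
      ∏ i, X i ^ d * SS d K g i) + (P * ∏ i, SS d K g i) * monomial (cst n d) 1 := by
    simp only [SS_succ]
    rw [Finset.prod_mul_distrib, prod_X_pow]
    ring
  have e2 : cst n ((K + 1 + 1) * d - 1) = cst n ((K + 1) * d - 1) + cst n d := by
    ext i
    have h1 : 1 ≤ d := Nat.one_le_of_lt (hg i)
    have h2 : 1 ≤ (K + 1) * d := Nat.mul_pos (Nat.succ_pos K) h1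
    rw [Finsupp.add_apply, cst_apply, cst_apply, cst_apply, add_mul (K + 1), one_mul]
    omega
  rw [e, coeff_add, (hP.mul h1).coeff_eq_zero (by rw [cst_cast hg]; push_cast; linarith), zero_add,
    e2, coeff_mul_monomial, mul_one]

theorem stable (hg : ∀ i, (g i).totalDegree < d) {P : MvPolynomial (Fin n) R} {K : ℕ}
    (hP : Dg P (n * ((d : ℤ) - 1) + K)) {K' : ℕ} (h : K ≤ K') : lamK d K' g P = lamK d K g P := by
  induction K', h using Nat.le_induction with
  | base => rfl
  | succ K' h ih =>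
    rw [step hg (hP.mono (by have : (K : ℤ) ≤ K' := by exact_mod_cast h
                             linarith)), ih]

theorem nd_nonneg (hg : ∀ i, (g i).totalDegree < d) : 0 ≤ n * ((d : ℤ) - 1) := by
  rcases Nat.eq_zero_or_pos n with h | h
  · simp [h]
  · have h1 : 1 ≤ d := Nat.one_le_of_lt (hg ⟨0, h⟩)
    have : (1 : ℤ) ≤ d := by exact_mod_cast h1
    exact mul_nonneg (by positivity) (by linarith)

theorem kill (hg : ∀ i, (g i).totalDegree < d) {P : MvPolynomial (Fin n) R} {K : ℕ}
    (hP : Dg P ((K : ℤ) - 1)) (j : Fin n) : lamK d K g (P * (X j ^ d + g j)) = 0 := by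
  have h1 : 1 ≤ d := Nat.one_le_of_lt (hg j)
  have h2 : 1 ≤ (K + 1) * d := Nat.mul_pos (Nat.succ_pos K) h1
  rw [lamK_eq, ← Finset.mul_prod_erase _ _ (Finset.mem_univ j)]
  have e : P * (X j ^ d + g j) * (SS d K g j * ∏ i ∈ Finset.univ.erase j, SS d K g i) =
      (P * ∏ i ∈ Finset.univ.erase j, SS d K g i) * monomial (Finsupp.single j ((K + 1) * d)) 1 -
        P * (-g j) ^ (K + 1) * ∏ i ∈ Finset.univ.erase j, SS d K g i := by
    rw [← X_pow_eq_monomial]
    linear_combination (P * ∏ i ∈ Finset.univ.erase j, SS d K g i) * SS_mul d K g j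
  have h3 := (hP.mul ((dg_g hg j).neg.pow (K + 1))).mul
    (Dg.prod (Finset.univ.erase j) fun i _ => dg_SS hg K i)
  have hn : 1 ≤ n := Fin.pos j
  rw [Finset.card_erase_of_mem (Finset.mem_univ j), Finset.card_univ, Fintype.card_fin,
    Nat.cast_sub hn] at h3
  rw [e, coeff_sub, coeff_mul_monomial', if_neg, h3.coeff_eq_zero, sub_zero]
  · rw [cst_cast hg]
    push_cast
    have h4 : (1 : ℤ) ≤ d := by exact_mod_cast h1
    have h5 : (1 : ℤ) ≤ n := by exact_mod_cast hn
    nlinarith [mul_nonneg (sub_nonneg.2 h4) (sub_nonneg.2 h5)]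
  · rw [Finsupp.single_le_iff, cst_apply]
    omega

end Res

open Res

theorem lamK_stable {d : ℕ} {g : Fin n → MvPolynomial (Fin n) R}
    (hg : ∀ i, (g i).totalDegree < d) (P : MvPolynomial (Fin n) R) {K K' : ℕ}
    (hK : P.totalDegree ≤ K) (hK' : P.totalDegree ≤ K') : lamK d K g P = lamK d K' g P := by
  have h : Dg P (n * ((d : ℤ) - 1) + P.totalDegree) :=
    (Dg.of_total P).mono (by linarith [nd_nonneg hg])
  rw [stable hg h hK, stable hg h hK']

namespace Res

variable {d : ℕ} {g : Fin n → MvPolynomial (Fin n) R}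

theorem lamK_add (K : ℕ) (P Q : MvPolynomial (Fin n) R) :
    lamK d K g (P + Q) = lamK d K g P + lamK d K g Q := by
  rw [lamK_eq, lamK_eq, lamK_eq, add_mul P, coeff_add]

theorem lamK_smul (K : ℕ) (c : R) (P : MvPolynomial (Fin n) R) :
    lamK d K g (c • P) = c * lamK d K g P := by
  rw [lamK_eq, lamK_eq, smul_mul_assoc, coeff_smul, smul_eq_mul]

theorem lamK_map (φ : R →+* S) (K : ℕ) (P : MvPolynomial (Fin n) R) :
    φ (lamK d K g P) = lamK d K (fun i => map φ (g i)) (map φ P) := by
  unfold lamK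
  rw [← coeff_map]
  simp only [map_mul, map_prod, map_sum, map_pow, map_neg, map_X]

/-- the residue -/
noncomputable def Lam (hg : ∀ i, (g i).totalDegree < d) : MvPolynomial (Fin n) R →ₗ[R] R where
  toFun P := lamK d P.totalDegree g P
  map_add' P Q := by
    rw [lamK_stable hg (P + Q) le_rfl (totalDegree_add P Q), lamK_add,
      lamK_stable hg P (le_max_left _ _) le_rfl, lamK_stable hg Q (le_max_right _ _) le_rfl]
  map_smul' c P := by
    rw [lamK_stable hg (c • P) le_rfl (totalDegree_smul_le c P), lamK_smul]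
    rfl

theorem Lam_apply (hg : ∀ i, (g i).totalDegree < d) (P : MvPolynomial (Fin n) R) :
    Lam hg P = lamK d P.totalDegree g P := rfl

theorem Lam_kill (hg : ∀ i, (g i).totalDegree < d) (P : MvPolynomial (Fin n) R) (j : Fin n) :
    Lam hg (P * (X j ^ d + g j)) = 0 := by
  rw [Lam_apply, lamK_stable hg _ le_rfl
    (le_max_left _ (P.totalDegree + 1)), kill hg]
  refine (Dg.of_total P).mono ?_
  have := le_max_right (P * (X j ^ d + g j)).totalDegree (P.totalDegree + 1)
  omega

theorem Lam_top (hg : ∀ i, (g i).totalDegree < d) {P : MvPolynomial (Fin n) R}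
    (hP : Dg P (n * ((d : ℤ) - 1))) : Lam hg P = coeff (cst n (d - 1)) P := by
  rw [Lam_apply, stable hg (K := 0) (by simpa using hP) (Nat.zero_le _), lamK_eq]
  simp [SS_zero]

theorem map_lt (φ : R →+* S) (hg : ∀ i, (g i).totalDegree < d) (i : Fin n) :
    (map φ (g i)).totalDegree < d := (total_map_le φ _).trans_lt (hg i)

theorem Lam_map (φ : R →+* S) (hg : ∀ i, (g i).totalDegree < d) (P : MvPolynomial (Fin n) R) :
    φ (Lam hg P) = Lam (map_lt φ hg) (map φ P) := by
  rw [Lam_apply, Lam_apply, lamK_map]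
  exact lamK_stable (map_lt φ hg) _ (total_map_le φ P) le_rfl

theorem jac_map (φ : R →+* S) : map φ (jac d g) = jac d fun i => map φ (g i) := by
  unfold jac
  rw [RingHom.map_det]
  congr 1
  ext1 i j
  simp only [RingHom.mapMatrix_apply, Matrix.map_apply, Matrix.of_apply, ← pderiv_map, map_add,
    map_pow, map_X]

theorem Lam_det (hg : ∀ i, (g i).totalDegree < d) (c : R)
    (r : Matrix (Fin n) (Fin n) (MvPolynomial (Fin n) R)) (hr : ∀ i j, Dg (r i j) ((d : ℤ) - 2)) :
    Lam hg (Matrix.diagonal (fun i => C c * X i ^ (d - 1)) + r).det = c ^ n := by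
  have h := det_top c (d - 1) r fun i j => (hr i j).mono (by omega)
  rw [Lam_top hg, h.2]
  refine h.1.mono (le_of_eq ?_)
  rcases Nat.eq_zero_or_pos n with h | h
  · simp [h]
  · rw [Nat.cast_sub (Nat.one_le_of_lt (hg ⟨0, h⟩)), Nat.cast_one]

theorem Lam_jac (hg : ∀ i, (g i).totalDegree < d) : Lam hg (jac d g) = (d : R) ^ n := by
  rw [← Lam_det hg (d : R) (Matrix.of fun i j => pderiv j (g i))
    fun i j => ((dg_g hg i).pderiv j).mono (by linarith)]
  unfold jac
  congr 2
  ext1 i j
  rw [Matrix.add_apply, Matrix.of_apply, Matrix.of_apply, map_add, pderiv_pow,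
    Matrix.diagonal_apply, pderiv_X, Pi.single_apply, map_natCast]
  split_ifs <;> simp

/-- the reproducing kernel at a solution -/
theorem kernel (hg : ∀ i, (g i).totalDegree < d) (y : Fin n → R)
    (hy : ∀ i, eval y (X i ^ d + g i) = 0) :
    ∃ D : MvPolynomial (Fin n) R, eval y D = eval y (jac d g) ∧
      ∀ Q, Lam hg (D * Q) = eval y Q := by
  have hQ : ∀ i, ∃ H : Fin n → MvPolynomial (Fin n) R, (∀ j, Dg (H j) ((d : ℤ) - 2)) ∧
      X i ^ d + g i = X i ^ (d - 1) * (X i - C (y i)) + ∑ j, H j * (X j - C (y j)) := by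
    intro i
    have h1 : 1 ≤ d := Nat.one_le_of_lt (hg i)
    have hd : X i ^ d = (X i : MvPolynomial (Fin n) R) ^ (d - 1) * X i := by
      rw [← pow_succ, Nat.sub_add_cancel h1]
    have h2 : Dg (C (y i) * X i ^ (d - 1) + g i) ((d : ℤ) - 1) :=
      (((Dg.C _).mul ((Dg.X i).pow (d - 1))).mono (by omega)).add (dg_g hg i)
    obtain ⟨_, H, h3, h4⟩ := h2.dv y
    have h5 : eval y (C (y i) * X i ^ (d - 1) + g i) = 0 := by
      have := hy i
      rw [hd] at this
      simp only [map_add, map_mul, map_pow, eval_X, eval_C] at this ⊢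
      linear_combination this
    rw [h5, C_0, zero_add] at h4
    refine ⟨H, fun j => (h3 j).mono (by linarith), ?_⟩
    rw [hd]
    linear_combination h4
  choose H hH1 hH2 using hQ
  let Δ : Matrix (Fin n) (Fin n) (MvPolynomial (Fin n) R) :=
    Matrix.diagonal (fun i => C (1 : R) * X i ^ (d - 1)) + Matrix.of H
  have hΔ : ∀ i, X i ^ d + g i = ∑ j, Δ i j * (X j - C (y j)) := by
    intro i
    rw [hH2 i]
    simp only [Δ, Matrix.add_apply, Matrix.of_apply, add_mul, Finset.sum_add_distrib,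
      Matrix.diagonal_apply, ite_mul, zero_mul, Finset.sum_ite_eq, Finset.mem_univ, if_true, C_1,
      one_mul]
  have h1 : Lam hg Δ.det = 1 := by
    rw [Lam_det hg 1 (Matrix.of H) hH1, one_pow]
  have h2 : ∀ j, Δ.det * (X j - C (y j)) = ∑ i, Δ.adjugate j i * (X i ^ d + g i) := by
    intro j
    have h3 : Δ.mulVec (fun j => X j - C (y j)) = fun i => X i ^ d + g i :=
      funext fun i => (hΔ i).symm
    have h4 := congrFun (congrArg Δ.adjugate.mulVec h3) j
    rw [Matrix.mulVec_mulVec, Matrix.adjugate_mul, Matrix.smul_mulVec, Matrix.one_mulVec] at h4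
    exact h4
  refine ⟨Δ.det, ?_, fun Q => ?_⟩
  · unfold jac
    rw [RingHom.map_det, RingHom.map_det]
    congr 1
    ext i j
    simp only [RingHom.mapMatrix_apply, Matrix.map_apply, Matrix.of_apply]
    rw [hΔ i, eval_pderiv_lin]
  · obtain ⟨G, hG⟩ := division y Q
    have e : Δ.det * Q = eval y Q • Δ.det +
        ∑ j, ∑ i, (G j * Δ.adjugate j i) * (X i ^ d + g i) := by
      conv_lhs => rw [hG]
      rw [mul_add, Finset.mul_sum, smul_eq_C_mul, mul_comm]
      congr 1
      refine Finset.sum_congr rfl fun j _ => ?_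
      rw [mul_left_comm, h2, Finset.mul_sum]
      exact Finset.sum_congr rfl fun i _ => by ring
    rw [e, map_add, map_smul, h1, smul_eq_mul, mul_one, map_sum]
    simp only [map_sum, Lam_kill, Finset.sum_const_zero, add_zero]

end Res

theorem trc_map (φ : R →+* S) {d : ℕ} {g : Fin n → MvPolynomial (Fin n) R}
    (hg : ∀ i, (g i).totalDegree < d) (P : MvPolynomial (Fin n) R) :
    φ (trc d g P) = trc d (fun i => map φ (g i)) (map φ P) := by
  have h := Lam_map φ hg (P * jac d g)
  rw [map_mul (map φ), jac_map] at h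
  exact h

/-- the solutions of the system, with multiplicities -/
structure IsSol (d : ℕ) (G : Fin n → MvPolynomial (Fin n) ℂ) (y : Fin (d ^ n) → Fin n → ℂ) :
    Prop where
  tr : ∀ P, trc d G P = ∑ k, eval (y k) P
  all : ∀ z : Fin n → ℂ, (∀ i, z i ^ d + eval z (G i) = 0) → ∃ k, y k = z

theorem Res.tate {d : ℕ} {G : Fin n → MvPolynomial (Fin n) ℂ} (hG : ∀ i, (G i).totalDegree < d)
    {A : Type} [CommRing A] [Algebra ℂ A] (π : MvPolynomial (Fin n) ℂ →ₐ[ℂ] A)
    (hπ : Function.Surjective π) (h0 : ∀ i, π (X i ^ d + G i) = 0)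
    (hker : ∀ P, π P = 0 → Lam hG P = 0) :
    FiniteDimensional ℂ A ∧ ∀ [FiniteDimensional ℂ A] (P : MvPolynomial (Fin n) ℂ),
      LinearMap.trace ℂ A (Algebra.lmul ℂ A (π P)) = trc d G P := by
  have hev : ∀ P, eval (fun i => π (X i)) (map (algebraMap ℂ A) P) = π P := by
    intro P
    rw [eval_map, ← aeval_def]
    exact (DFunLike.congr_fun (aeval_unique π) P).symm
  obtain ⟨D, hD1, hD2⟩ := kernel (map_lt (algebraMap ℂ A) hG) (fun i => π (X i)) fun i => by
    rw [← h0 i, ← hev]; simp only [map_add, map_pow, map_X]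
  rw [← jac_map, hev] at hD1
  obtain ⟨s, hs⟩ := π.toLinearMap.exists_rightInverse_of_surjective (LinearMap.range_eq_top.2 hπ)
  have hs' : ∀ x, π (s x) = x := fun x => LinearMap.congr_fun hs x
  let L : A →ₗ[ℂ] ℂ := Lam hG ∘ₗ s
  have hL : ∀ P, L (π P) = Lam hG P := by
    intro P
    have := hker (s (π P) - P) (by rw [map_sub, hs', sub_self])
    rw [map_sub, sub_eq_zero] at this
    exact this
  have hrep : ∀ x : A, x = ∑ e ∈ D.support, L (π (monomial e 1) * x) • coeff e D := by
    intro x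
    obtain ⟨P, rfl⟩ := hπ x
    have h1 := hD2 (map (algebraMap ℂ A) P)
    rw [hev] at h1
    conv_lhs => rw [← h1, D.as_sum]
    rw [Finset.sum_mul, map_sum]
    refine Finset.sum_congr rfl fun e _ => ?_
    have e1 : monomial e (coeff e D) * map (algebraMap ℂ A) P =
        coeff e D • map (algebraMap ℂ A) (monomial e 1 * P) := by
      rw [map_mul, map_monomial, map_one, smul_eq_C_mul, ← mul_assoc, C_mul_monomial, mul_one]
    rw [e1, map_smul, ← Lam_map, ← map_mul, hL, smul_eq_mul, Algebra.smul_def, mul_comm]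
  constructor
  · classical
    refine ⟨⟨D.support.image fun e => coeff e D, ?_⟩⟩
    rw [eq_top_iff]
    intro x _
    rw [hrep x]
    refine Submodule.sum_mem _ fun e he => Submodule.smul_mem _ _ (Submodule.subset_span ?_)
    exact Finset.mem_coe.2 (Finset.mem_image_of_mem _ he)
  · intro _ P
    have e1 : Algebra.lmul ℂ A (π P) = ∑ e ∈ D.support,
        (L ∘ₗ Algebra.lmul ℂ A (π (monomial e 1) * π P)).smulRight (coeff e D) := by
      ext x
      rw [LinearMap.sum_apply]
      refine (hrep (π P * x)).trans (Finset.sum_congr rfl fun e _ => ?_)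
      rw [← mul_assoc]
      rfl
    have e2 : ∑ e ∈ D.support, π (monomial e 1) * π P * coeff e D = π (P * jac d G) := by
      rw [map_mul, ← hD1]
      conv_rhs => rw [D.as_sum]
      rw [map_sum, Finset.mul_sum]
      refine Finset.sum_congr rfl fun e _ => ?_
      rw [← hev (monomial e 1), map_monomial, map_one, eval_monomial, eval_monomial]
      ring
    rw [e1, map_sum]
    simp only [LinearMap.trace_smulRight]
    change ∑ e ∈ D.support, L (π (monomial e 1) * π P * coeff e D) = _
    rw [← map_sum, e2, hL]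
    rfl

theorem exists_sol {d : ℕ} {G : Fin n → MvPolynomial (Fin n) ℂ}
    (hG : ∀ i, (G i).totalDegree < d) : ∃ y, IsSol d G y := by
  let I : Ideal (MvPolynomial (Fin n) ℂ) := Ideal.span (Set.range fun i => X i ^ d + G i)
  let π := Ideal.Quotient.mkₐ ℂ I
  have hker : ∀ P, π P = 0 → Lam hG P = 0 := by
    intro P hP
    obtain ⟨c, rfl⟩ := Ideal.mem_span_range_iff_exists_fun.1 (Ideal.Quotient.eq_zero_iff_mem.1 hP)
    simp only [map_sum, Lam_kill, Finset.sum_const_zero]
  obtain ⟨hfin, htr⟩ := tate hG π (Ideal.Quotient.mkₐ_surjective ℂ I)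
    (fun i => Ideal.Quotient.eq_zero_iff_mem.2 (Ideal.subset_span ⟨i, rfl⟩)) hker
  obtain ⟨ι, _, y, h1, h2⟩ := points π
  have hcard : Fintype.card ι = d ^ n := by
    have h3 := (htr 1).symm.trans (h1 1)
    have h4 : trc d G 1 = (d : ℂ) ^ n := by
      rw [← Lam_jac hG, trc, one_mul]; rfl
    rw [h4] at h3
    simp only [map_one, Finset.sum_const, Finset.card_univ, nsmul_eq_mul, mul_one] at h3
    exact_mod_cast h3.symm
  let σ := (Fintype.equivFinOfCardEq hcard).symm
  refine ⟨fun k => y (σ k), fun P => ?_, fun z hz => ?_⟩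
  · rw [← htr, h1]
    exact (Equiv.sum_comp σ fun k => eval (y k) P).symm
  · have hI : ∀ P ∈ I, aeval z P = 0 := by
      intro P hP
      obtain ⟨c, rfl⟩ := Ideal.mem_span_range_iff_exists_fun.1 hP
      have : ∀ i, aeval z (X i ^ d + G i) = 0 := fun i => by
        rw [map_add, map_pow, aeval_X]; exact hz i
      simp only [map_sum, map_mul, this, mul_zero, Finset.sum_const_zero]
    obtain ⟨k, hk⟩ := h2 z (Ideal.Quotient.liftₐ I (aeval z) hI) fun i => aeval_X z i
    exact ⟨σ.symm k, by rw [Equiv.apply_symm_apply, hk]⟩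

theorem IsSol.conj {d : ℕ} {G : Fin n → MvPolynomial (Fin n) ℂ} {y : Fin (d ^ n) → Fin n → ℂ}
    (h : IsSol d G y) (hG : ∀ i, (G i).totalDegree < d)
    (hr : ∀ i, map (starRingEnd ℂ) (G i) = G i) (F : (Fin n → ℂ) → ℝ) :
    ∑ k, F (fun i => starRingEnd ℂ (y k i)) = ∑ k, F (y k) := by
  classical
  obtain ⟨P, hP⟩ := interp (Finset.univ.image y ∪
    Finset.univ.image fun k => fun i => starRingEnd ℂ (y k i)) fun z => (F z : ℂ)
  have h1 := trc_map (starRingEnd ℂ) hG (map (starRingEnd ℂ) P)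
  have h2 : map (starRingEnd ℂ) (map (starRingEnd ℂ) P) = P := by
    ext e
    rw [coeff_map, coeff_map, Complex.conj_conj]
  rw [funext hr, h.tr, h.tr, map_sum] at h1
  simp only [map_eval, h2] at h1
  have h3 : ((∑ k, F (fun i => starRingEnd ℂ (y k i)) : ℝ) : ℂ) = ((∑ k, F (y k) : ℝ) : ℂ) := by
    push_cast
    calc ∑ k, (F (fun i => starRingEnd ℂ (y k i)) : ℂ)
        = ∑ k, eval (starRingEnd ℂ ∘ y k) P :=
          Finset.sum_congr rfl fun k _ => (hP _ (Finset.mem_union_right _
            (Finset.mem_image_of_mem _ (Finset.mem_univ k)))).symm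
      _ = ∑ k, eval (y k) P := h1
      _ = _ := Finset.sum_congr rfl fun k _ => hP _ (Finset.mem_union_left _
            (Finset.mem_image_of_mem _ (Finset.mem_univ k)))
  exact_mod_cast h3

end Vale.Agent.P337
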