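import Mathlib

/-! Degree bookkeeping, division by linear forms and simultaneous eigenspaces. -/

namespace Vale.Agent.P337.Res

open MvPolynomial Finset

variable {R : Type} [CommRing R] {n : ℕ}

/-- all monomials of `P` have degree at most `m` -/
def Dg (P : MvPolynomial (Fin n) R) (m : ℤ) : Prop :=
  ∀ e, coeff e P ≠ 0 → ((e.degree : ℕ) : ℤ) ≤ m

theorem Dg.mono {P : MvPolynomial (Fin n) R} {m m' : ℤ} (h : Dg P m) (hm : m ≤ m') : Dg P m' :=
  fun e he => (h e he).trans hm

theorem Dg.zero (m : ℤ) : Dg (0 : MvPolynomial (Fin n) R) m := fun e he => absurd (coeff_zero e) he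

theorem Dg.add {P Q : MvPolynomial (Fin n) R} {m : ℤ} (h : Dg P m) (h' : Dg Q m) :
    Dg (P + Q) m := by
  intro e he
  rw [coeff_add] at he
  by_cases h1 : coeff e P = 0
  · exact h' e fun h2 => he (by rw [h1, h2, add_zero])
  · exact h e h1

theorem Dg.neg {P : MvPolynomial (Fin n) R} {m : ℤ} (h : Dg P m) : Dg (-P) m :=
  fun e he => h e fun h2 => he (by rw [coeff_neg, h2, neg_zero])

theorem Dg.mul {P Q : MvPolynomial (Fin n) R} {m m' : ℤ} (h : Dg P m) (h' : Dg Q m') :
    Dg (P * Q) (m + m') := by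
  intro e he
  rw [coeff_mul] at he
  obtain ⟨⟨a, b⟩, hab, hne⟩ := Finset.exists_ne_zero_of_sum_ne_zero he
  rw [Finset.HasAntidiagonal.mem_antidiagonal] at hab
  have h1 := h a (left_ne_zero_of_mul hne)
  have h2 := h' b (right_ne_zero_of_mul hne)
  have hab' : a + b = e := hab
  rw [← hab', map_add]
  push_cast
  exact add_le_add h1 h2

theorem Dg.monomial (e : Fin n →₀ ℕ) (a : R) : Dg (monomial e a) (e.degree : ℕ) := by
  intro e' he
  rw [coeff_monomial] at he
  split_ifs at he with h
  · rw [h]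
  · exact absurd rfl he

theorem Dg.C (a : R) : Dg (C a : MvPolynomial (Fin n) R) 0 := by
  simpa using Dg.monomial (0 : Fin n →₀ ℕ) a

theorem Dg.one : Dg (1 : MvPolynomial (Fin n) R) 0 := Dg.C 1

theorem Dg.X (i : Fin n) : Dg (X i : MvPolynomial (Fin n) R) 1 := by
  have h := Dg.monomial (Finsupp.single i 1) (1 : R)
  rw [Finsupp.degree_single] at h
  exact h

theorem Dg.pow {P : MvPolynomial (Fin n) R} {m : ℤ} (h : Dg P m) (k : ℕ) : Dg (P ^ k) (k * m) := by
  induction k with
  | zero => simpa using Dg.one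
  | succ k ih => rw [pow_succ]; exact (ih.mul h).mono (by push_cast; linarith)

theorem Dg.sum {ι : Type} (s : Finset ι) {P : ι → MvPolynomial (Fin n) R} {m : ℤ}
    (h : ∀ i ∈ s, Dg (P i) m) : Dg (∑ i ∈ s, P i) m :=
  Finset.sum_induction _ (fun Q => Dg Q m) (fun _ _ => Dg.add) (Dg.zero m) h

theorem Dg.prod {ι : Type} (s : Finset ι) {P : ι → MvPolynomial (Fin n) R} {m : ℤ}
    (h : ∀ i ∈ s, Dg (P i) m) : Dg (∏ i ∈ s, P i) (s.card * m) := by
  classical
  induction s using Finset.induction_on with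
  | empty => simpa using Dg.one
  | insert j s hj ih =>
    rw [Finset.prod_insert hj, Finset.card_insert_of_notMem hj]
    exact ((h j (Finset.mem_insert_self _ _)).mul
      (ih fun i hi => h i (Finset.mem_insert_of_mem hi))).mono (by push_cast; linarith)

theorem Dg.pert {ι : Type} (s : Finset ι) {a r : ι → MvPolynomial (Fin n) R} {A t : ℤ}
    (ht : 0 ≤ t) (ha : ∀ i, Dg (a i) A) (hr : ∀ i, Dg (r i) (A - t)) :
    Dg (∏ i ∈ s, (a i + r i) - ∏ i ∈ s, a i) (s.card * A - t) := by
  classical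
  induction s using Finset.induction_on with
  | empty => simpa using Dg.zero _
  | insert j s hj ih =>
    rw [Finset.prod_insert hj, Finset.prod_insert hj, Finset.card_insert_of_notMem hj]
    have e : (a j + r j) * ∏ i ∈ s, (a i + r i) - a j * ∏ i ∈ s, a i =
        (a j + r j) * (∏ i ∈ s, (a i + r i) - ∏ i ∈ s, a i) + r j * ∏ i ∈ s, a i := by ring
    rw [e]
    refine Dg.add ((((ha j).add ((hr j).mono (by linarith))).mul ih).mono ?_)
      (((hr j).mul (Dg.prod s fun i _ => ha i)).mono ?_) <;> push_cast <;> linarith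

theorem Dg.of_total (P : MvPolynomial (Fin n) R) : Dg P P.totalDegree := by
  intro e he
  exact_mod_cast le_totalDegree (mem_support_iff.2 he)

theorem Dg.coeff_eq_zero {P : MvPolynomial (Fin n) R} {m : ℤ} (h : Dg P m) {e : Fin n →₀ ℕ}
    (he : m < (e.degree : ℕ)) : coeff e P = 0 := by
  by_contra h1
  exact absurd (h e h1) (not_le.2 he)

theorem Dg.pderiv {P : MvPolynomial (Fin n) R} {m : ℤ} (h : Dg P m) (j : Fin n) :
    Dg (pderiv j P) (m - 1) := by
  intro e he
  rw [coeff_pderiv] at he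
  have := h _ (left_ne_zero_of_mul he)
  rw [map_add, Finsupp.degree_single] at this
  push_cast at this
  linarith

theorem Dg.map {S : Type} [CommRing S] (φ : R →+* S) {P : MvPolynomial (Fin n) R} {m : ℤ}
    (h : Dg P m) : Dg (map φ P) m :=
  fun e he => h e fun h2 => he (by rw [coeff_map, h2, map_zero])

theorem total_map_le {S : Type} [CommRing S] (φ : R →+* S) (P : MvPolynomial (Fin n) R) :
    (map φ P).totalDegree ≤ P.totalDegree :=
  Finset.sup_mono (support_map_subset φ P)

/-- the constant exponent -/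
noncomputable def cst (n c : ℕ) : Fin n →₀ ℕ := Finsupp.equivFunOnFinite.symm fun _ => c

theorem cst_apply (c : ℕ) (i : Fin n) : cst n c i = c := rfl

theorem cst_degree (c : ℕ) : (cst n c).degree = n * c := by
  rw [Finsupp.degree_eq_sum]; simp [cst_apply]

theorem prod_X_pow (c : ℕ) : ∏ i, (X i : MvPolynomial (Fin n) R) ^ c = monomial (cst n c) 1 := by
  rw [monomial_eq, C_1, one_mul, Finsupp.prod_fintype _ _ fun _ => pow_zero _]
  rfl

/-- the top coefficient of a determinant -/
theorem det_top (c : R) (A : ℕ) (r : Matrix (Fin n) (Fin n) (MvPolynomial (Fin n) R))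
    (hr : ∀ i j, Dg (r i j) (A - 1)) :
    Dg (Matrix.diagonal (fun i => C c * X i ^ A) + r).det (n * A) ∧
      coeff (cst n A) (Matrix.diagonal (fun i => C c * X i ^ A) + r).det = c ^ n := by
  set D : Matrix (Fin n) (Fin n) (MvPolynomial (Fin n) R) :=
    Matrix.diagonal (fun i => C c * X i ^ A) with hD
  have ha : ∀ i j, Dg (D i j) A := by
    intro i j
    rw [hD, Matrix.diagonal_apply]
    split_ifs
    · exact ((Dg.C c).mul ((Dg.X i).pow A)).mono (by linarith)
    · exact Dg.zero _
  have hdiff : Dg ((D + r).det - D.det) (n * A - 1) := by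
    rw [Matrix.det_apply', Matrix.det_apply', ← Finset.sum_sub_distrib]
    refine Dg.sum _ fun σ _ => ?_
    rw [← mul_sub]
    have h1 := Dg.pert Finset.univ (a := fun i => D (σ i) i) (r := fun i => r (σ i) i)
      zero_le_one (fun i => ha _ _) (fun i => hr _ _)
    rw [Finset.card_univ, Fintype.card_fin] at h1
    have h2 : Dg ((((Equiv.Perm.sign σ : ℤˣ) : ℤ) : MvPolynomial (Fin n) R)) 0 := by
      rw [← map_intCast (C : R →+* MvPolynomial (Fin n) R)]; exact Dg.C _
    exact (h2.mul h1).mono (by linarith)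
  have hdet : D.det = monomial (cst n A) (c ^ n) := by
    rw [hD, Matrix.det_diagonal, Finset.prod_mul_distrib, prod_X_pow, Finset.prod_const,
      Finset.card_univ, Fintype.card_fin, ← C_pow, C_mul_monomial, mul_one]
  have e : (D + r).det = ((D + r).det - D.det) + D.det := by ring
  constructor
  · rw [e]
    refine (hdiff.mono (by linarith)).add ?_
    rw [hdet]
    exact (Dg.monomial _ _).mono (by rw [cst_degree]; push_cast; exact le_rfl)
  · rw [e, coeff_add, hdiff.coeff_eq_zero (by rw [cst_degree]; push_cast; linarith), hdet,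
      coeff_monomial, if_pos rfl, zero_add]

/-- division by the linear forms vanishing at `y` -/
def Dv (y : Fin n → R) (Q : MvPolynomial (Fin n) R) (m : ℤ) : Prop :=
  Dg Q m ∧ ∃ H : Fin n → MvPolynomial (Fin n) R, (∀ j, Dg (H j) (m - 1)) ∧
    Q = C (eval y Q) + ∑ j, H j * (X j - C (y j))

theorem Dv.C (y : Fin n → R) (a : R) : Dv y (C a) 0 :=
  ⟨Dg.C a, fun _ => 0, fun _ => Dg.zero _, by simp⟩

theorem Dv.X (y : Fin n → R) (i : Fin n) : Dv y (X i) 1 := by
  refine ⟨Dg.X i, fun j => if j = i then 1 else 0, fun j => ?_, by simp⟩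
  beta_reduce
  split_ifs
  · simpa using Dg.one
  · exact Dg.zero _

theorem Dv.mul {y : Fin n → R} {P Q : MvPolynomial (Fin n) R} {m m' : ℤ} (hm : 0 ≤ m)
    (h : Dv y P m) (h' : Dv y Q m') : Dv y (P * Q) (m + m') := by
  obtain ⟨h1, H, h2, h3⟩ := h
  obtain ⟨h1', H', h2', h3'⟩ := h'
  refine ⟨h1.mul h1', fun j => H j * Q + MvPolynomial.C (eval y P) * H' j, fun j => ?_, ?_⟩
  · exact (((h2 j).mul h1').mono (by linarith)).add (((Dg.C _).mul (h2' j)).mono (by linarith))
  · have e : ∑ j, (H j * Q + MvPolynomial.C (eval y P) * H' j) * (MvPolynomial.X j -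
        MvPolynomial.C (y j)) = (∑ j, H j * (MvPolynomial.X j - MvPolynomial.C (y j))) * Q +
          MvPolynomial.C (eval y P) * ∑ j, H' j * (MvPolynomial.X j - MvPolynomial.C (y j)) := by
      rw [Finset.sum_mul, Finset.mul_sum, ← Finset.sum_add_distrib]
      exact Finset.sum_congr rfl fun j _ => by ring
    rw [e, map_mul, map_mul]
    linear_combination Q * h3 + MvPolynomial.C (eval y P) * h3'

theorem Dv.mono {y : Fin n → R} {P : MvPolynomial (Fin n) R} {m m' : ℤ} (h : Dv y P m)
    (hm : m ≤ m') : Dv y P m' := by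
  obtain ⟨h1, H, h2, h3⟩ := h
  exact ⟨h1.mono hm, H, fun j => (h2 j).mono (by linarith), h3⟩

theorem Dv.add {y : Fin n → R} {P Q : MvPolynomial (Fin n) R} {m : ℤ} (h : Dv y P m)
    (h' : Dv y Q m) : Dv y (P + Q) m := by
  obtain ⟨h1, H, h2, h3⟩ := h
  obtain ⟨h1', H', h2', h3'⟩ := h'
  refine ⟨h1.add h1', fun j => H j + H' j, fun j => (h2 j).add (h2' j), ?_⟩
  simp only [add_mul, Finset.sum_add_distrib, map_add]
  linear_combination h3 + h3'

theorem Dv.zero (y : Fin n → R) (m : ℤ) : Dv y 0 m :=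
  ⟨Dg.zero _, fun _ => 0, fun _ => Dg.zero _, by simp⟩

theorem Dv.X_pow (y : Fin n → R) (i : Fin n) (k : ℕ) : Dv y (MvPolynomial.X i ^ k) k := by
  induction k with
  | zero => simpa using Dv.C y 1
  | succ k ih => rw [pow_succ]; exact (ih.mul (by positivity) (Dv.X y i)).mono (by push_cast; rfl)

theorem Dv.monomial (y : Fin n → R) (e : Fin n →₀ ℕ) (a : R) :
    Dv y (monomial e a) (e.degree : ℕ) := by
  have h : ∀ s : Finset (Fin n), Dv y (∏ i ∈ s, MvPolynomial.X i ^ e i) ((∑ i ∈ s, e i : ℕ) : ℤ) := by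
    intro s
    induction s using Finset.induction_on with
    | empty => simpa using Dv.C y 1
    | insert j s hj ih =>
      rw [Finset.prod_insert hj, Finset.sum_insert hj]
      exact ((Dv.X_pow y j (e j)).mul (by positivity) ih).mono (by push_cast; rfl)
  rw [monomial_eq, Finsupp.prod_fintype _ _ fun _ => pow_zero _, Finsupp.degree_eq_sum]
  exact ((Dv.C y a).mul le_rfl (h _)).mono (by rw [zero_add])

theorem Dg.dv (y : Fin n → R) {Q : MvPolynomial (Fin n) R} {m : ℤ} (h : Dg Q m) : Dv y Q m := by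
  rw [Q.as_sum]
  refine Finset.sum_induction _ (fun P => Dv y P m) (fun _ _ => Dv.add) (Dv.zero y m) ?_
  intro e he
  exact (Dv.monomial y e _).mono (h e (mem_support_iff.1 he))

theorem division (y : Fin n → R) (Q : MvPolynomial (Fin n) R) :
    ∃ H : Fin n → MvPolynomial (Fin n) R, Q = C (eval y Q) + ∑ j, H j * (X j - C (y j)) := by
  obtain ⟨_, H, _, h⟩ := (Dg.of_total Q).dv y
  exact ⟨H, h⟩

theorem eval_pderiv_lin (y : Fin n → R) (H : Fin n → MvPolynomial (Fin n) R) (j : Fin n) :
    eval y (pderiv j (∑ k, H k * (X k - C (y k)))) = eval y (H j) := by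
  rw [map_sum, map_sum, Finset.sum_eq_single j]
  · simp
  · intro k _ hk
    simp [pderiv_X, hk.symm]
  · simp

/-- interpolation on a finite set -/
theorem interp (Z : Finset (Fin n → ℂ)) (F : (Fin n → ℂ) → ℂ) :
    ∃ P : MvPolynomial (Fin n) ℂ, ∀ z ∈ Z, eval z P = F z := by
  classical
  have h : ∀ z w : Fin n → ℂ, ∃ L : MvPolynomial (Fin n) ℂ, eval z L = 1 ∧
      (w ≠ z → eval w L = 0) := by
    intro z w
    by_cases hw : w = z
    · exact ⟨1, by simp, fun h => absurd hw h⟩
    · obtain ⟨i, hi⟩ := Function.ne_iff.1 hw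
      have : z i - w i ≠ 0 := sub_ne_zero.2 hi.symm
      refine ⟨C (z i - w i)⁻¹ * (X i - C (w i)), ?_, fun _ => by simp⟩
      simp [inv_mul_cancel₀ this]
  choose L hL1 hL0 using h
  refine ⟨∑ z ∈ Z, C (F z) * ∏ w ∈ Z, L z w, fun z hz => ?_⟩
  rw [map_sum, Finset.sum_eq_single z]
  · simp [hL1]
  · intro w _ hw
    rw [map_mul, map_prod, Finset.prod_eq_zero hz (hL0 w z hw.symm), mul_zero]
  · intro h; exact absurd hz h

/-- the points of a finite dimensional algebra, with multiplicities -/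
theorem points {A : Type} [CommRing A] [Algebra ℂ A] [FiniteDimensional ℂ A]
    (π : MvPolynomial (Fin n) ℂ →ₐ[ℂ] A) :
    ∃ (ι : Type) (_ : Fintype ι) (y : ι → Fin n → ℂ),
      (∀ P, LinearMap.trace ℂ A (Algebra.lmul ℂ A (π P)) = ∑ k, eval (y k) P) ∧
      ∀ (z : Fin n → ℂ) (ev : A →ₐ[ℂ] ℂ), (∀ i, ev (π (X i)) = z i) → ∃ k, y k = z := by
  classical
  let T : Fin n → Module.End ℂ A := fun i => Algebra.lmul ℂ A (π (X i))
  let E : (Fin n → ℂ) → Submodule ℂ A := fun χ => ⨅ i, (T i).maxGenEigenspace (χ i)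
  have hmem : ∀ χ x, x ∈ E χ ↔ ∀ i, ∃ k : ℕ, π (X i - C (χ i)) ^ k * x = 0 := by
    intro χ x
    simp only [E, Submodule.mem_iInf, Module.End.mem_maxGenEigenspace]
    refine forall_congr' fun i => exists_congr fun k => ?_
    have e : T i - χ i • 1 = Algebra.lmul ℂ A (π (X i - C (χ i))) := by
      rw [map_sub, map_sub, ← algebraMap_eq, AlgHom.commutes, AlgHom.commutes,
        Algebra.algebraMap_eq_smul_one]
    rw [e, ← map_pow]
    rfl
  have hmaps : ∀ (a : A) χ, Set.MapsTo (Algebra.lmul ℂ A a) (E χ) (E χ) := by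
    intro a χ x hx
    rw [SetLike.mem_coe, hmem] at hx ⊢
    intro i
    obtain ⟨k, hk⟩ := hx i
    refine ⟨k, ?_⟩
    change _ * (a * x) = 0
    rw [mul_left_comm, hk, mul_zero]
  have hcomm : ∀ i j, Commute (T i) (T j) := fun i j => (Commute.all _ _).map (Algebra.lmul ℂ A)
  have htop : ⨆ χ, E χ = ⊤ :=
    Module.End.iSup_iInf_maxGenEigenspace_eq_top_of_iSup_maxGenEigenspace_eq_top_of_commute T
      (fun i j _ => hcomm i j) fun i => Module.End.iSup_maxGenEigenspace_eq_top _
  have hind : iSupIndep E :=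
    Module.End.independent_iInf_maxGenEigenspace_of_forall_mapsTo T fun i j φ =>
      Module.End.mapsTo_maxGenEigenspace_of_comm (hcomm j i) φ
  have hint := DirectSum.isInternal_submodule_of_iSupIndep_of_iSup_eq_top hind htop
  have hfin : {χ | E χ ≠ ⊥}.Finite := WellFoundedGT.finite_ne_bot_of_iSupIndep hind
  have htr : ∀ P χ, LinearMap.trace ℂ (E χ) ((Algebra.lmul ℂ A (π P)).restrict (hmaps _ χ)) =
      Module.finrank ℂ (E χ) * eval χ P := by
    intro P χ
    have hnil : IsNilpotent ((Algebra.lmul ℂ A (π (P - C (eval χ P)))).restrict (hmaps _ χ)) := by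
      rw [Module.End.isNilpotent_iff_of_finite]
      rintro ⟨x, hx⟩
      have hx' := (hmem χ x).1 hx
      let I : Ideal A := LinearMap.ker (LinearMap.toSpanSingleton A A x)
      have hrad : π (P - C (eval χ P)) ∈ I.radical := by
        obtain ⟨H, hH⟩ := division χ P
        rw [sub_eq_iff_eq_add'.2 hH, map_sum]
        refine Ideal.sum_mem _ fun j _ => ?_
        rw [map_mul]
        exact Ideal.mul_mem_left _ _ (hx' j)
      obtain ⟨k, hk⟩ := hrad
      refine ⟨k, Subtype.ext ?_⟩
      have hpow : ∀ (a : A) (m : ℕ), ((((Algebra.lmul ℂ A a).restrict (hmaps a χ)) ^ m) ⟨x, hx⟩ :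
          E χ).1 = a ^ m * x := by
        intro a m
        induction m with
        | zero => simp
        | succ m ih =>
          rw [pow_succ', Module.End.mul_apply, pow_succ', mul_assoc, ← ih]
          rfl
      rw [hpow]
      exact hk
    have e : (Algebra.lmul ℂ A (π P)).restrict (hmaps _ χ) =
        (Algebra.lmul ℂ A (π (P - C (eval χ P)))).restrict (hmaps _ χ) + eval χ P • 1 := by
      ext x
      simp only [LinearMap.add_apply, LinearMap.smul_apply,
        Module.End.one_apply, Submodule.coe_add, Submodule.coe_smul]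
      change π P * x = π (P - C (eval χ P)) * x + _
      rw [map_sub, ← algebraMap_eq, AlgHom.commutes, Algebra.smul_def]
      ring
    rw [e, map_add, (LinearMap.isNilpotent_trace_of_isNilpotent hnil).eq_zero, zero_add, map_smul,
      LinearMap.trace_one, smul_eq_mul, mul_comm]
  refine ⟨Σ χ : hfin.toFinset, Fin (Module.finrank ℂ (E χ)), inferInstance, fun k => k.1, ?_, ?_⟩
  · intro P
    rw [LinearMap.trace_eq_sum_trace_restrict' hint hfin (hmaps (π P)), Fintype.sum_sigma,
      ← Finset.sum_coe_sort]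
    refine Finset.sum_congr rfl fun χ _ => ?_
    rw [htr]
    simp
  · intro z ev hev
    have hz : E z ≠ ⊥ := by
      intro hz
      have hle : ⨆ χ, E χ ≤ LinearMap.ker ev.toLinearMap := by
        refine iSup_le fun χ => ?_
        by_cases hχ : χ = z
        · rw [hχ, hz]; exact bot_le
        · intro x hx
          obtain ⟨i, hi⟩ := Function.ne_iff.1 hχ
          obtain ⟨k, hk⟩ := (hmem χ x).1 hx i
          have h1 := congrArg ev hk
          rw [map_mul, map_pow, map_sub, map_sub, hev, ← algebraMap_eq, AlgHom.commutes,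
            AlgHom.commutes, map_zero] at h1
          exact (mul_eq_zero.1 h1).resolve_left (pow_ne_zero _ (sub_ne_zero.2 hi.symm))
      rw [htop] at hle
      have h1 : ev 1 = 0 := hle (Submodule.mem_top (x := (1 : A)))
      simp at h1
    have hpos : 0 < Module.finrank ℂ (E z) := Submodule.one_le_finrank_iff.2 hz
    exact ⟨⟨⟨z, hfin.mem_toFinset.2 hz⟩, ⟨0, hpos⟩⟩, rfl⟩

end Vale.Agent.P337.Res
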