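import Vale.Agent.P337.Base

namespace Vale.Agent.P337

open Finset

namespace Sep

theorem union_bound {α : Type} (Δ : Multiset α) (P : α → ℕ → Prop) (s : Finset ℕ) (k : ℕ)
    (h : ∀ δ ∈ Δ, ∃ B : Finset ℕ, B.card ≤ k ∧ ∀ τ ∈ s, ¬ P δ τ → τ ∈ B) (S : Finset ℕ)
    (hS : ∀ τ ∈ S, τ ∈ s ∧ ¬ ∀ δ ∈ Δ, P δ τ) : S.card ≤ k * Δ.card := by
  classical
  induction Δ using Multiset.induction_on generalizing S with
  | empty => rw [eq_empty_of_forall_notMem fun τ hτ => (hS τ hτ).2 (by simp)]; simp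
  | cons a Δ ih =>
    obtain ⟨B, h1, h2⟩ := h a (Multiset.mem_cons_self _ _)
    have h3 := ih (fun δ hδ => h δ (Multiset.mem_cons_of_mem hδ)) (S \ B) fun τ hτ => by
      obtain ⟨t1, t2⟩ := mem_sdiff.1 hτ
      refine ⟨(hS τ t1).1, fun h => (hS τ t1).2 (Multiset.forall_mem_cons.2 ⟨?_, h⟩)⟩
      by_contra h'
      exact t2 (h2 τ (hS τ t1).1 h')
    have := le_card_sdiff B S
    rw [Multiset.card_cons, mul_add, mul_one]
    omega

theorem one_bad (a b : ℝ) (T : ℕ) :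
    ((range T).filter fun τ : ℕ => (2 * T + 3) * |a - τ * b| < |a| + |b|).card ≤ 1 := by
  rw [card_le_one]
  intro s hs t ht
  by_contra hst
  obtain ⟨s1, s2⟩ := mem_filter.1 hs
  obtain ⟨-, t2⟩ := mem_filter.1 ht
  have s3 : (s : ℝ) ≤ T := by exact_mod_cast (mem_range.1 s1).le
  have s0 : (0 : ℝ) ≤ s := by positivity
  have h1 : (1 : ℝ) ≤ |(s : ℝ) - t| := by
    have : (1 : ℤ) ≤ |(s : ℤ) - t| := Int.one_le_abs (by omega)
    exact_mod_cast this
  have h2 : |b| ≤ |a - s * b| + |a - t * b| := by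
    have e : (a - t * b) - (a - s * b) = (s - t) * b := by ring
    have := abs_sub (a - t * b) (a - s * b)
    rw [e, abs_mul] at this
    nlinarith [abs_nonneg b]
  have h3 : |a| ≤ |a - s * b| + T * |b| := by
    have := abs_add_le (a - s * b) (s * b)
    rw [sub_add_cancel, abs_mul, abs_of_nonneg s0] at this
    nlinarith [abs_nonneg b]
  have hT : (0 : ℝ) ≤ T := by positivity
  have h4 : (2 * T + 3) * |b| ≤ 2 * (|a| + |b|) := by nlinarith
  nlinarith [mul_le_mul_of_nonneg_left h4 hT]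

theorem good_of {E T τ : ℕ} (hτ : τ < T) {δ w : ℂ} (h1 : δ ≠ 0 → 1 ≤ 2 ^ E * ‖δ‖)
    (h2 : (T + 1) * ‖δ‖ ≤ 2 ^ E) (hw : w.re = 1) (hw' : |w.im| = τ)
    (h : |δ.re| + |δ.im| ≤ (2 * T + 3) * |δ.re - w.im * δ.im|) :
    Good E ((2 * T + 3) * (T + 1)) (2 ^ E * w * δ) := by
  by_cases h0 : δ = 0
  · exact Or.inl (by rw [h0, mul_zero])
  have a1 : 1 ≤ ‖w‖ := by simpa [hw] using Complex.abs_re_le_norm w
  have a2 : ‖w‖ ≤ T + 1 := by
    have := Complex.norm_le_abs_re_add_abs_im w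
    have : (τ : ℝ) ≤ T := by exact_mod_cast hτ.le
    rw [hw, hw', abs_one] at *
    linarith
  have a3 := Complex.norm_le_abs_re_add_abs_im δ
  have e1 : ‖2 ^ E * w * δ‖ = 2 ^ E * (‖w‖ * ‖δ‖) := by simp [mul_assoc]
  have e2 : |(2 ^ E * w * δ).re| = 2 ^ E * |δ.re - w.im * δ.im| := by
    have : (2 : ℂ) ^ E = ((2 ^ E : ℝ) : ℂ) := by simp
    rw [this, mul_assoc, Complex.re_ofReal_mul, Complex.mul_re, hw, one_mul, abs_mul,
      abs_of_nonneg (by positivity)]
  have p : (0 : ℝ) < 2 ^ E := by positivity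
  have a4 : ‖w‖ * ‖δ‖ ≤ (T + 1) * ‖δ‖ := mul_le_mul_of_nonneg_right a2 (norm_nonneg _)
  refine Or.inr ⟨?_, ?_, ?_⟩
  · rw [e1]
    exact (h1 h0).trans (mul_le_mul_of_nonneg_left
      (le_mul_of_one_le_left (norm_nonneg _) a1) p.le)
  · rw [e1, two_mul, pow_add]
    exact mul_le_mul_of_nonneg_left (a4.trans h2) p.le
  · rw [e1, e2, mul_left_comm _ ((2 : ℝ) ^ E)]
    refine mul_le_mul_of_nonneg_left (a4.trans ?_) p.le
    push_cast
    rw [mul_comm (2 * (T : ℝ) + 3), mul_assoc]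
    exact mul_le_mul_of_nonneg_left (a3.trans h) (by positivity)

end Sep

open Classical in
theorem good_count (Δ : Multiset ℂ) (E T : ℕ)
    (h1 : ∀ δ ∈ Δ, δ ≠ 0 → 1 ≤ 2 ^ E * ‖δ‖) (h2 : ∀ δ ∈ Δ, (T + 1) * ‖δ‖ ≤ 2 ^ E) :
    ((range T).filter fun τ : ℕ => ¬ ∀ δ ∈ Δ,
      Good E ((2 * T + 3) * (T + 1)) (2 ^ E * (1 + τ * Complex.I) * δ) ∧
      Good E ((2 * T + 3) * (T + 1)) (2 ^ E * (1 - τ * Complex.I) * δ)).card ≤ 2 * Δ.card := by
  refine Sep.union_bound Δ _ (range T) 2 (fun δ hδ => ⟨_, (card_union_le _ _).trans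
    (add_le_add (Sep.one_bad δ.re δ.im T) (Sep.one_bad δ.re (-δ.im) T)), fun τ t1 t2 => ?_⟩) _
    fun τ hτ => mem_filter.1 hτ
  by_contra h
  simp only [mem_union, mem_filter, t1, true_and, not_or, not_lt, abs_neg] at h
  refine t2 ⟨Sep.good_of (mem_range.1 t1) (h1 δ hδ) (h2 δ hδ) (by simp) (by simp) ?_,
    Sep.good_of (mem_range.1 t1) (h1 δ hδ) (h2 δ hδ) (by simp) (by simp) ?_⟩
  · simpa using h.1
  · simpa using h.2

open Polynomial in
theorem separation (Δ : Multiset ℂ) (c : ℕ) (hc : 1 ≤ c) (q : Polynomial ℤ)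
    (hq : ∀ U : ℂ, Polynomial.aeval U q = c * (Δ.map fun δ => U - δ).prod) (M : ℝ) (hM : 1 ≤ M)
    (hb : ∀ δ ∈ Δ, ‖δ‖ ≤ M) :
    Δ.map (starRingEnd ℂ) = Δ ∧ ∀ δ ∈ Δ, δ ≠ 0 → 1 ≤ c * M ^ Δ.card * ‖δ‖ := by
  classical
  have c0 : (c : ℂ) ≠ 0 := Nat.cast_ne_zero.2 (by omega)
  have e : q.map (algebraMap ℤ ℂ) = C (c : ℂ) * (Δ.map fun δ => X - C δ).prod := by
    refine Polynomial.funext fun U => ?_
    rw [eval_map_algebraMap, hq, eval_mul, eval_C, eval_multiset_prod, Multiset.map_map]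
    simp
  refine ⟨?_, fun δ hδ h0 => ?_⟩
  · have e2 := congrArg (Polynomial.map (starRingEnd ℂ)) e
    rw [Polynomial.map_map, RingHom.ext_int (RingHom.comp _ _) (algebraMap ℤ ℂ), e,
      Polynomial.map_mul, map_C, Polynomial.map_multiset_prod, Multiset.map_map,
      map_natCast (starRingEnd ℂ)] at e2
    have e3 := congrArg roots e2
    rw [roots_C_mul _ c0, roots_multiset_prod_X_sub_C, roots_C_mul _ c0] at e3
    refine Eq.trans ?_ e3.symm
    rw [← roots_multiset_prod_X_sub_C (Δ.map (starRingEnd ℂ)), Multiset.map_map]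
    simp [Function.comp_def]
  · obtain ⟨Δ', h1⟩ := Multiset.exists_cons_of_mem
      ((Multiset.mem_filter (p := fun x => ¬ x = 0)).2 ⟨hδ, h0⟩)
    have h2 := Multiset.filter_add_not (fun x => x = 0) Δ
    rw [h1, Multiset.filter_eq'] at h2
    have h3 : ∀ x ∈ δ ::ₘ Δ', x ∈ Δ ∧ ¬ x = 0 := fun x hx => Multiset.mem_filter.1 (h1 ▸ hx)
    generalize Multiset.count 0 Δ = r at h2
    have e2 := congrArg (fun p => p.coeff (0 + r)) e
    rw [← h2, Multiset.map_add, Multiset.prod_add, Multiset.map_replicate,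
      Multiset.prod_replicate, C_0, sub_zero] at e2
    simp only [coeff_C_mul, coeff_X_pow_mul, coeff_map] at e2
    rw [coeff_zero_eq_eval_zero, eval_multiset_prod, Multiset.map_map] at e2
    have e3 : ‖(algebraMap ℤ ℂ) (q.coeff (0 + r))‖ = c * ((δ ::ₘ Δ').map fun x => ‖x‖).prod := by
      rw [e2, norm_mul, Complex.norm_natCast]
      congr 1
      rw [← normHom_apply, map_multiset_prod, Multiset.map_map]
      simp
    have e4 : q.coeff (0 + r) ≠ 0 := by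
      intro h
      rw [h, map_zero, eq_comm, mul_eq_zero, Multiset.prod_eq_zero_iff, Multiset.mem_map] at e2
      obtain ⟨x, hx, h⟩ := e2.resolve_left c0
      exact (h3 x hx).2 (by simpa using h)
    have e5 : (1 : ℝ) ≤ ‖(algebraMap ℤ ℂ) (q.coeff (0 + r))‖ := by
      rw [eq_intCast, Complex.norm_intCast]
      exact_mod_cast Int.one_le_abs e4
    have e6 : (Δ'.map fun x => ‖x‖).prod ≤ M ^ Δ.card := by
      refine (Multiset.prod_map_le_prod_map₀ _ (fun _ => M) (fun x _ => norm_nonneg x)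
        fun x hx => hb x (h3 x (Multiset.mem_cons_of_mem hx)).1).trans ?_
      rw [Multiset.map_const', Multiset.prod_replicate, ← h2]
      exact pow_le_pow_right₀ hM (by simp; omega)
    rw [e3, Multiset.map_cons, Multiset.prod_cons] at e5
    refine e5.trans ?_
    rw [mul_assoc, mul_comm (M ^ _)]
    gcongr

open Polynomial in
theorem linear_form {n : ℕ} (Z : Multiset (Fin n → ℂ)) :
    ∃ t < n * Z.card + 1, ∀ z ∈ Z, (∑ i : Fin n, (t : ℂ) ^ (i : ℕ) * z i).im = 0 →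
      ∀ i, (z i).im = 0 := by
  classical
  by_contra h'
  have h := Sep.union_bound Z (fun z t => (∑ i : Fin n, (t : ℂ) ^ (i : ℕ) * z i).im = 0 →
      ∀ i, (z i).im = 0) (range (n * Z.card + 1)) n (fun z _ => ?_) _
      fun t ht => ⟨ht, fun h => h' ⟨t, mem_range.1 ht, h⟩⟩
  · rw [card_range] at h
    omega
  by_cases h0 : ∀ i, (z i).im = 0
  · exact ⟨∅, by simp, fun t _ h => absurd (fun _ => h0) h⟩
  let p : ℝ[X] := ∑ i : Fin n, C (z i).im * X ^ (i : ℕ)
  have p0 : p ≠ 0 := fun h => h0 fun i => by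
    have := congrArg (fun p => p.coeff i) h
    simpa [p, finsetSum_coeff, coeff_X_pow, Fin.val_inj] using this
  have p1 : p.natDegree ≤ n := natDegree_sum_le_of_forall_le _ _ fun i _ =>
    (natDegree_C_mul_X_pow_le _ _).trans i.2.le
  refine ⟨p.roots.toFinset.preimage Nat.cast Nat.cast_injective.injOn, le_trans
    (card_le_card_of_injOn (t := p.roots.toFinset) Nat.cast (fun t ht => mem_preimage.1 ht)
    Nat.cast_injective.injOn) ((Multiset.toFinset_card_le _).trans ((card_roots' p).trans p1)),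
    fun t _ ht => ?_⟩
  rw [mem_preimage, Multiset.mem_toFinset, mem_roots p0, IsRoot, ← (Classical.not_imp.1 ht).1,
    Complex.im_sum, eval_finsetSum]
  refine Finset.sum_congr rfl fun i _ => ?_
  have : (t : ℂ) ^ (i : ℕ) = (((t : ℝ) ^ (i : ℕ) : ℝ) : ℂ) := by simp
  rw [this, Complex.im_ofReal_mul, eval_mul, eval_C, eval_pow, eval_X, mul_comm]

end Vale.Agent.P337
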