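import Vale.Agent.P337.PF
import Vale.Agent.P337.Crt

/-! The sign of an integer from its residues. -/

namespace Vale.Agent.P337

open Vale.Agent.Lib.PolyTime Vale.Agent.P328 Finset Pts

variable {α : Type} [Enc α] [Dec α]

@[fun_prop] theorem PF.pos {z : α → ℤ} (hz : PF z) : CF fun a => 0 < z a := by
  classical
  obtain ⟨b0, g1, g2, f, g3, g4⟩ := hz
  obtain ⟨b, h1, h2⟩ := PB.sm' g1
  let S : α → Finset ℕ := fun a =>
    (range (2 ^ (2 * b a + 10))).filter fun p => p.Prime ∧ 2 ^ b a ≤ p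
  have hS : FS S := by simp only [S]; fun_prop
  obtain ⟨g, g5, g6⟩ := CF.prodMod (s := fun x : α × ℕ => (S x.1).erase x.2) (f := fun _ q => q)
    (p := fun x => x.2) (by fun_prop) (by fun_prop) (by fun_prop)
  let A : α → ℕ → ℕ → ℕ := fun a j p =>
    pm 2 j (p - 1 + 1) * f (a, p, []) * pm (g (a, p)) (p - 2) (p - 1 + 1)
  let Y : α → ℕ → ℕ := fun a j =>
    (∑ p ∈ S a, 2 ^ (2 * b a + 16) * A a j p / p) % 2 ^ (2 * b a + 16)
  have hY : CF fun x : α × ℕ => Y x.1 x.2 := by simp only [Y, A]; fun_prop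
  refine CF.congr (f := fun a => ∃ j ∈ range ((2 * b a + 10) * 2 ^ (2 * b a + 10)),
    (2 ^ (2 * b a + 16) ≤ 16 * Y a j ∧ 2 * Y a j < 2 ^ (2 * b a + 16)) ∧ ¬ ∃ i ∈ range j,
      2 ^ (2 * b a + 16) ≤ 16 * Y a i ∧ 16 * Y a i ≤ 15 * 2 ^ (2 * b a + 16))
    (by have := h1.1; fun_prop) fun a => propext ?_
  have hp : ∀ p ∈ S a, p.Prime := fun p hp => (mem_filter.1 hp).2.1
  have hc : (S a).card ≤ 2 ^ (2 * b a + 10) := (card_filter_le _ _).trans (card_range _).le
  rw [crt_sign (S a) hp (z a) ?_ (2 * b a + 16) ((2 * b a + 10) * 2 ^ (2 * b a + 10))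
    (by rw [pow_add _ _ 16]; rw [pow_add] at hc; omega) ?_ (A a) ?_ (Y a) fun _ => rfl]
  · simp only [mem_range, not_exists, not_and]
  · have h3 : 2 ^ (2 ^ b a + 3) ≤ ∏ p ∈ S a, p :=
      (Nat.pow_le_pow_right two_pos (many_primes _)).trans
        (pow_card_le_prod _ _ _ fun p h => (hp p h).two_le)
    have h4 : (z a).natAbs ≤ 2 ^ 2 ^ b a := tw (g2 a) (h2 a)
    have := Nat.pow_pos (n := 2 ^ b a) two_pos
    rw [← Nat.cast_prod, ← Int.natCast_natAbs, pow_add] at *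
    omega
  · rw [pow_mul]
    exact (prod_le_pow_card _ _ _ fun p h => (mem_range.1 (mem_filter.1 h).1).le).trans
      (Nat.pow_le_pow_right (by positivity) hc)
  · intro j p h
    have := Fact.mk (hp p h)
    have h5 : ∏ q ∈ (S a).erase p, (q : ZMod p) ≠ 0 := prod_ne_zero_iff.2 fun q hq h0 =>
      (mem_erase.1 hq).1 ((Nat.prime_dvd_prime_iff_eq (hp p h) (hp q (mem_erase.1 hq).2)).1
        ((ZMod.natCast_eq_zero_iff _ _).1 h0)).symm
    simp only [A, Nat.cast_mul, cast_pm (hp p h), g6 (a, p) (hp p h),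
      g4 a p [] (hp p h) (tp (mem_filter.1 h).2.2 (h2 a))]
    rw [mul_assoc, ← pow_succ, show p - 2 + 1 = p - 1 by have := (hp p h).two_le; omega,
      ZMod.pow_card_sub_one_eq_one h5, mul_one]
    rfl

end Vale.Agent.P337
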