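import Vale.Agent.P337.CH
import Vale.Agent.P337.Bridge
import Vale.Agent.P337.Raw
import Vale.Agent.P337.Front

/-! From a feasibility test in the counting hierarchy to the main theorem. -/

namespace Vale.Agent.P337

open Vale.Agent.Lib.PolyTime

theorem Lv.ch : ∀ (j : ℕ) {α : Type} [Enc α] {P : α → Prop}, Lv j P → Lib.Count.CH P := by
  intro j
  induction j with
  | zero => intro α _ P h; exact Lib.Count.CH.of_pt h
  | succ j ih =>
    rintro α _ P ⟨A, q, d, k, h1, h2, h3, h4, h5, h6⟩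
    have h7 := (ih ((lv_nat _ _).2 h1)).comp h2
    have h8 := (h7.and (Lib.Count.CH.of_pt (P := fun x : α × ℕ => d (x.1, x.2, True))
      (by fun_prop))).or (h7.not.and (Lib.Count.CH.of_pt
        (P := fun x : α × ℕ => d (x.1, x.2, False)) (by fun_prop)))
    obtain ⟨i, h9⟩ := h8
    refine ⟨i + 1, k, _, h4, h5, h9, fun a => (h6 a).trans (iff_of_eq ?_)⟩
    congr 2
    refine Eq.trans (b := Lib.Count.cnt (2 ^ k a) fun r => d (a, r, A (q (a, r)))) rfl
      (Lib.Count.cnt_congr fun y _ => ?_)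
    by_cases h : A (q (a, y)) <;> simp [h]

theorem CP.level {P : List Bool → Prop} (h : CP P) : ∃ j, {x | P x} ∈ Level j := by
  obtain ⟨j, h⟩ := h
  obtain ⟨i, h⟩ := Lv.ch j h
  exact ⟨i, bridge (fun _ => polyTime_of_pt) i P (fun x => x) h PT.id⟩

theorem etr_of_test (h : ∃ T : Inst → Prop, CP T ∧ ∀ I, WF I → (T I ↔ Feas I)) :
    ∃ j, ETR ∈ Level j := by
  obtain ⟨T, hT, h⟩ := h
  obtain ⟨ok, inst, B, h1, h2, h3, h4, h5, h6⟩ := front
  obtain ⟨c, c1, c2, c3⟩ := PB.sm h3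
  have h7 := Dec.ptsz (α := Wit)
  have h8 := (((CP.pt (P := fun p : List Bool × Wit => sz p.2 ≤ c p.1) (by fun_prop)).and
    ((CP.pt h1).and (hT.comp (g := fun p : List Bool × Wit => inst p.2) (by fun_prop)))).exs c2
    fun _ _ h => h.1).level
  refine h8.imp fun j hj => ?_
  have e : ETR = {x | ∃ y : Wit, sz y ≤ c x ∧ ok (x, y) ∧ T (inst y)} := by
    ext w
    refine ⟨fun hw => ?_, fun ⟨y, _, a2, a3⟩ => h6 w y a2 ((h _ (h4 w y a2)).1 a3)⟩
    obtain ⟨y, a1, a2, a3⟩ := h5 w hw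
    exact ⟨y, a1.trans (c3 w), a2, (h _ (h4 w y a2)).2 a3⟩
  rw [e]
  exact hj

end Vale.Agent.P337
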