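import Vale.Agent.P337.Sign
import Vale.Agent.P337.Res
import Vale.Agent.P337.Nwt

/-! Sums, products and sums of fractions over the solutions of the critical point system. -/

namespace Vale.Agent.P337

open Vale.Agent.Lib.PolyTime Vale.Agent.P328 Finset Pts MvPolynomial

/-- The data of a system. -/
structure Sys where
  n : ℕ
  d : ℕ
  F : MvPolynomial ℕ ℤ
  h : F.totalDegree < d

section Defs

variable {R : Type} [CommRing R]

/-- The lower order terms of the system. -/
noncomputable def Sys.g (S : Sys) (E : R) (i : ℕ) : MvPolynomial ℕ R :=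
  C E * map (Int.castRingHom R) (pderiv i S.F)

/-- The sum over the solutions. -/
noncomputable def TrS (S : Sys) (E : R) (P : MvPolynomial ℕ R) : R :=
  trc S.d (fun i : Fin S.n => kap S.n (S.g E i)) (kap S.n P)

/-- The product over the solutions. -/
noncomputable def NmS (S : Sys) (E : R) (P : MvPolynomial ℕ R) : R :=
  nwt (S.d ^ S.n) fun j => TrS S E (P ^ j)

/-- Numerator and denominator of a sum of fractions. -/
noncomputable def FsS (S : Sys) (E : R) (A B : MvPolynomial ℕ R) : Polynomial R :=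
  NmS S (Polynomial.C E) (map Polynomial.C A + C Polynomial.X * map Polynomial.C B)

/-- The solutions. -/
def Sol (S : Sys) (E : ℂ) (y : Fin (S.d ^ S.n) → Fin S.n → ℂ) : Prop :=
  IsSol S.d (fun i : Fin S.n => kap S.n (S.g E i)) y

theorem deg_map' {R' : Type} [CommRing R'] (φ : R →+* R') (P : MvPolynomial ℕ R) :
    (map φ P).totalDegree ≤ P.totalDegree := Finset.sup_mono (support_map_subset φ P)

theorem Sys.deg (S : Sys) (E : R) (i : Fin S.n) : (kap S.n (S.g E i)).totalDegree < S.d := by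
  refine (totalDegree_kap _).trans_lt ((totalDegree_mul _ _).trans_lt ?_)
  rw [totalDegree_C, zero_add]
  exact ((deg_map' _ _).trans (totalDegree_pderiv_le _ _)).trans_lt S.h

theorem Sys.map_g {R' : Type} [CommRing R'] (S : Sys) (φ : R →+* R') (E : R) (i : ℕ) :
    map φ (S.g E i) = S.g (φ E) i := by
  rw [Sys.g, Sys.g, map_mul, map_C, MvPolynomial.map_map,
    RingHom.ext_int (RingHom.comp _ _) (Int.castRingHom R')]

theorem Sys.exists_sol (S : Sys) (E : ℂ) : ∃ y, Sol S E y := P337.exists_sol (S.deg E)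

variable {S : Sys} (φ : R →+* ℂ) {E : R} {y : Fin (S.d ^ S.n) → Fin S.n → ℂ}

theorem TrS_map (hy : Sol S (φ E) y) (P : MvPolynomial ℕ R) :
    φ (TrS S E P) = ∑ k, eval₂ φ (ext (y k)) P := by
  rw [TrS, trc_map φ (S.deg E)]
  simp only [map_kap, Sys.map_g]
  rw [hy.tr]
  refine sum_congr rfl fun k _ => ?_
  rw [← map_kap, eval_map, eval₂_kap]

theorem NmS_map (hy : Sol S (φ E) y) (P : MvPolynomial ℕ R) :
    φ (NmS S E P) = ((S.d ^ S.n).factorial : ℂ) ^ (S.d ^ S.n + 1) *
      ∏ k, eval₂ φ (ext (y k)) P := by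
  rw [NmS, nwt_map, ← nwt_eq]
  simp only [TrS_map φ hy, eval₂_pow]

theorem FsS_map (hy : Sol S (φ E) y) (A B : MvPolynomial ℕ R)
    (hA : ∀ k, eval₂ φ (ext (y k)) A ≠ 0) : φ ((FsS S E A B).coeff 0) ≠ 0 ∧
      φ ((FsS S E A B).coeff 1) / φ ((FsS S E A B).coeff 0) =
        ∑ k, eval₂ φ (ext (y k)) B / eval₂ φ (ext (y k)) A := by
  simp only [← Polynomial.coeff_map]
  refine frac_sum _ (((S.d ^ S.n).factorial : ℂ) ^ (S.d ^ S.n + 1))
    (pow_ne_zero _ (Nat.cast_ne_zero.2 (Nat.factorial_ne_zero _))) _ _ hA fun t => ?_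
  have e : (Polynomial.eval₂RingHom φ t).comp Polynomial.C = φ := by ext; simp
  rw [Polynomial.eval_map, ← Polynomial.coe_eval₂RingHom, FsS, NmS_map _ (y := y) (by simpa)]
  simp only [eval₂_add, eval₂_mul, eval₂_C, eval₂_map, e]
  simp

end Defs

variable {α : Type} [Enc α] [Dec α] {R : Type} [CommRing R] [Pts R]

/-- Good families of systems. -/
@[fun_prop]
def GS (S : α → Sys) : Prop :=
  Sm (fun a => (S a).n) ∧ CF (fun a => (S a).d) ∧ PF fun a => (S a).F

@[fun_prop] theorem GS.comp {β : Type} [Enc β] [Dec β] {S : β → Sys} {g : α → β} (hS : GS S)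
    (hg : CF g) : GS fun a => S (g a) := ⟨hS.1.comp hg, hS.2.1.comp hg, hS.2.2.comp hg⟩

variable {S : α → Sys} {E : α → R} {P A B : α → MvPolynomial ℕ R}

section
omit [Dec α]
@[fun_prop] theorem GS.n (hS : GS S) : Sm fun a => (S a).n := hS.1
@[fun_prop] theorem GS.n' (hS : GS S) : CF fun a => (S a).n := hS.1.1
@[fun_prop] theorem GS.d (hS : GS S) : CF fun a => (S a).d := hS.2.1
@[fun_prop] theorem GS.F (hS : GS S) : PF fun a => (S a).F := hS.2.2
end

@[fun_prop] theorem PF.g {i : α → ℕ} (hS : GS S) (hE : PF E) (hi : CF i) :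
    PF fun a => (S a).g (E a) (i a) := hE.C.mul (hS.F.pderiv hi).mapInt

@[fun_prop] theorem PF.TrS (hS : GS S) (hE : PF E) (hP : PF P) :
    PF fun a => TrS (S a) (E a) (P a) := by
  let J : α → MvPolynomial ℕ R := fun a => (Matrix.of fun i j : Fin (S a).n =>
    MvPolynomial.pderiv (j : ℕ) (MvPolynomial.X (i : ℕ) ^ (S a).d + (S a).g (E a) i)).det
  have hJ : PF J := PF.congr (by fun_prop) fun a => det_vecs (S a).n
    fun i j => MvPolynomial.pderiv j (MvPolynomial.X i ^ (S a).d + (S a).g (E a) i)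
  have eJ : ∀ a, jac (S a).d (fun i : Fin (S a).n => kap (S a).n ((S a).g (E a) i)) =
      kap (S a).n (J a) := fun a => by
    rw [jac, AlgHom.map_det]
    congr 1
    ext i j : 2
    simp only [AlgHom.mapMatrix_apply, Matrix.map_apply, Matrix.of_apply, ← pderiv_kap, map_add,
      map_pow, kap_X]
  obtain ⟨b, b1, b2⟩ := (hP.mul hJ).bound
  refine (PF.coeffK (P := fun a => P a * J a * ∏ i ∈ range (S a).n, ∑ k ∈ range (2 ^ b a + 1),
    (-(S a).g (E a) i) ^ k * MvPolynomial.X i ^ ((2 ^ b a - k) * (S a).d))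
    (e := fun a => (2 ^ b a + 1) * (S a).d - 1) (by fun_prop) hS.1 (by fun_prop)).congr fun a => ?_
  rw [P337.TrS, trc, eJ, ← map_mul, lamK_stable ((S a).deg (E a)) _ le_rfl
    ((totalDegree_kap _).trans (totalDegree_le_of_N (b2 a))), lamK, prod_range]
  simp only [map_prod, map_sum, map_mul, map_pow, map_neg, kap_X]

@[fun_prop] theorem PF.nwt {D : α → ℕ} {p : α → ℕ → R} (hD : CF D)
    (hp : PF fun x : α × ℕ => p x.1 x.2) : PF fun a => nwt (D a) (p a) := by
  simp only [P337.nwt, ← prod_range_add_one_eq_factorial, Nat.cast_mul, Nat.cast_pow,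
    Nat.cast_prod]
  fun_prop

@[fun_prop] theorem PF.NmS (hS : GS S) (hE : PF E) (hP : PF P) :
    PF fun a => NmS (S a) (E a) (P a) := by
  unfold P337.NmS; fun_prop

@[fun_prop] theorem PF.FsS (hS : GS S) (hE : PF E) (hA : PF A) (hB : PF B) :
    PF fun a => FsS (S a) (E a) (A a) (B a) := by
  unfold P337.FsS; fun_prop

end Vale.Agent.P337
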