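import Vale.Agent.P337.Base

/-! The trace of a multiplication operator on a finite dimensional quotient of a polynomial ring
is the sum of the values at the zeros, counted with multiplicity. -/

namespace Vale.Agent.P337

open Finset

open MvPolynomial

namespace TracePts

variable {n : ℕ} {A : Type} [CommRing A] [Algebra ℂ A]

/-- The simultaneous generalised eigenspace. -/
noncomputable def sp (x : Fin n → A) (z : Fin n → ℂ) : Submodule ℂ A :=
  ⨅ i, Module.End.maxGenEigenspace (LinearMap.mulLeft ℂ (x i)) (z i)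

theorem pow_apply (b : A) (c : ℂ) (k : ℕ) (a : A) :
    (((LinearMap.mulLeft ℂ b : Module.End ℂ A) - c • (1 : Module.End ℂ A)) ^ k) a =
      (b - algebraMap ℂ A c) ^ k * a := by
  induction k with
  | zero => simp
  | succ k ih =>
    rw [pow_succ', Module.End.mul_apply, ih, pow_succ']
    rw [LinearMap.sub_apply, LinearMap.mulLeft_apply, LinearMap.smul_apply,
      Module.End.one_apply, Algebra.smul_def]
    ring

theorem mem_sp (x : Fin n → A) (z : Fin n → ℂ) (a : A) :
    a ∈ sp x z ↔ ∀ i, ∃ k : ℕ, (x i - algebraMap ℂ A (z i)) ^ k * a = 0 := by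
  unfold sp
  rw [Module.End.mem_iInf_maxGenEigenspace_iff]
  simp only [pow_apply]

theorem mul_mem_sp (x : Fin n → A) (z : Fin n → ℂ) (b : A) {a : A} (ha : a ∈ sp x z) :
    b * a ∈ sp x z := by
  rw [mem_sp] at ha ⊢
  intro i
  obtain ⟨k, hk⟩ := ha i
  exact ⟨k, by rw [mul_left_comm, hk, mul_zero]⟩

theorem pow_mul_eq_zero (x : Fin n → A) (z : Fin n → ℂ) {a : A} (ha : a ∈ sp x z)
    (g : MvPolynomial (Fin n) ℂ) :
    ∃ k : ℕ, (aeval x g - algebraMap ℂ A (eval z g)) ^ k * a = 0 := by
  rw [mem_sp] at ha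
  let J : Ideal A := (LinearMap.ker (LinearMap.toSpanSingleton A A a))
  have hJ : ∀ b : A, b ∈ J.radical ↔ ∃ k : ℕ, b ^ k * a = 0 := by
    intro b
    simp [J, Ideal.mem_radical_iff, LinearMap.mem_ker]
  rw [← hJ]
  induction g using MvPolynomial.induction_on with
  | C c => simp
  | add p q hp hq =>
    have : aeval x (p + q) - algebraMap ℂ A (eval z (p + q)) =
        (aeval x p - algebraMap ℂ A (eval z p)) + (aeval x q - algebraMap ℂ A (eval z q)) := by
      simp only [map_add]; ring
    rw [this]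
    exact Ideal.add_mem _ hp hq
  | mul_X p i hp =>
    have : aeval x (p * X i) - algebraMap ℂ A (eval z (p * X i)) =
        x i * (aeval x p - algebraMap ℂ A (eval z p)) +
          algebraMap ℂ A (eval z p) * (x i - algebraMap ℂ A (z i)) := by
      simp only [map_mul, aeval_X, eval_X]; ring
    rw [this]
    exact Ideal.add_mem _ (Ideal.mul_mem_left _ _ hp) (Ideal.mul_mem_left _ _ ((hJ _).2 (ha i)))

theorem maps (x : Fin n → A) (z : Fin n → ℂ) (b : A) :
    ∀ a ∈ sp x z, (LinearMap.mulLeft ℂ b) a ∈ sp x z :=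
  fun _ ha => mul_mem_sp x z b ha

theorem trace_sp [FiniteDimensional ℂ A] (x : Fin n → A) (z : Fin n → ℂ)
    (g : MvPolynomial (Fin n) ℂ) :
    LinearMap.trace ℂ _ ((LinearMap.mulLeft ℂ (aeval x g)).restrict (maps x z (aeval x g))) =
      (Module.finrank ℂ (sp x z) : ℂ) * eval z g := by
  set b : A := aeval x g - algebraMap ℂ A (eval z g) with hb
  have hnil : IsNilpotent ((LinearMap.mulLeft ℂ b).restrict (maps x z b) :
      Module.End ℂ (sp x z)) := by
    rw [Module.End.isNilpotent_iff_of_finite]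
    rintro ⟨a, ha⟩
    obtain ⟨k, hk⟩ := pow_mul_eq_zero x z ha g
    refine ⟨k, ?_⟩
    have key : ∀ j : ℕ, ((((LinearMap.mulLeft ℂ b).restrict (maps x z b) :
        Module.End ℂ (sp x z)) ^ j) ⟨a, ha⟩ : A) = b ^ j * a := by
      intro j
      induction j with
      | zero => simp
      | succ j ih =>
        rw [pow_succ', Module.End.mul_apply, LinearMap.coe_restrict_apply, ih,
          LinearMap.mulLeft_apply, pow_succ', mul_assoc]
    apply Subtype.ext
    rw [key]
    exact hk
  have h0 : LinearMap.trace ℂ _ ((LinearMap.mulLeft ℂ b).restrict (maps x z b)) = 0 :=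
    (LinearMap.isNilpotent_trace_of_isNilpotent hnil).eq_zero
  have hsplit : (LinearMap.mulLeft ℂ (aeval x g)).restrict (maps x z (aeval x g)) =
      (LinearMap.mulLeft ℂ b).restrict (maps x z b) + (eval z g) • LinearMap.id := by
    apply LinearMap.ext
    rintro ⟨a, ha⟩
    apply Subtype.ext
    change aeval x g * a = b * a + eval z g • a
    rw [hb, Algebra.smul_def]
    ring
  rw [hsplit, map_add, h0, zero_add, map_smul, LinearMap.trace_id, smul_eq_mul, mul_comm]

theorem comm (x : Fin n → A) (i j : Fin n) :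
    Commute (LinearMap.mulLeft ℂ (x i) : Module.End ℂ A) (LinearMap.mulLeft ℂ (x j)) := by
  apply LinearMap.ext
  intro a
  simp only [Module.End.mul_apply, LinearMap.mulLeft_apply]
  ring

theorem indep (x : Fin n → A) : iSupIndep (sp x) :=
  Module.End.independent_iInf_maxGenEigenspace_of_forall_mapsTo
    (fun i => (LinearMap.mulLeft ℂ (x i) : Module.End ℂ A))
    fun i j φ => Module.End.mapsTo_maxGenEigenspace_of_comm (comm x j i) φ

theorem sup_top [FiniteDimensional ℂ A] (x : Fin n → A) : ⨆ z, sp x z = ⊤ :=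
  Module.End.iSup_iInf_maxGenEigenspace_eq_top_of_iSup_maxGenEigenspace_eq_top_of_commute
    (fun i => (LinearMap.mulLeft ℂ (x i) : Module.End ℂ A)) (fun i j _ => comm x i j)
    fun _ => Module.End.iSup_maxGenEigenspace_eq_top _

theorem exists_pts [FiniteDimensional ℂ A] (x : Fin n → A) :
    ∃ Z : Multiset (Fin n → ℂ), (∀ z, z ∈ Z ↔ sp x z ≠ ⊥) ∧
      ∀ g : MvPolynomial (Fin n) ℂ, (Z.map fun z => eval z g).sum =
        LinearMap.trace ℂ _ (LinearMap.mulLeft ℂ (aeval x g)) := by
  classical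
  have hds := DirectSum.isInternal_submodule_of_iSupIndep_of_iSup_eq_top (indep x) (sup_top x)
  have hfin : {z | sp x z ≠ ⊥}.Finite := WellFoundedGT.finite_ne_bot_of_iSupIndep (indep x)
  refine ⟨∑ z ∈ hfin.toFinset, Multiset.replicate (Module.finrank ℂ (sp x z)) z, ?_, ?_⟩
  · intro z
    rw [Multiset.mem_sum]
    constructor
    · rintro ⟨w, hw, hz⟩
      rw [Multiset.eq_of_mem_replicate hz]
      exact hfin.mem_toFinset.1 hw
    · intro hz
      refine ⟨z, hfin.mem_toFinset.2 hz, Multiset.mem_replicate.2 ⟨?_, rfl⟩⟩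
      intro h0
      exact hz (Submodule.finrank_eq_zero.1 h0)
  · intro g
    have hs : ∀ s : Finset (Fin n → ℂ),
        ((∑ z ∈ s, Multiset.replicate (Module.finrank ℂ (sp x z)) z).map
          fun z => eval z g).sum = ∑ z ∈ s, (Module.finrank ℂ (sp x z) : ℂ) * eval z g := by
      intro s
      induction s using Finset.induction_on with
      | empty => simp
      | insert w s hw ih =>
        rw [Finset.sum_insert hw, Finset.sum_insert hw, Multiset.map_add, Multiset.sum_add, ih,
          Multiset.map_replicate, Multiset.sum_replicate, nsmul_eq_mul]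
    rw [LinearMap.trace_eq_sum_trace_restrict' hds hfin (fun z => maps x z (aeval x g)), hs]
    exact Finset.sum_congr rfl fun z _ => (trace_sp x z g).symm

theorem eval_eq_zero (x : Fin n → A) {z : Fin n → ℂ} (hz : sp x z ≠ ⊥)
    {g : MvPolynomial (Fin n) ℂ} (hg : aeval x g = 0) : eval z g = 0 := by
  obtain ⟨a, ha, ha0⟩ := Submodule.exists_mem_ne_zero_of_ne_bot hz
  obtain ⟨k, hk⟩ := pow_mul_eq_zero x z ha g
  rw [hg, zero_sub, ← map_neg, ← map_pow, ← Algebra.smul_def, smul_eq_zero] at hk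
  rcases hk with hk | hk
  · exact neg_eq_zero.1 (eq_zero_of_pow_eq_zero hk)
  · exact absurd hk ha0

theorem sp_ne_bot [FiniteDimensional ℂ A] (x : Fin n → A) (χ : A →ₐ[ℂ] ℂ) :
    sp x (fun i => χ (x i)) ≠ ⊥ := by
  intro h
  have hle : (⨆ z, sp x z) ≤ LinearMap.ker χ.toLinearMap := by
    refine iSup_le fun z a ha => ?_
    rw [LinearMap.mem_ker, AlgHom.toLinearMap_apply]
    by_contra hne
    have hz : z = fun i => χ (x i) := by
      funext i
      obtain ⟨k, hk⟩ := (mem_sp x z a).1 ha i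
      have h1 := congrArg χ hk
      rw [map_mul, map_pow, map_sub, AlgHom.commutes, map_zero, mul_eq_zero] at h1
      rcases h1 with h1 | h1
      · exact (sub_eq_zero.1 (eq_zero_of_pow_eq_zero h1)).symm
      · exact absurd h1 hne
    rw [hz, h, Submodule.mem_bot] at ha
    exact hne (by rw [ha, map_zero])
  rw [sup_top] at hle
  have h1 : (1 : A) ∈ LinearMap.ker χ.toLinearMap := hle Submodule.mem_top
  rw [LinearMap.mem_ker, AlgHom.toLinearMap_apply, map_one] at h1
  exact one_ne_zero h1

end TracePts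

theorem exists_trace_pts {n : ℕ} (I : Ideal (MvPolynomial (Fin n) ℂ))
    [FiniteDimensional ℂ (MvPolynomial (Fin n) ℂ ⧸ I)] :
    ∃ Z : Multiset (Fin n → ℂ), (∀ z, z ∈ Z ↔ ∀ g ∈ I, eval z g = 0) ∧
      ∀ g : MvPolynomial (Fin n) ℂ, (Z.map fun z => eval z g).sum =
        LinearMap.trace ℂ _ (LinearMap.mulLeft ℂ (Ideal.Quotient.mk I g)) := by
  let x : Fin n → MvPolynomial (Fin n) ℂ ⧸ I := fun i => Ideal.Quotient.mk I (X i)
  have hx : ∀ g : MvPolynomial (Fin n) ℂ, aeval x g = Ideal.Quotient.mk I g := by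
    intro g
    have : (aeval x : MvPolynomial (Fin n) ℂ →ₐ[ℂ] _) = Ideal.Quotient.mkₐ ℂ I := by
      apply MvPolynomial.algHom_ext
      intro i
      simp [x]
    rw [this, Ideal.Quotient.mkₐ_eq_mk]
  obtain ⟨Z, hZ, htr⟩ := TracePts.exists_pts x
  refine ⟨Z, fun z => ?_, fun g => by rw [htr, hx]⟩
  rw [hZ]
  constructor
  · intro hz g hg
    exact TracePts.eval_eq_zero x hz (by rw [hx]; exact Ideal.Quotient.eq_zero_iff_mem.2 hg)
  · intro hz
    let χ : (MvPolynomial (Fin n) ℂ ⧸ I) →ₐ[ℂ] ℂ :=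
      Ideal.Quotient.liftₐ I (aeval z) fun g hg => by
        rw [← hz g hg]; rfl
    have hχ : (fun i => χ (x i)) = z := by
      funext i
      simp [χ, x]
    rw [← hχ]
    exact TracePts.sp_ne_bot x χ

end Vale.Agent.P337
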