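import Vale.Agent.P337.Tr
import Vale.Agent.P337.Count
import Vale.Agent.P337.Crit

/-! Existence of a real zero. -/

namespace Vale.Agent.P337

open Vale.Agent.Lib.PolyTime Vale.Agent.P328 Finset Pts MvPolynomial

section Math

variable {R : Type} [CommRing R]

/-- The perturbed function. -/
noncomputable def Sys.G (S : Sys) (E : R) : MvPolynomial ℕ R :=
  C ((S.d + 1) * E) * map (Int.castRingHom R) S.F + ∑ i ∈ range S.n, X i ^ (S.d + 1)

/-- Its value. -/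
noncomputable def Sys.GC (S : Sys) (E : ℂ) (w : ℕ → ℂ) : ℂ :=
  (S.d + 1) * E * eval₂ (Int.castRingHom ℂ) w S.F + ∑ i ∈ range S.n, w i ^ (S.d + 1)

theorem eval_G (S : Sys) (φ : R →+* ℂ) (E : R) (w : ℕ → ℂ) :
    eval₂ φ w (S.G E) = S.GC (φ E) w := by
  rw [Sys.G, Sys.GC, eval₂_add, eval₂_mul, eval₂_C, eval₂_map,
    RingHom.ext_int (φ.comp _) (Int.castRingHom ℂ)]
  simp [eval₂_sum]

theorem real_eval {n : ℕ} (x : Fin n → ℝ) (Q : MvPolynomial ℕ ℤ) :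
    (eval x (kap n (map (Int.castRingHom ℝ) Q)) : ℂ) =
      eval₂ (Int.castRingHom ℂ) (ext fun i => (x i : ℂ)) Q := by
  rw [← map_kap, eval_map, eval₂_kap, ← Complex.ofRealHom_eq_coe, eval₂_comp_left,
    RingHom.ext_int (RingHom.comp _ _) (Int.castRingHom ℂ)]
  congr 1
  funext j
  simp only [ext, Function.comp]
  split_ifs <;> simp

theorem real_G (S : Sys) (E : ℝ) (x : Fin S.n → ℝ) :
    (Gv S.d (kap S.n (map (Int.castRingHom ℝ) S.F)) E x : ℂ) = S.GC E (ext fun i => (x i : ℂ)) := by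
  simp only [Gv, Sys.GC, sum_range, ext_val, ← real_eval]
  push_cast
  rfl

theorem Sol.crit {S : Sys} {E : ℝ} {y : Fin (S.d ^ S.n) → Fin S.n → ℂ} (hy : Sol S E y)
    {x : Fin S.n → ℝ} (hx : Crit S.d (kap S.n (map (Int.castRingHom ℝ) S.F)) E x) :
    ∃ k, y k = fun i => (x i : ℂ) := by
  refine hy.all _ fun i => ?_
  have h := congrArg (fun t : ℝ => (t : ℂ)) (hx i)
  simp only [pderiv_kap, pderiv_map] at h
  push_cast at h
  rw [real_eval] at h
  rw [← h, ← coe_eval₂Hom, eval, coe_eval₂Hom, eval₂_kap, Sys.g, eval₂_mul, eval₂_C, eval₂_map]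
  rfl

theorem eval₂_int (φ : R →+* ℂ) (w : ℕ → ℂ) (z : ℤ) : eval₂ φ w (z : MvPolynomial ℕ R) = z :=
  map_intCast (eval₂Hom φ w) z

/-- The polynomial of the critical values. -/
noncomputable def P1 (S : Sys) : Polynomial (Polynomial ℤ) :=
  NmS S Polynomial.X (C (Polynomial.C Polynomial.X : Polynomial (Polynomial ℤ)) - S.G Polynomial.X)

theorem P1_eval (S : Sys) (u E : ℂ) {y : Fin (S.d ^ S.n) → Fin S.n → ℂ} (hy : Sol S E y) :
    (P1 S).eval₂ (Polynomial.eval₂RingHom (Int.castRingHom ℂ) u) E = 0 ↔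
      ∃ k, S.GC E (ext (y k)) = u := by
  rw [← Polynomial.coe_eval₂RingHom, P1, NmS_map _ (y := y) (by simpa)]
  simp [Nat.factorial_ne_zero, prod_eq_zero_iff, eval_G, sub_eq_zero, @eq_comm _ u]

theorem step1 (S : Sys) (hd : Odd S.d)
    (hF : ∀ x, 0 ≤ eval x (kap S.n (map (Int.castRingHom ℝ) S.F))) (H δ : ℕ)
    (hq : ∀ k l, (((P1 S).coeff k).coeff l).natAbs ≤ H)
    (hδ : ∀ k, ((P1 S).coeff k).natDegree ≤ δ) (c E : ℤ) (hc : c = H + 1)
    (hE : E = (δ + 1) * H * c ^ δ + 1) {y : Fin (S.d ^ S.n) → Fin S.n → ℂ} (hy : Sol S E y) :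
    (∀ k, (∀ i, (y k i).im = 0) → (c - S.GC E (ext (y k))).im = 0) ∧
    ((∃ x, eval x (kap S.n (map (Int.castRingHom ℝ) S.F)) = 0) →
      ∃ k, (∀ i, (y k i).im = 0) ∧ 0 < (c - S.GC E (ext (y k))).re) ∧
    ((¬ ∃ x, eval x (kap S.n (map (Int.castRingHom ℝ) S.F)) = 0) →
      ∀ k, (∀ i, (y k i).im = 0) → (c - S.GC E (ext (y k))).re < 0) := by
  classical
  have h0 : P1 S ≠ 0 := fun h0 => by
    obtain ⟨u, hu⟩ := Infinite.exists_notMem_finset (univ.image fun k => S.GC E (ext (y k)))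
    obtain ⟨k, hk⟩ := (P1_eval S u E hy).1 (by rw [h0, Polynomial.eval₂_zero])
    exact hu (mem_image.2 ⟨k, mem_univ _, hk⟩)
  have key : ∀ (E' : ℝ) x, Crit S.d (kap S.n (map (Int.castRingHom ℝ) S.F)) E' x → ∀ u : ℝ,
      H + 1 ≤ u → (δ + 1) * H * u ^ δ + 1 ≤ E' →
      Gv S.d (kap S.n (map (Int.castRingHom ℝ) S.F)) E' x ≠ u := by
    intro E' x hx u h1 h2 h3
    obtain ⟨y', hy'⟩ := S.exists_sol E'
    obtain ⟨k, hk⟩ := hy'.crit hx
    exact root_bound2 _ h0 H δ hq hδ u E' h1 h2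
      ((P1_eval S u E' hy').2 ⟨k, by rw [hk, ← real_G, h3]⟩)
  have hc' : (c : ℝ) = H + 1 := by rw [hc]; push_cast; rfl
  have hE' : (E : ℝ) = (δ + 1) * H * c ^ δ + 1 := by rw [hE]; push_cast; rfl
  obtain ⟨h1, h2⟩ := crit_main S.d hd _ hF c E (by rw [hE', hc']; positivity)
    (fun E' h x hx => key E' x hx c hc'.ge (hE' ▸ h))
    fun C => ⟨max E ((δ + 1) * H * |C| ^ δ + 1), le_max_left _ _, fun x hx h => key _ x hx _
      (hc' ▸ h.1) (le_trans (by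
        have := (show (0 : ℝ) ≤ c by rw [hc']; positivity).trans h.1
        have := h.2.trans (le_abs_self C)
        gcongr) (le_max_right _ _)) rfl⟩
  have e : ∀ k, (∀ i, (y k i).im = 0) → c - S.GC E (ext (y k)) =
      ((c - Gv S.d (kap S.n (map (Int.castRingHom ℝ) S.F)) E fun i => (y k i).re : ℝ) : ℂ) := by
    intro k hk
    rw [Complex.ofReal_sub, real_G, show (fun i => ((y k i).re : ℂ)) = y k from
      funext fun i => Complex.ext rfl (hk i).symm]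
    rfl
  refine ⟨fun k hk => by rw [e k hk, Complex.ofReal_im], fun h => ?_,
    fun h k hk => by rw [e k hk, Complex.ofReal_re]; exact sub_neg.2 (h2 h _)⟩
  obtain ⟨x, hx, h3⟩ := h1 h
  obtain ⟨k, hk⟩ := Sol.crit (E := E) hy hx
  have h4 : ∀ i, (y k i).im = 0 := fun i => by simp [hk]
  exact ⟨k, h4, by rw [e k h4, Complex.ofReal_re]; simpa [hk] using h3⟩

theorem NmS_int {S : Sys} (φ : R →+* ℂ) {E : ℤ} {y : Fin (S.d ^ S.n) → Fin S.n → ℂ}
    (hy : Sol S E y) (P : MvPolynomial ℕ R) :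
    φ (NmS S (E : R) P) = ((S.d ^ S.n).factorial : ℂ) ^ (S.d ^ S.n + 1) *
      ∏ k, eval₂ φ (ext (y k)) P := NmS_map φ (by rwa [map_intCast]) P

/-- The numbers whose signs are needed. -/
noncomputable def Sys.W (S : Sys) (c E : ℂ) (y : Fin (S.d ^ S.n) → Fin S.n → ℂ) :
    Fin (S.d ^ S.n) ⊕ Fin S.n × Fin (S.d ^ S.n) × Fin (S.d ^ S.n) → ℂ :=
  Sum.elim (fun k => c - S.GC E (ext (y k))) fun x => y x.2.2 x.1 - y x.2.1 x.1

/-- An integer polynomial that vanishes at these numbers. -/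
noncomputable def P2 (S : Sys) (c E : ℤ) : Polynomial ℤ :=
  NmS S (E : Polynomial ℤ) (C Polynomial.X - ((c : MvPolynomial ℕ _) - S.G (E : Polynomial ℤ))) *
    ∏ i ∈ range S.n, NmS S (E : Polynomial ℤ) (NmS S (E : MvPolynomial ℕ (Polynomial ℤ))
      (C (C Polynomial.X) - (X i - C (X i))))

theorem step2 (S : Sys) (c E : ℤ) (H : ℕ) (hq : ∀ k, ((P2 S c E).coeff k).natAbs ≤ H)
    {y : Fin (S.d ^ S.n) → Fin S.n → ℂ} (hy : Sol S E y) (j) (hj : S.W c E y j ≠ 0) :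
    1 ≤ (H + 1) * ‖S.W c E y j‖ ∧ ‖S.W c E y j‖ ≤ H + 1 := by
  classical
  have key : ∀ t : ℂ, Polynomial.aeval t (P2 S c E) = 0 ↔ ∃ j, S.W c E y j = t := fun t => by
    have e := NmS_int (Polynomial.eval₂RingHom (Int.castRingHom ℂ) t) hy
    rw [Polynomial.aeval_def, ← Polynomial.coe_eval₂RingHom, P2, map_mul, map_prod,
      algebraMap_int_eq, prod_range]
    simp only [e, ← coe_eval₂Hom, NmS_int _ hy]
    simp [Nat.factorial_ne_zero, prod_eq_zero_iff, eval_G, sub_eq_zero, Sys.W, ext_val,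
      @eq_comm _ t, eval₂_int]
  refine root_bound _ (fun h0 => ?_) H hq _ hj ((key _).2 ⟨j, rfl⟩)
  obtain ⟨u, hu⟩ := Infinite.exists_notMem_finset (univ.image (S.W c E y))
  obtain ⟨k, hk⟩ := (key u).1 (by rw [h0, map_zero])
  exact hu (mem_image.2 ⟨k, mem_univ _, hk⟩)

/-- The denominator of the approximation of the step function. -/
def Qs (m N : ℕ) (z : R) : R := Qp m N z + Qp m N (-z)

theorem map_Qp {R' : Type} [CommRing R'] (φ : R →+* R') (m N : ℕ) (z : R) :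
    φ (Qp m N z) = Qp m N (φ z) := by
  simp [Qp, map_ofNat]

theorem map_Qs {R' : Type} [CommRing R'] (φ : R →+* R') (m N : ℕ) (z : R) :
    φ (Qs m N z) = Qs m N (φ z) := by
  simp [Qs, map_Qp]

/-- The inner sum. -/
noncomputable def Inn (S : Sys) (E : ℤ) (m N : ℕ) (L L' : R) (i : ℕ) :
    Polynomial (MvPolynomial ℕ R) :=
  FsS S (E : MvPolynomial ℕ R)
    (Qs m N (C (C L) * (X i - C (X i))) * Qs m N (C (C L') * (X i - C (X i))))
    (Qp m N (C (C L) * (X i - C (X i))) * Qs m N (C (C L') * (X i - C (X i))) -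
      Qp m N (C (C L') * (X i - C (X i))) * Qs m N (C (C L) * (X i - C (X i))))

/-- The outer sum. -/
noncomputable def Out (S : Sys) (c E : ℤ) (m N M : ℕ) (L L' : R) : Polynomial R :=
  FsS S (E : R)
    (Qs m N (C L * ((c : MvPolynomial ℕ R) - S.G (E : R))) * ∏ i ∈ range S.n,
      ((((S.d ^ S.n : ℕ) : MvPolynomial ℕ R) * (Inn S E m N L L' i).coeff 0) ^ 2) ^ M)
    (Qp m N (C L * ((c : MvPolynomial ℕ R) - S.G (E : R))) * ∏ i ∈ range S.n,
      ((((S.d ^ S.n : ℕ) : MvPolynomial ℕ R) * (Inn S E m N L L' i).coeff 0) ^ 2 -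
        (Inn S E m N L L' i).coeff 1 ^ 2) ^ M)

theorem Out_map (S : Sys) (c E : ℤ) (m N M : ℕ) (L L' : R) (φ : R →+* ℂ)
    {y : Fin (S.d ^ S.n) → Fin S.n → ℂ} (hy : Sol S E y)
    (h1 : ∀ j, Qs m N (φ L * S.W c E y j) ≠ 0) (h2 : ∀ j, Qs m N (φ L' * S.W c E y j) ≠ 0) :
    φ ((Out S c E m N M L L').coeff 0) ≠ 0 ∧
      φ ((Out S c E m N M L L').coeff 1) / φ ((Out S c E m N M L L').coeff 0) =
      ∑ k, Qp m N (φ L * (c - S.GC E (ext (y k)))) / Qs m N (φ L * (c - S.GC E (ext (y k)))) *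
        ∏ i, (1 - (∑ k', (Qp m N (φ L * (y k' i - y k i)) / Qs m N (φ L * (y k' i - y k i)) -
          Qp m N (φ L' * (y k' i - y k i)) / Qs m N (φ L' * (y k' i - y k i)))) ^ 2 /
            ((S.d ^ S.n : ℕ) : ℂ) ^ 2) ^ M := by
  have hD : ((S.d ^ S.n : ℕ) : ℂ) ≠ 0 := Nat.cast_ne_zero.2 (pow_ne_zero _ (by have := S.h; omega))
  have e : ∀ k (i : Fin S.n), eval₂Hom φ (ext (y k)) ((Inn S E m N L L' i).coeff 0) ≠ 0 ∧
      eval₂Hom φ (ext (y k)) ((Inn S E m N L L' i).coeff 1) /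
        eval₂Hom φ (ext (y k)) ((Inn S E m N L L' i).coeff 0) =
      ∑ k', (Qp m N (φ L * (y k' i - y k i)) / Qs m N (φ L * (y k' i - y k i)) -
          Qp m N (φ L' * (y k' i - y k i)) / Qs m N (φ L' * (y k' i - y k i))) := fun k i => by
    have a1 : ∀ k', Qs m N (φ L * (y k' i - y k i)) ≠ 0 := fun k' => h1 (.inr (i, k, k'))
    have a2 : ∀ k', Qs m N (φ L' * (y k' i - y k i)) ≠ 0 := fun k' => h2 (.inr (i, k, k'))
    refine (FsS_map (eval₂Hom φ (ext (y k))) (y := y) (by rwa [map_intCast]) _ _ fun k' => ?_).imp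
      id fun h => h.trans (sum_congr rfl fun k' _ => ?_)
    all_goals simp only [← coe_eval₂Hom, map_mul, map_sub, map_Qp, map_Qs, eval₂Hom_C,
      eval₂Hom_X', ext_val]
    · exact mul_ne_zero (a1 k') (a2 k')
    · rw [div_sub_div _ _ (a1 k') (a2 k'), mul_comm (Qs m N _) (Qp m N _)]
  have a3 : ∀ k, Qs m N (φ L * (c - S.GC E (ext (y k)))) ≠ 0 := fun k => h1 (.inl k)
  have a4 : ∀ w, eval₂Hom φ w (S.G (E : R)) = S.GC E w := fun w => by
    rw [coe_eval₂Hom, eval_G, map_intCast]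
  refine (FsS_map φ (y := y) (by rwa [map_intCast]) _ _ fun k => ?_).imp
    id fun h => h.trans (sum_congr rfl fun k _ => ?_)
  all_goals simp only [← coe_eval₂Hom, map_mul, map_sub, map_Qp, map_Qs, eval₂Hom_C, map_prod,
    map_pow (eval₂Hom _ _), map_intCast, map_natCast, prod_range]
  all_goals simp only [a4]
  · exact mul_ne_zero (a3 k) (prod_ne_zero_iff.2 fun i _ => pow_ne_zero _ (pow_ne_zero _
      (mul_ne_zero hD (e k i).1)))
  · rw [mul_div_mul_comm, ← prod_div_distrib]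
    refine congrArg _ (prod_congr rfl fun i _ => ?_)
    have := (e k i).1
    rw [← div_pow, ← (e k i).2]
    congr 1
    field_simp

theorem good_pt {s : ℝ} {l w : ℂ} {K m : ℕ} (hw : w ≠ 0 → 1 ≤ s * ‖w‖ ∧ ‖w‖ ≤ s) (hs : 0 < s)
    (h1 : 1 ≤ ‖l‖) (h2 : ‖l‖ ≤ 2 * K) (h3 : ¬ |(l * w).re| < ‖w‖ / 8) (hm : 2 * K * s ^ 2 ≤ 2 ^ m) :
    s * l * w = 0 ∨ (1 ≤ ‖s * l * w‖ ∧ ‖s * l * w‖ ≤ 2 ^ m ∧
      1 / (16 * K) * ‖s * l * w‖ ≤ |(s * l * w).re|) := by
  refine or_iff_not_imp_left.2 fun h0 => ?_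
  obtain ⟨a1, a2⟩ := hw (right_ne_zero_of_mul h0)
  have hK : (0 : ℝ) < K := by linarith
  have := norm_nonneg w
  rw [mul_assoc, Complex.re_ofReal_mul, abs_mul, norm_mul, norm_mul, Complex.norm_real,
    Real.norm_eq_abs, abs_of_pos hs]
  refine ⟨by nlinarith, le_trans ?_ hm, ?_⟩
  · calc s * (‖l‖ * ‖w‖) ≤ s * (2 * K * s) := by gcongr
      _ = _ := by ring
  · calc 1 / (16 * K) * (s * (‖l‖ * ‖w‖)) ≤ 1 / (16 * K) * (s * (2 * K * ‖w‖)) := by gcongr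
      _ = s * (‖w‖ / 8) := by field_simp; ring
      _ ≤ _ := by gcongr; exact not_lt.1 h3

theorem step3 (S : Sys) (c E : ℤ) (H K k m : ℕ) (hk : k < K) (Z : Prop) (φ : R →+* ℂ) (t : R)
    (ht : φ t = Complex.I) {y : Fin (S.d ^ S.n) → Fin S.n → ℂ} (hy : Sol S E y)
    (h1 : (∀ k, (∀ i, (y k i).im = 0) → (c - S.GC E (ext (y k))).im = 0) ∧
      (Z → ∃ k, (∀ i, (y k i).im = 0) ∧ 0 < (c - S.GC E (ext (y k))).re) ∧
      (¬ Z → ∀ k, (∀ i, (y k i).im = 0) → (c - S.GC E (ext (y k))).re < 0))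
    (h2 : ∀ j, S.W c E y j ≠ 0 → 1 ≤ (H + 1) * ‖S.W c E y j‖ ∧ ‖S.W c E y j‖ ≤ H + 1)
    (h3 : ¬ ∃ j ∈ univ, |(((k + 1 : ℂ) + K * Complex.I) * S.W c E y j).re| < ‖S.W c E y j‖ / 8 ∨
      |(((k + 1 : ℂ) - K * Complex.I) * S.W c E y j).re| < ‖S.W c E y j‖ / 8)
    (hm : 2 * K * (H + 1) ^ 2 ≤ 2 ^ m) (s : ℤ) (hs : s = H + 1) (q : Polynomial R)
    (hq : q = Out S c E m (80 * K * (100 * (S.n + 1) * (128 * (S.d ^ S.n) ^ 3) * S.d ^ S.n) ^ 2)
      (128 * (S.d ^ S.n) ^ 3) (s * (k + 1 + K * t)) (s * (k + 1 - K * t))) :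
    φ (q.coeff 0) ≠ 0 ∧ (1 / 2 < (φ (q.coeff 1) / φ (q.coeff 0)).re ↔ Z) := by
  have hD : 1 ≤ S.d ^ S.n := Nat.pow_pos (by have := S.h; omega)
  generalize hM : 128 * (S.d ^ S.n) ^ 3 = M at hq
  obtain ⟨e, he⟩ : ∃ e, e = 100 * (S.n + 1) * M * S.d ^ S.n := ⟨_, rfl⟩
  rw [← he] at hq
  have he1 : (1 : ℝ) ≤ e := by
    rw [he, ← hM]; exact_mod_cast Nat.succ_le_of_lt (by positivity)
  have hK : (k + 1 : ℝ) ≤ K := by exact_mod_cast hk
  have hk0 : (0 : ℝ) ≤ k := by positivity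
  have nw : ∀ l : ℂ, l.re = k + 1 → |l.im| = K → ∀ j, ¬ |(l * S.W c E y j).re| < ‖S.W c E y j‖ / 8 →
      _ := fun l a1 a2 j a3 => newman m (80 * K * e ^ 2) (1 / (16 * K)) (1 / e)
    (by have : (0 : ℝ) < K := by linarith
        positivity) (by positivity) (by rwa [div_le_one (by linarith)])
    (by have : (0 : ℝ) < K := by linarith
        push_cast; field_simp; norm_num) _
    (good_pt (s := H + 1) (h2 j) (by positivity)
      (le_trans (by rw [a1]; exact le_trans (by linarith) (le_abs_self _)) (Complex.abs_re_le_norm l))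
      ((Complex.norm_le_abs_re_add_abs_im l).trans (by rw [a1, a2, abs_of_pos (by linarith)]; linarith))
      a3 (by exact_mod_cast hm))
  have n1 := fun j => nw ((k + 1 : ℂ) + K * Complex.I) (by simp) (by simp) j
    fun h => h3 ⟨j, mem_univ _, .inl h⟩
  have n2 := fun j => nw ((k + 1 : ℂ) - K * Complex.I) (by simp) (by simp) j
    fun h => h3 ⟨j, mem_univ _, .inr h⟩
  have e1 : φ (s * (k + 1 + K * t)) = ((H + 1 : ℝ) : ℂ) * ((k + 1 : ℂ) + K * Complex.I) := by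
    simp [ht, hs]
  have e2 : φ (s * (k + 1 - K * t)) = ((H + 1 : ℝ) : ℂ) * ((k + 1 : ℂ) - K * Complex.I) := by
    simp [ht, hs]
  have e3 : starRingEnd ℂ (φ (s * (k + 1 + K * t))) = φ (s * (k + 1 - K * t)) := by
    simp [ht, sub_eq_add_neg]
  rw [← e1] at n1
  rw [← e2] at n2
  obtain ⟨o1, o2⟩ := Out_map S c E m (80 * K * e ^ 2) M _ _ φ hy (fun j => (n1 j).1)
    fun j => (n2 j).1
  rw [← hq] at o1 o2
  have hr : ∀ i : Fin S.n, map (starRingEnd ℂ) (kap S.n (S.g (E : ℂ) i)) =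
      kap S.n (S.g (E : ℂ) i) := fun i => by rw [map_kap, Sys.map_g, map_intCast]
  obtain ⟨c1, c2⟩ := count_main hD y (hy.conj (S.deg _) hr) _ h1.1 (φ (s * (k + 1 + K * t)))
    (by rw [e1]; simp; positivity) (by rw [e1]; simp; exact ⟨by positivity, by omega⟩)
    (fun z => Qp m (80 * K * e ^ 2) z / Qs m (80 * K * e ^ 2) z) (1 / e) M hM.le
    (by rw [mul_one_div, div_le_one (by linarith), he]; push_cast; rfl)
    (fun k k' i => (n1 (.inr (i, k, k'))).2) (fun k k' i => e3 ▸ (n2 (.inr (i, k, k'))).2)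
    (fun k => (n1 (.inl k)).2) _ (e3 ▸ o2)
  exact ⟨o1, fun h => by_contra fun hZ => lt_asymm h (c2 (h1.2.2 hZ)), fun h => c1 (h1.2.1 h)⟩

end Math

variable {α : Type} [Enc α] [Dec α] {R : Type} [CommRing R] [Pts R] {S : α → Sys}

@[fun_prop] theorem PF.G {E : α → R} (hS : GS S) (hE : PF E) : PF fun a => (S a).G (E a) :=
  ((PF.C (by fun_prop)).mul hS.F.mapInt).add (by fun_prop)

@[fun_prop] theorem PF.Qp {m N : α → ℕ} {z : α → R} (hm : CF m) (hN : CF N) (hz : PF z) :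
    PF fun a => Qp (m a) (N a) (z a) := by
  unfold P337.Qp; fun_prop

@[fun_prop] theorem PF.Qs {m N : α → ℕ} {z : α → R} (hm : CF m) (hN : CF N) (hz : PF z) :
    PF fun a => Qs (m a) (N a) (z a) := by
  unfold P337.Qs; fun_prop

@[fun_prop] theorem PF.Inn {E : α → ℤ} {m N i : α → ℕ} {L L' : α → R} (hS : GS S) (hE : PF E)
    (hm : CF m) (hN : CF N) (hL : PF L) (hL' : PF L') (hi : CF i) :
    PF fun a => Inn (S a) (E a) (m a) (N a) (L a) (L' a) (i a) := by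
  unfold P337.Inn; fun_prop

@[fun_prop] theorem PF.Out {c E : α → ℤ} {m N M : α → ℕ} {L L' : α → R} (hS : GS S) (hc : PF c)
    (hE : PF E) (hm : CF m) (hN : CF N) (hM : CF M) (hL : PF L) (hL' : PF L') :
    PF fun a => Out (S a) (c a) (E a) (m a) (N a) (M a) (L a) (L' a) := by
  unfold P337.Out; fun_prop

theorem PF.re {q : α → Polynomial ℤ} (hq : PF q) : ∃ r : α → ℤ, PF r ∧ ∀ a,
    (r a : ℝ) = (Polynomial.eval₂RingHom (Int.castRingHom ℂ) Complex.I (q a)).re := by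
  obtain ⟨b, b1, b2⟩ := hq.bound
  refine ⟨fun a => ∑ j ∈ range (2 ^ b a + 1), (q a).coeff j *
    if j % 4 = 0 then 1 else if j % 4 = 2 then -1 else 0, by fun_prop, fun a => ?_⟩
  rw [Polynomial.coe_eval₂RingHom, Polynomial.eval₂_eq_sum_range' _
    (Nat.lt_succ_of_le (natDegree_le_of_N (b2 a))), Complex.re_sum, Int.cast_sum]
  refine sum_congr rfl fun j _ => ?_
  rw [Complex.I_pow_eq_pow_mod]
  have := Nat.mod_lt j (show 0 < 4 by decide)
  generalize j % 4 = r at this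
  interval_cases r <;> simp [pow_succ]

theorem PF.half {A B : α → Polynomial ℤ} (hA : PF A) (hB : PF B) : ∃ T : α → Prop, CF T ∧ ∀ a,
    Polynomial.eval₂RingHom (Int.castRingHom ℂ) Complex.I (B a) ≠ 0 → (T a ↔ 1 / 2 <
      (Polynomial.eval₂RingHom (Int.castRingHom ℂ) Complex.I (A a) /
        Polynomial.eval₂RingHom (Int.castRingHom ℂ) Complex.I (B a)).re) := by
  obtain ⟨r, r1, r2⟩ := hA.re
  obtain ⟨s, s1, s2⟩ := hB.re
  obtain ⟨r', r3, r4⟩ := PF.re (q := fun a => Polynomial.X * A a) (by fun_prop)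
  obtain ⟨s', s3, s4⟩ := PF.re (q := fun a => Polynomial.X * B a) (by fun_prop)
  refine ⟨fun a => 0 < 2 * (r a * s a + r' a * s' a) - (s a * s a + s' a * s' a), by fun_prop,
    fun a h => ?_⟩
  dsimp only
  rw [← Int.cast_pos (R := ℝ), Complex.div_re, ← add_div, lt_div_iff₀ (Complex.normSq_pos.2 h),
    Complex.normSq_apply]
  push_cast
  rw [r2, s2, r4, s4]
  simp only [map_mul, Polynomial.coe_eval₂RingHom, Polynomial.eval₂_X, Complex.I_mul_re]
  constructor <;> intro <;> linarith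

theorem zero_sys (hS : GS S) (hd : ∀ a, Odd (S a).d)
    (hF : ∀ a x, 0 ≤ eval x (kap (S a).n (map (Int.castRingHom ℝ) (S a).F))) :
    CF fun a => ∃ x, eval x (kap (S a).n (map (Int.castRingHom ℝ) (S a).F)) = 0 := by
  classical
  obtain ⟨b, b1, b2⟩ := PF.bound (P := fun a => P1 (S a)) (by unfold P1; fun_prop)
  obtain ⟨c, hc, ec⟩ : ∃ c : α → ℤ, PF c ∧ ∀ a, c a = (2 ^ 2 ^ b a : ℕ) + 1 :=
    ⟨_, by push_cast; fun_prop, fun _ => rfl⟩
  obtain ⟨E, hE, eE⟩ : ∃ E : α → ℤ, PF E ∧ ∀ a,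
      E a = ((2 ^ b a : ℕ) + 1) * (2 ^ 2 ^ b a : ℕ) * c a ^ 2 ^ b a + 1 :=
    ⟨_, by simp only [Nat.cast_pow _ (2 ^ _)]; fun_prop, fun _ => rfl⟩
  obtain ⟨b', b3, b4⟩ := PF.bound (P := fun a => P2 (S a) (c a) (E a)) (by unfold P2; fun_prop)
  obtain ⟨s, hs, es⟩ : ∃ s : α → ℤ, PF s ∧ ∀ a, s a = (2 ^ 2 ^ b' a : ℕ) + 1 :=
    ⟨_, by push_cast; fun_prop, fun _ => rfl⟩
  obtain ⟨u, hu, eu⟩ : ∃ u : α → ℕ, CF u ∧ ∀ a,
      u a = (S a).d ^ (S a).n + (S a).n * ((S a).d ^ (S a).n * (S a).d ^ (S a).n) :=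
    ⟨_, by fun_prop, fun _ => rfl⟩
  obtain ⟨q, hq, eq⟩ : ∃ q : α × ℕ → Polynomial (Polynomial ℤ), PF q ∧ ∀ x, q x =
      Out (S x.1) (c x.1) (E x.1) (4 * u x.1 + 1 + 1 + (2 ^ b' x.1 + 1) * 2) (80 * (4 * u x.1 + 1) *
        (100 * ((S x.1).n + 1) * (128 * ((S x.1).d ^ (S x.1).n) ^ 3) * (S x.1).d ^ (S x.1).n) ^ 2)
        (128 * ((S x.1).d ^ (S x.1).n) ^ 3)
        ((s x.1 : Polynomial ℤ) * ((x.2 : Polynomial ℤ) + 1 +
          ((4 * u x.1 + 1 : ℕ) : Polynomial ℤ) * Polynomial.X))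
        ((s x.1 : Polynomial ℤ) * ((x.2 : Polynomial ℤ) + 1 -
          ((4 * u x.1 + 1 : ℕ) : Polynomial ℤ) * Polynomial.X)) :=
    ⟨_, by fun_prop, fun _ => rfl⟩
  obtain ⟨T, hT, eT⟩ := PF.half (A := fun x => (q x).coeff 1) (B := fun x => (q x).coeff 0)
    (by fun_prop) (by fun_prop)
  refine CF.congr (f := fun a => 2 * u a < ((range (4 * u a + 1)).filter fun k => T (a, k)).card)
    (by fun_prop) fun a => propext ?_
  obtain ⟨y, hy⟩ := (S a).exists_sol (E a)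
  have h1 := step1 (S a) (hd a) (hF a) _ _
    (fun k l => (N_coeff_le _ l).trans ((N_coeff_le _ k).trans (b2 a)))
    (fun k => natDegree_le_of_N ((N_coeff_le _ k).trans (b2 a))) _ _ (ec a) (eE a) hy
  have h2 := step2 (S a) (c a) (E a) _ (fun k => (N_coeff_le _ k).trans (b4 a)) hy
  have h3 := angle (4 * u a + 1) univ ((S a).W (c a) (E a) y)
  rw [show univ.card = u a by simp [eu]] at h3
  have h4 := fun k hk hb => (step3 (S a) (c a) (E a) _ (4 * u a + 1) k _ hk _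
    (Polynomial.eval₂RingHom (Int.castRingHom ℂ) Complex.I) Polynomial.X (by simp) hy h1 h2 hb
    (by
      rw [pow_add, pow_mul, pow_succ 2 (4 * u a + 1), mul_comm _ 2, pow_succ 2 (2 ^ b' a)]
      have := Nat.pow_pos (n := 2 ^ b' a) two_pos
      exact Nat.mul_le_mul (Nat.mul_le_mul_left _ Nat.lt_two_pow_self.le)
        (Nat.pow_le_pow_left (by omega) _)) _ (es a) _ (eq (a, k)))
  replace h4 := fun k hk hb => (eT (a, k) (h4 k hk hb).1).trans (h4 k hk hb).2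
  refine ⟨fun h => ?_, fun h => by_contra fun hZ => h.not_ge (le_trans (card_le_card ?_) h3)⟩
  · have h5 := card_filter_add_card_filter_not (s := range (4 * u a + 1)) fun k => T (a, k)
    rw [card_range] at h5
    have h6 := (card_le_card (s := (range (4 * u a + 1)).filter fun k => ¬ T (a, k)) fun k hk =>
      mem_filter.2 ⟨(mem_filter.1 hk).1, by_contra fun hb => (mem_filter.1 hk).2
        ((h4 k (mem_range.1 (mem_filter.1 hk).1) hb).2 h)⟩).trans h3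
    omega
  · exact fun k hk => mem_filter.2 ⟨(mem_filter.1 hk).1, by_contra fun hb =>
      hZ ((h4 k (mem_range.1 (mem_filter.1 hk).1) hb).1 (mem_filter.1 hk).2)⟩

theorem zero_core {f : α → MvPolynomial ℕ ℤ} {n : α → ℕ} (hf : PF f) (hn : Sm n) :
    CP fun a => ∃ x : Fin (n a) → ℝ, aeval (ext x) (f a) = 0 := by
  obtain ⟨b, b1, b2⟩ := (hf.mul hf).bound
  have e : ∀ a (x : Fin (n a) → ℝ), eval x (kap (n a) (map (Int.castRingHom ℝ) (f a * f a))) =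
      aeval (ext x) (f a) * aeval (ext x) (f a) := fun a x => by
    rw [← map_kap, eval_map, eval₂_kap, eval₂_mul]; rfl
  refine (cf_iff.1 (zero_sys (S := fun a => ⟨n a, 2 * 2 ^ b a + 1, f a * f a,
    (totalDegree_le_of_N (b2 a)).trans_lt (by omega)⟩) ⟨hn, by fun_prop, hf.mul hf⟩
    (fun a => odd_two_mul_add_one _) fun a x => ?_)).congr fun a => ?_
  · rw [e]; exact mul_self_nonneg _
  · simp only [e, mul_self_eq_zero]

end Vale.Agent.P337
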