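import Vale.Agent.P337.PF
import Vale.Agent.P337.Top

/-! The sum of squares of a system as a polynomial family. -/

namespace Vale.Agent.P337

open Vale.Agent.Lib.PolyTime MvPolynomial Finset

theorem list_sum_range {β M : Type} [AddCommMonoid M] (l : List β) (d : β) (f : β → M) :
    (l.map f).sum = ∑ i ∈ range l.length, f (l.getD i d) := by
  induction l with
  | nil => simp
  | cons a l ih => rw [List.length_cons, sum_range_succ', List.map_cons, List.sum_cons, ih]; simp [add_comm]

theorem list_prod_range {β M : Type} [CommMonoid M] (l : List β) (d : β) (f : β → M) :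
    (l.map f).prod = ∏ i ∈ range l.length, f (l.getD i d) := by
  induction l with
  | nil => simp
  | cons a l ih => rw [List.length_cons, prod_range_succ', List.map_cons, List.prod_cons, ih]; simp [mul_comm]

theorem pf_monP : PF monP := by
  refine PF.congr (P := fun μ : Mon => (if μ.1 = true then -1 else 1) * (μ.2.1 : RR) *
    ∏ i ∈ range μ.2.2.length, X (μ.2.2.getD i 0)) (by fun_prop) fun μ => ?_
  rw [monP, list_prod_range _ 0]

theorem pf_toP : PF toP := by
  have := pf_monP
  refine PF.congr (P := fun L : List Mon => ∑ i ∈ range L.length, monP (L.getD i default))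
    (by fun_prop) fun L => ?_
  rw [toP, list_sum_range _ default]

/-- The sum of squares. -/
noncomputable def sqs (I : Inst) : RR := ∑ i ∈ range I.2.length, toP (I.2.getD i []) ^ 2

theorem pf_sqs : PF sqs := by
  have := pf_toP
  unfold sqs
  fun_prop

theorem aeval_toP_congr {n : ℕ} {L : List Mon} (h : ∀ μ ∈ L, ∀ v ∈ μ.2.2, v < n) {x y : ℕ → ℝ}
    (hxy : ∀ v < n, x v = y v) : aeval x (toP L) = aeval y (toP L) := by
  unfold toP
  rw [map_list_sum, map_list_sum, List.map_map, List.map_map]
  congr 1
  refine List.map_congr_left fun μ hμ => ?_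
  simp only [Function.comp, monP, map_mul, map_list_prod, List.map_map, map_natCast]
  congr 1
  · split_ifs <;> simp
  · congr 1
    exact List.map_congr_left fun v hv => by simpa using hxy v (h μ hμ v hv)

theorem aeval_sqs (I : Inst) (x : ℕ → ℝ) :
    aeval x (sqs I) = 0 ↔ ∀ A ∈ I.2, aeval x (toP A) = 0 := by
  rw [sqs, map_sum, sum_eq_zero_iff_of_nonneg fun i _ => by rw [map_pow]; positivity]
  simp only [map_pow, pow_eq_zero_iff two_ne_zero, mem_range]
  refine ⟨fun h A hA => ?_, fun h i hi => h _ (by simp [hi])⟩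
  obtain ⟨i, hi, rfl⟩ := List.getElem_of_mem hA
  simpa [hi] using h i hi

theorem etr_of_core (h : ∀ {f : Inst → RR} {n : Inst → ℕ}, PF f → Sm n →
    CP fun a => ∃ x : Fin (n a) → ℝ, aeval (ext x) (f a) = 0) : ∃ j, ETR ∈ Level j := by
  refine etr_of_test ⟨_, h (n := fun I => I.1.length) pf_sqs (by fun_prop), fun I hI => ?_⟩
  simp only [aeval_sqs]
  refine ⟨fun ⟨x, hx⟩ => ⟨_, hx⟩, fun ⟨x, hx⟩ => ⟨fun i => x i, fun A hA => ?_⟩⟩
  rw [← hx A hA]
  exact aeval_toP_congr (hI A hA) fun v hv => by simp [ext, hv]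

end Vale.Agent.P337
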